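import Vale.Agent.P250.Full.Spec
import Vale.Agent.P274.Full.Patch.Smooth

/-!
Wirtinger calculus: product and chain rules, and the Levi form of functions of holomorphic
functions.
-/

namespace Vale.Agent.P250.Full.Calc

open Complex Filter
open scoped ComplexConjugate Topology ContDiff

variable {n : ℕ} {f g : (Fin n → ℂ) → ℂ} {p : Fin n → ℂ}

theorem wd_congr (h : f =ᶠ[𝓝 p] g) (i : Fin n) : wd i f p = wd i g p := by
  simp only [wd, h.fderiv_eq]

theorem wdb_congr (h : f =ᶠ[𝓝 p] g) (i : Fin n) : wdb i f p = wdb i g p := by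
  simp only [wdb, h.fderiv_eq]

theorem wd_const (c : ℂ) (i : Fin n) : wd i (fun _ => c) p = 0 := by
  simp [wd]

theorem wdb_const (c : ℂ) (i : Fin n) : wdb i (fun _ => c) p = 0 := by
  simp [wdb]

theorem wd_add (hf : DifferentiableAt ℝ f p) (hg : DifferentiableAt ℝ g p) (i : Fin n) :
    wd i (fun q => f q + g q) p = wd i f p + wd i g p := by
  simp only [wd, fderiv_fun_add hf hg, ContinuousLinearMap.add_apply]
  ring

theorem wdb_add (hf : DifferentiableAt ℝ f p) (hg : DifferentiableAt ℝ g p) (i : Fin n) :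
    wdb i (fun q => f q + g q) p = wdb i f p + wdb i g p := by
  simp only [wdb, fderiv_fun_add hf hg, ContinuousLinearMap.add_apply]
  ring

theorem wd_mul (hf : DifferentiableAt ℝ f p) (hg : DifferentiableAt ℝ g p) (i : Fin n) :
    wd i (fun q => f q * g q) p = wd i f p * g p + f p * wd i g p := by
  simp only [wd, fderiv_fun_mul hf hg, ContinuousLinearMap.add_apply,
    ContinuousLinearMap.smul_apply, smul_eq_mul]
  ring

theorem wdb_mul (hf : DifferentiableAt ℝ f p) (hg : DifferentiableAt ℝ g p) (i : Fin n) :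
    wdb i (fun q => f q * g q) p = wdb i f p * g p + f p * wdb i g p := by
  simp only [wdb, fderiv_fun_mul hf hg, ContinuousLinearMap.add_apply,
    ContinuousLinearMap.smul_apply, smul_eq_mul]
  ring

theorem single_I (i : Fin n) : (Pi.single i I : Fin n → ℂ) = I • (Pi.single i 1 : Fin n → ℂ) := by
  rw [← Pi.single_smul', smul_eq_mul, mul_one]

theorem wd_hol (hf : DifferentiableAt ℂ f p) (i : Fin n) :
    wd i f p = fderiv ℂ f p (Pi.single i 1) := by
  simp only [wd, hf.fderiv_restrictScalars ℝ, ContinuousLinearMap.coe_restrictScalars',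
    single_I, map_smul, smul_eq_mul]
  linear_combination (-(fderiv ℂ f p (Pi.single i 1)) / 2) * I_sq

theorem wdb_hol (hf : DifferentiableAt ℂ f p) (i : Fin n) : wdb i f p = 0 := by
  simp only [wdb, hf.fderiv_restrictScalars ℝ, ContinuousLinearMap.coe_restrictScalars',
    single_I, map_smul, smul_eq_mul]
  linear_combination (fderiv ℂ f p (Pi.single i 1) / 2) * I_sq

theorem differentiableAt_conj (hf : DifferentiableAt ℝ f p) :
    DifferentiableAt ℝ (fun q => conj (f q)) p :=
  Complex.conjCLE.differentiableAt.comp p hf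

theorem fderiv_conj (hf : DifferentiableAt ℝ f p) (v : Fin n → ℂ) :
    fderiv ℝ (fun q => conj (f q)) p v = conj (fderiv ℝ f p v) := by
  have h : HasFDerivAt (fun q => conj (f q))
      ((Complex.conjCLE : ℂ →L[ℝ] ℂ).comp (fderiv ℝ f p)) p :=
    Complex.conjCLE.hasFDerivAt.comp p hf.hasFDerivAt
  rw [h.fderiv]
  rfl

theorem wd_conj (hf : DifferentiableAt ℝ f p) (i : Fin n) :
    wd i (fun q => conj (f q)) p = conj (wdb i f p) := by
  simp [wd, wdb, fderiv_conj hf, map_ofNat, sub_eq_add_neg]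

theorem wdb_conj (hf : DifferentiableAt ℝ f p) (i : Fin n) :
    wdb i (fun q => conj (f q)) p = conj (wd i f p) := by
  simp [wd, wdb, fderiv_conj hf, map_ofNat, sub_eq_add_neg]

theorem differentiableAt_ofReal {u : (Fin n → ℂ) → ℝ} (hu : DifferentiableAt ℝ u p) :
    DifferentiableAt ℝ (fun q => (u q : ℂ)) p :=
  Complex.ofRealCLM.differentiableAt.comp p hu

theorem fderiv_ofReal {u : (Fin n → ℂ) → ℝ} (hu : DifferentiableAt ℝ u p) (v : Fin n → ℂ) :
    fderiv ℝ (fun q => (u q : ℂ)) p v = (fderiv ℝ u p v : ℂ) := by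
  have h : HasFDerivAt (fun q => (u q : ℂ)) (Complex.ofRealCLM.comp (fderiv ℝ u p)) p :=
    Complex.ofRealCLM.hasFDerivAt.comp p hu.hasFDerivAt
  rw [h.fderiv]
  rfl

theorem wd_comp {u : (Fin n → ℂ) → ℝ} {P : ℝ → ℝ} {P' : ℝ} (hu : DifferentiableAt ℝ u p)
    (hP : HasDerivAt P P' (u p)) (i : Fin n) :
    wd i (fun q => (P (u q) : ℂ)) p = P' * wd i (fun q => (u q : ℂ)) p := by
  have h : HasFDerivAt (fun q => P (u q)) (P' • fderiv ℝ u p) p :=
    hP.comp_hasFDerivAt p hu.hasFDerivAt
  simp only [wd, fderiv_ofReal hu, fderiv_ofReal h.differentiableAt, h.fderiv,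
    ContinuousLinearMap.smul_apply, smul_eq_mul, ofReal_mul]
  ring

theorem wdb_comp {u : (Fin n → ℂ) → ℝ} {P : ℝ → ℝ} {P' : ℝ} (hu : DifferentiableAt ℝ u p)
    (hP : HasDerivAt P P' (u p)) (i : Fin n) :
    wdb i (fun q => (P (u q) : ℂ)) p = P' * wdb i (fun q => (u q : ℂ)) p := by
  have h : HasFDerivAt (fun q => P (u q)) (P' • fderiv ℝ u p) p :=
    hP.comp_hasFDerivAt p hu.hasFDerivAt
  simp only [wdb, fderiv_ofReal hu, fderiv_ofReal h.differentiableAt, h.fderiv,
    ContinuousLinearMap.smul_apply, smul_eq_mul, ofReal_mul]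
  ring

theorem contDiffAt_ofReal {u : (Fin n → ℂ) → ℝ} {k : WithTop ℕ∞} (hu : ContDiffAt ℝ k u p) :
    ContDiffAt ℝ k (fun q => (u q : ℂ)) p :=
  Complex.ofRealCLM.contDiff.contDiffAt.comp p hu

theorem differentiableAt_wdb (hf : ContDiffAt ℝ 2 f p) (i : Fin n) :
    DifferentiableAt ℝ (wdb i f) p := by
  have h : DifferentiableAt ℝ (fderiv ℝ f) p :=
    (hf.fderiv_right (m := 1) (by norm_num)).differentiableAt (by norm_num)
  have h1 : DifferentiableAt ℝ (fun q => fderiv ℝ f q (Pi.single i 1)) p :=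
    h.clm_apply (differentiableAt_const _)
  have h2 : DifferentiableAt ℝ (fun q => fderiv ℝ f q (Pi.single i I)) p :=
    h.clm_apply (differentiableAt_const _)
  unfold wdb
  simp only [div_eq_mul_inv]
  fun_prop

/-! ### The Levi form on `ℂ²` -/

section two

variable {W V : (Fin 2 → ℂ) → ℝ} {z : Fin 2 → ℂ}

theorem eventually_differentiableAt (hW : ContDiffAt ℝ 2 W z) :
    ∀ᶠ q in 𝓝 z, DifferentiableAt ℝ W q :=
  (hW.eventually (by simp)).mono fun _ h => h.differentiableAt (by norm_num)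

theorem lev_congr (h : W =ᶠ[𝓝 z] V) (a b : Fin 2) : lev W a b z = lev V a b z := by
  refine wd_congr ?_ a
  filter_upwards [h.eventuallyEq_nhds] with q hq
  exact wdb_congr (hq.mono fun x hx => by rw [hx]) b

theorem lev_add (hW : ContDiffAt ℝ 2 W z) (hV : ContDiffAt ℝ 2 V z) (a b : Fin 2) :
    lev (fun q => W q + V q) a b z = lev W a b z + lev V a b z := by
  unfold lev
  rw [← wd_add (differentiableAt_wdb (contDiffAt_ofReal hW) b)
    (differentiableAt_wdb (contDiffAt_ofReal hV) b) a]
  refine wd_congr ?_ a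
  filter_upwards [eventually_differentiableAt hW, eventually_differentiableAt hV] with q h1 h2
  rw [← wdb_add (differentiableAt_ofReal h1) (differentiableAt_ofReal h2) b]
  simp only [ofReal_add]

theorem lev_const (c : ℝ) (a b : Fin 2) : lev (fun _ => c) a b z = 0 := by
  simp only [lev, wdb_const, wd_const]

theorem lev_const_mul (hW : ContDiffAt ℝ 2 W z) (c : ℝ) (a b : Fin 2) :
    lev (fun q => c * W q) a b z = c * lev W a b z := by
  unfold lev
  have h : (fun q => wdb b (fun q' => ((c * W q' : ℝ) : ℂ)) q)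
      =ᶠ[𝓝 z] fun q => (c : ℂ) * wdb b (fun q' => (W q' : ℂ)) q := by
    filter_upwards [eventually_differentiableAt hW] with q hq
    simp only [ofReal_mul]
    rw [wdb_mul (differentiableAt_const _) (differentiableAt_ofReal hq), wdb_const]
    ring
  rw [wd_congr h, wd_mul (differentiableAt_const _)
    (differentiableAt_wdb (contDiffAt_ofReal hW) b), wd_const]
  ring

theorem lev_sum {ι : Type*} (s : Finset ι) {F : ι → (Fin 2 → ℂ) → ℝ}
    (hF : ∀ i ∈ s, ContDiffAt ℝ 2 (F i) z) (a b : Fin 2) :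
    lev (fun q => ∑ i ∈ s, F i q) a b z = ∑ i ∈ s, lev (F i) a b z := by
  classical
  induction s using Finset.induction_on with
  | empty => simp [lev_const]
  | insert i s hi ih =>
    rw [Finset.forall_mem_insert] at hF
    simp only [Finset.sum_insert hi]
    rw [lev_add hF.1 (ContDiffAt.sum hF.2), ih hF.2]

theorem levQ_sum {ι : Type*} (s : Finset ι) {F : ι → (Fin 2 → ℂ) → ℝ}
    (hF : ∀ i ∈ s, ContDiffAt ℝ 2 (F i) z) (v : Fin 2 → ℂ) :
    levQ (fun q => ∑ i ∈ s, F i q) z v = ∑ i ∈ s, levQ (F i) z v := by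
  simp only [levQ, lev_sum s hF, Finset.sum_mul, ← re_sum]
  congr 1
  simp only [Finset.sum_comm (γ := ι)]

theorem eventually_hol {H : (Fin 2 → ℂ) → ℂ} {U : Set (Fin 2 → ℂ)} (hU : IsOpen U)
    (hH : DifferentiableOn ℂ H U) (hz : z ∈ U) : ∀ᶠ q in 𝓝 z, DifferentiableAt ℂ H q :=
  Filter.eventually_of_mem (hU.mem_nhds hz) fun _ hq => hH.differentiableAt (hU.mem_nhds hq)

/-- The Levi form of a radial function of a holomorphic function. -/
theorem lev_radial {H : (Fin 2 → ℂ) → ℂ} {U : Set (Fin 2 → ℂ)} (hU : IsOpen U)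
    (hH : DifferentiableOn ℂ H U) (hz : z ∈ U) {P P' : ℝ → ℝ} {P'' : ℝ}
    (hP : ∀ᶠ x in 𝓝 (normSq (H z)), HasDerivAt P (P' x) x)
    (hP' : HasDerivAt P' P'' (normSq (H z))) (a b : Fin 2) :
    lev (fun q => P (normSq (H q))) a b z
      = ((P' (normSq (H z)) + normSq (H z) * P'' : ℝ) : ℂ)
        * fderiv ℂ H z (Pi.single a 1) * conj (fderiv ℂ H z (Pi.single b 1)) := by
  have hev := eventually_hol hU hH hz
  have hdH : DifferentiableAt ℂ H z := hev.self_of_nhds
  have hR : ∀ q, DifferentiableAt ℂ H q → DifferentiableAt ℝ (fun x => normSq (H x)) q := by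
    intro q hq
    have : (fun x => normSq (H x)) = fun x => Complex.re (H x * conj (H x)) := by
      funext x; rw [mul_conj, ofReal_re]
    rw [this]
    exact Complex.reCLM.differentiableAt.comp q
      ((hq.restrictScalars ℝ).mul (differentiableAt_conj (hq.restrictScalars ℝ)))
  have hx : ∀ q, DifferentiableAt ℂ H q → ∀ i,
      wdb i (fun x => (normSq (H x) : ℂ)) q = H q * conj (fderiv ℂ H q (Pi.single i 1)) ∧
      wd i (fun x => (normSq (H x) : ℂ)) q = fderiv ℂ H q (Pi.single i 1) * conj (H q) := by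
    intro q hq i
    have hq' := hq.restrictScalars ℝ
    simp only [← mul_conj]
    rw [wdb_mul hq' (differentiableAt_conj hq'), wd_mul hq' (differentiableAt_conj hq'),
      wdb_conj hq', wd_conj hq', wd_hol hq, wdb_hol hq]
    simp
  have hcont : Tendsto (fun q => normSq (H q)) (𝓝 z) (𝓝 (normSq (H z))) :=
    (hR z hdH).continuousAt
  have hder : DifferentiableAt ℂ (fun q => fderiv ℂ H q (Pi.single b 1)) z :=
    (P274.Full.PatchAux.differentiableOn_fderiv_apply hU hH _).differentiableAt (hU.mem_nhds hz)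
  have h1 : (fun q => wdb b (fun q' => (P (normSq (H q')) : ℂ)) q) =ᶠ[𝓝 z] fun q =>
      (P' (normSq (H q)) : ℂ) * (H q * conj (fderiv ℂ H q (Pi.single b 1))) := by
    filter_upwards [hev, hcont.eventually hP] with q hq hPq
    rw [wdb_comp (hR q hq) hPq, (hx q hq b).1]
  have hd1 : DifferentiableAt ℝ (fun q => (P' (normSq (H q)) : ℂ)) z :=
    differentiableAt_ofReal (u := fun q => P' (normSq (H q))) (hP'.differentiableAt.comp z (hR z hdH))
  have hd2 := differentiableAt_conj (hder.restrictScalars ℝ)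
  have hH' := hdH.restrictScalars ℝ
  unfold lev
  rw [wd_congr h1, wd_mul hd1 (hH'.fun_mul hd2), wd_mul hH' hd2, wd_conj (hder.restrictScalars ℝ),
    wdb_hol hder, wd_comp (hR z hdH) hP', (hx z hdH a).2, wd_hol hdH, map_zero]
  have e : conj (H z) * H z = (normSq (H z) : ℂ) := (normSq_eq_conj_mul_self).symm
  push_cast
  rw [← e]
  ring

/-- The real part of a holomorphic function is pluriharmonic. -/
theorem lev_re {H : (Fin 2 → ℂ) → ℂ} {U : Set (Fin 2 → ℂ)} (hU : IsOpen U)
    (hH : DifferentiableOn ℂ H U) (hz : z ∈ U) (a b : Fin 2) :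
    lev (fun q => (H q).re) a b z = 0 := by
  have hev := eventually_hol hU hH hz
  have hder : DifferentiableAt ℂ (fun q => fderiv ℂ H q (Pi.single b 1)) z :=
    (P274.Full.PatchAux.differentiableOn_fderiv_apply hU hH _).differentiableAt (hU.mem_nhds hz)
  have h1 : (fun q => wdb b (fun q' => ((H q').re : ℂ)) q) =ᶠ[𝓝 z] fun q =>
      (1 / 2 : ℂ) * conj (fderiv ℂ H q (Pi.single b 1)) := by
    filter_upwards [hev] with q hq
    have hq' := hq.restrictScalars ℝ
    have : (fun q' => ((H q').re : ℂ)) = fun q' => (1 / 2 : ℂ) * (H q' + conj (H q')) := by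
      funext x; rw [add_conj]; push_cast; ring
    rw [this, wdb_mul (differentiableAt_const _) (hq'.fun_add (differentiableAt_conj hq')), wdb_const,
      wdb_add hq' (differentiableAt_conj hq'), wdb_conj hq', wdb_hol hq, wd_hol hq]
    ring
  unfold lev
  rw [wd_congr h1, wd_mul (differentiableAt_const _) (differentiableAt_conj
    (hder.restrictScalars ℝ)), wd_const, wd_conj (hder.restrictScalars ℝ), wdb_hol hder]
  simp

theorem differentiableAt_coord (i : Fin 2) : DifferentiableAt ℂ (fun q : Fin 2 → ℂ => q i) z :=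
  (ContinuousLinearMap.proj (R := ℂ) (φ := fun _ : Fin 2 => ℂ) i).differentiableAt

theorem fderiv_coord (i a : Fin 2) :
    fderiv ℂ (fun q : Fin 2 → ℂ => q i) z (Pi.single a 1) = if a = i then 1 else 0 := by
  rw [show (fun q : Fin 2 → ℂ => q i) = ⇑(ContinuousLinearMap.proj (R := ℂ)
    (φ := fun _ : Fin 2 => ℂ) i) from rfl, ContinuousLinearMap.fderiv]
  simp [Pi.single_apply, eq_comm]

/-- The Levi form of `lb` is the ball metric. -/
theorem lev_lb (hz : z ∈ ball2) (a b : Fin 2) : lev lb a b z = omb a b z := by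
  have hd : ∀ q, DifferentiableAt ℝ nsq q := fun q =>
    by unfold nsq; simp only [normSq_apply]; fun_prop
  have hx : ∀ q i, wdb i (fun x => (nsq x : ℂ)) q = q i ∧
      wd i (fun x => (nsq x : ℂ)) q = conj (q i) := by
    intro q i
    have h0 := (differentiableAt_coord (z := q) 0).restrictScalars ℝ
    have h1 := (differentiableAt_coord (z := q) 1).restrictScalars ℝ
    simp only [nsq, ofReal_add, ← mul_conj]
    rw [wdb_add (h0.fun_mul (differentiableAt_conj h0)) (h1.fun_mul (differentiableAt_conj h1)),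
      wd_add (h0.fun_mul (differentiableAt_conj h0)) (h1.fun_mul (differentiableAt_conj h1)),
      wdb_mul h0 (differentiableAt_conj h0), wdb_mul h1 (differentiableAt_conj h1),
      wd_mul h0 (differentiableAt_conj h0), wd_mul h1 (differentiableAt_conj h1)]
    simp only [wdb_conj h0, wdb_conj h1, wd_conj h0, wd_conj h1,
      wd_hol (differentiableAt_coord _), wdb_hol (differentiableAt_coord _), fderiv_coord]
    fin_cases i <;> simp
  have hP : ∀ x : ℝ, x < 1 →
      HasDerivAt (fun x => -Real.log (1 - x)) (1 - x)⁻¹ x := fun x hx1 => by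
    have := (((hasDerivAt_id x).const_sub 1).log (sub_ne_zero.2 hx1.ne')).neg
    simpa [div_eq_mul_inv, Pi.neg_def] using this
  have hz1 : nsq z < 1 := hz
  have hP' : HasDerivAt (fun x : ℝ => (1 - x)⁻¹) (1 / (1 - nsq z) ^ 2) (nsq z) := by
    simpa [Pi.inv_def] using ((hasDerivAt_id (nsq z)).const_sub 1).inv (sub_ne_zero.2 hz1.ne')
  have h1 : (fun q => wdb b (fun q' => (lb q' : ℂ)) q) =ᶠ[𝓝 z]
      fun q => (((1 - nsq q)⁻¹ : ℝ) : ℂ) * q b := by
    filter_upwards [(hd z).continuousAt.eventually (Iio_mem_nhds hz1)] with q hq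
    unfold lb
    rw [wdb_comp (hd q) (hP _ hq), (hx q b).1]
  unfold lev
  rw [wd_congr h1, wd_mul (differentiableAt_ofReal (u := fun q => (1 - nsq q)⁻¹) (hP'.differentiableAt.comp z (hd z)))
    ((differentiableAt_coord b).restrictScalars ℝ), wd_comp (hd z) hP', (hx z a).2,
    wd_hol (differentiableAt_coord b), fderiv_coord, omb]
  push_cast
  ring

end two

end Vale.Agent.P250.Full.Calc
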