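import Vale.Agent.P250.Full.Spec

/-!
Geodesic completeness of the example: the potential `A lb - log (1 - x)` is an exhaustion with
bounded gradient, and geodesics have constant speed.
-/

namespace Vale.Agent.P250.Full

open Complex Matrix Set
open scoped ContDiff ComplexConjugate Topology NNReal ComplexOrder

namespace CompleteAux

section Field

variable {n : ℕ} (g : (Fin n → ℂ) → Matrix (Fin n) (Fin n) ℂ)

/-- The directional derivative of the entries of the metric. -/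
noncomputable def dG (p v : Fin n → ℂ) : Matrix (Fin n) (Fin n) ℂ :=
  Matrix.of fun i j => fderiv ℝ (fun q => g q i j) p v

/-- Bilinear pairing of a fixed matrix. -/
noncomputable def pair (M : Matrix (Fin n) (Fin n) ℂ) (X Y : Fin n → ℂ) : ℝ :=
  (∑ i, ∑ j, M i j * X i * conj (Y j)).re

lemma rMet_eq_pair (p X Y : Fin n → ℂ) : rMet g p X Y = pair (g p) X Y := rfl

lemma fderiv_rMet {p : Fin n → ℂ} (hg : ∀ i j, DifferentiableAt ℝ (fun q => g q i j) p)
    (X Y V : Fin n → ℂ) :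
    fderiv ℝ (fun q => rMet g q X Y) p V = pair (dG g p V) X Y := by
  have h : HasFDerivAt (fun q => rMet g q X Y)
      (reCLM.comp (∑ i, ∑ j, (X i * conj (Y j)) • fderiv ℝ (fun q => g q i j) p)) p := by
    have h0 : HasFDerivAt (fun q => ∑ i, ∑ j, g q i j * (X i * conj (Y j)))
        (∑ i, ∑ j, (X i * conj (Y j)) • fderiv ℝ (fun q => g q i j) p) p :=
      HasFDerivAt.fun_sum fun i _ => HasFDerivAt.fun_sum fun j _ =>
        (hg i j).hasFDerivAt.mul_const (X i * conj (Y j))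
    have := reCLM.hasFDerivAt.comp p h0
    refine this.congr_of_eventuallyEq (Filter.Eventually.of_forall fun q => ?_)
    simp [rMet, mul_assoc]
  rw [h.fderiv]
  simp only [pair, dG, Matrix.of_apply, ContinuousLinearMap.coe_comp, Function.comp_apply,
    _root_.sum_apply, _root_.smul_apply, reCLM_apply, smul_eq_mul]
  congr 1
  refine Finset.sum_congr rfl fun i _ => Finset.sum_congr rfl fun j _ => ?_
  ring

lemma chr_self {p : Fin n → ℂ} (hg : ∀ i j, DifferentiableAt ℝ (fun q => g q i j) p)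
    (X W : Fin n → ℂ) :
    chr g p X X W = (2 * pair (dG g p X) X W - pair (dG g p W) X X) / 2 := by
  simp only [chr, fderiv_rMet g hg]
  ring

/-- `chr g p X X` as a linear map. -/
noncomputable def chrLin {p : Fin n → ℂ} (hg : ∀ i j, DifferentiableAt ℝ (fun q => g q i j) p)
    (X : Fin n → ℂ) : (Fin n → ℂ) →ₗ[ℝ] ℝ where
  toFun := chr g p X X
  map_add' W W' := by
    simp only [chr_self g hg, pair, dG, Matrix.of_apply, map_add, Pi.add_apply, mul_add, add_mul,
      Finset.sum_add_distrib, Complex.add_re]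
    ring
  map_smul' c W := by
    simp only [chr_self g hg, pair, dG, Matrix.of_apply, map_smul, Pi.smul_apply,
      Complex.real_smul, map_mul, Complex.conj_ofReal, RingHom.id_apply, smul_eq_mul]
    rw [show ∑ i, ∑ j, fderiv ℝ (fun q => g q i j) p X * X i * ((c : ℂ) * conj (W j))
        = (c : ℂ) * ∑ i, ∑ j, fderiv ℝ (fun q => g q i j) p X * X i * conj (W j) by
          simp only [Finset.mul_sum]
          exact Finset.sum_congr rfl fun i _ => Finset.sum_congr rfl fun j _ => by ring,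
      show ∑ i, ∑ j, (c : ℂ) * fderiv ℝ (fun q => g q i j) p W * X i * conj (X j)
        = (c : ℂ) * ∑ i, ∑ j, fderiv ℝ (fun q => g q i j) p W * X i * conj (X j) by
          simp only [Finset.mul_sum]
          exact Finset.sum_congr rfl fun i _ => Finset.sum_congr rfl fun j _ => by ring,
      Complex.re_ofReal_mul, Complex.re_ofReal_mul]
    ring

lemma vec_dec (W : Fin n → ℂ) :
    W = ∑ j, ((W j).re • (Pi.single j 1 : Fin n → ℂ) + (W j).im • (Pi.single j I : Fin n → ℂ)) := by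
  classical
  funext k
  simp only [Finset.sum_apply, Pi.add_apply, Pi.smul_apply]
  rw [Finset.sum_eq_single k (fun b _ hb => by simp [Pi.single_eq_of_ne hb.symm]) (by simp)]
  simp [Complex.real_smul, Complex.re_add_im]

lemma rMet_sharp {p : Fin n → ℂ} (hdet : (g p).det ≠ 0) (l : (Fin n → ℂ) →ₗ[ℝ] ℝ)
    (W : Fin n → ℂ) : rMet g p (sharp g p l) W = l W := by
  classical
  set u : Fin n → ℂ := fun j => (l (Pi.single j 1) : ℂ) + I * (l (Pi.single j I) : ℂ) with hu
  set V := sharp g p l with hV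
  have hVu : (g p).transpose *ᵥ V = u := by
    rw [hV, sharp, Matrix.mulVec_mulVec, Matrix.mul_nonsing_inv, Matrix.one_mulVec, hu]
    rw [Matrix.det_transpose]
    exact isUnit_iff_ne_zero.2 hdet
  have h1 : ∀ j, ∑ i, g p i j * V i = u j := fun j => by
    rw [← hVu]; simp [Matrix.mulVec, dotProduct]
  rw [rMet, Finset.sum_comm]
  simp only [← Finset.sum_mul, h1, Complex.re_sum]
  conv_rhs => rw [vec_dec W]
  simp only [map_sum, map_add, map_smul, smul_eq_mul, hu]
  refine Finset.sum_congr rfl fun j _ => ?_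
  simp [Complex.mul_re, Complex.add_re, Complex.add_im]
  ring

lemma rMet_symm {p : Fin n → ℂ} (hH : (g p).IsHermitian) (X Y : Fin n → ℂ) :
    rMet g p X Y = rMet g p Y X := by
  rw [rMet, rMet, ← Complex.conj_re]
  simp only [map_sum, map_mul, Complex.conj_conj]
  rw [Finset.sum_comm]
  congr 1
  refine Finset.sum_congr rfl fun i _ => Finset.sum_congr rfl fun j _ => ?_
  rw [show conj (g p j i) = g p i j from hH.apply i j]
  ring

/-- The geodesic vector field on the tangent bundle. -/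
noncomputable def fld (y : (Fin n → ℂ) × (Fin n → ℂ)) : (Fin n → ℂ) × (Fin n → ℂ) :=
  (y.2, -sharp g y.1 (chr g y.1 y.2 y.2))

variable {U : Set (Fin n → ℂ)}

lemma contDiffOn_fld (hU : IsOpen U) (hg : ∀ i j, ContDiffOn ℝ ∞ (fun q => g q i j) U)
    (hdet : ∀ p ∈ U, (g p).det ≠ 0) : ContDiffOn ℝ 1 (fld g) (U ×ˢ univ) := by
  classical
  have hfst : ContDiffOn ℝ 1 (fun y : (Fin n → ℂ) × (Fin n → ℂ) => y.1) (U ×ˢ univ) :=
    contDiffOn_fst
  have hm : MapsTo (fun y : (Fin n → ℂ) × (Fin n → ℂ) => y.1) (U ×ˢ univ) U := fun y hy => hy.1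
  have hG : ∀ i j, ContDiffOn ℝ 1 (fun y : (Fin n → ℂ) × (Fin n → ℂ) => g y.1 i j)
      (U ×ˢ univ) := fun i j => ((hg i j).of_le (by simp)).comp hfst hm
  have hdX : ∀ i j, ContDiffOn ℝ 1
      (fun y : (Fin n → ℂ) × (Fin n → ℂ) => fderiv ℝ (fun q => g q i j) y.1 y.2) (U ×ˢ univ) :=
    fun i j => (((hg i j).fderiv_of_isOpen hU (m := 1) (WithTop.coe_le_coe.2 le_top)).comp hfst hm).clm_apply
      contDiffOn_snd
  have hdW : ∀ W i j, ContDiffOn ℝ 1
      (fun y : (Fin n → ℂ) × (Fin n → ℂ) => fderiv ℝ (fun q => g q i j) y.1 W) (U ×ˢ univ) :=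
    fun W i j => (((hg i j).fderiv_of_isOpen hU (m := 1) (WithTop.coe_le_coe.2 le_top)).comp hfst hm).clm_apply
      contDiffOn_const
  have hX : ∀ i, ContDiffOn ℝ 1 (fun y : (Fin n → ℂ) × (Fin n → ℂ) => y.2 i) (U ×ˢ univ) :=
    fun i => (contDiff_apply ℝ ℂ i).comp_contDiffOn contDiffOn_snd
  have hcX : ∀ i, ContDiffOn ℝ 1 (fun y : (Fin n → ℂ) × (Fin n → ℂ) => conj (y.2 i))
      (U ×ˢ univ) := fun i => conjCLE.contDiff.comp_contDiffOn (hX i)
  have hchr : ∀ W, ContDiffOn ℝ 1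
      (fun y : (Fin n → ℂ) × (Fin n → ℂ) => chr g y.1 y.2 y.2 W) (U ×ˢ univ) := by
    intro W
    have e : ∀ y ∈ U ×ˢ (univ : Set (Fin n → ℂ)), chr g y.1 y.2 y.2 W
        = (2 * pair (dG g y.1 y.2) y.2 W - pair (dG g y.1 W) y.2 y.2) / 2 := fun y hy =>
      chr_self g (fun i j => ((hg i j).contDiffAt (hU.mem_nhds hy.1)).differentiableAt (by simp))
        _ _
    refine ContDiffOn.congr ?_ e
    simp only [pair, dG, Matrix.of_apply]
    refine ((contDiffOn_const.mul (reCLM.contDiff.comp_contDiffOn ?_)).sub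
      (reCLM.contDiff.comp_contDiffOn ?_)).div_const _
    · exact ContDiffOn.sum fun i _ => ContDiffOn.sum fun j _ =>
        ((hdX i j).mul (hX i)).mul contDiffOn_const
    · exact ContDiffOn.sum fun i _ => ContDiffOn.sum fun j _ =>
        ((hdW W i j).mul (hX i)).mul (hcX j)
  have hdetC : ∀ M : (Fin n → ℂ) × (Fin n → ℂ) → Matrix (Fin n) (Fin n) ℂ,
      (∀ i j, ContDiffOn ℝ 1 (fun y => M y i j) (U ×ˢ univ)) →
      ContDiffOn ℝ 1 (fun y => (M y).det) (U ×ˢ univ) := by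
    intro M hM
    simp only [Matrix.det_apply']
    exact ContDiffOn.sum fun σ _ => contDiffOn_const.mul (contDiffOn_prod fun i _ => hM _ _)
  have hinv : ∀ i j, ContDiffOn ℝ 1
      (fun y : (Fin n → ℂ) × (Fin n → ℂ) => ((g y.1).transpose)⁻¹ i j) (U ×ˢ univ) := by
    intro i j
    simp only [Matrix.inv_def, Matrix.smul_apply, smul_eq_mul, Ring.inverse_eq_inv',
      Matrix.adjugate_apply]
    refine (ContDiffOn.inv (hdetC _ fun a b => hG b a) fun y hy => ?_).mul
      (hdetC _ fun a b => ?_)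
    · show ((g y.1).transpose).det ≠ 0
      rw [Matrix.det_transpose]; exact hdet _ hy.1
    · simp only [Matrix.updateRow_apply, Matrix.transpose_apply]
      split_ifs
      · exact contDiffOn_const
      · exact hG b a
  refine contDiffOn_snd.prodMk (ContDiffOn.neg ?_)
  rw [contDiffOn_pi]
  intro i
  simp only [sharp, Matrix.mulVec, dotProduct]
  exact ContDiffOn.sum fun j _ => (hinv i j).mul ((ofRealCLM.contDiff.comp_contDiffOn (hchr _)).add
    (contDiffOn_const.mul (ofRealCLM.contDiff.comp_contDiffOn (hchr _))))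

/-- Speed is constant along time changes of geodesics. -/
lemma hasDerivAt_speed {a b : ℝ → Fin n → ℂ} {t c : ℝ}
    (hg : ∀ i j, DifferentiableAt ℝ (fun q => g q i j) (a t)) (hH : (g (a t)).IsHermitian)
    (hdet : (g (a t)).det ≠ 0) (ha : HasDerivAt a (c • b t) t)
    (hb : HasDerivAt b (c • -sharp g (a t) (chr g (a t) (b t) (b t))) t) :
    HasDerivAt (fun s => rMet g (a s) (b s) (b s)) 0 t := by
  set V := sharp g (a t) (chr g (a t) (b t) (b t)) with hV
  have key : rMet g (a t) V (b t) = pair (dG g (a t) (b t)) (b t) (b t) / 2 := by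
    rw [hV]
    refine (rMet_sharp g hdet (chrLin g hg (b t)) (b t)).trans ?_
    show chr g (a t) (b t) (b t) (b t) = _
    rw [chr_self g hg]; ring
  have hterm : ∀ i j, HasDerivAt (fun s => g (a s) i j * b s i * conj (b s j))
      ((c : ℂ) * fderiv ℝ (fun q => g q i j) (a t) (b t) * b t i * conj (b t j)
        - (c : ℂ) * (g (a t) i j * V i * conj (b t j))
        - (c : ℂ) * (g (a t) i j * b t i * conj (V j))) t := by
    intro i j
    have h1 : HasDerivAt (fun s => g (a s) i j)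
        (fderiv ℝ (fun q => g q i j) (a t) (c • b t)) t :=
      (hg i j).hasFDerivAt.comp_hasDerivAt t ha
    have h2 : HasDerivAt (fun s => b s i) ((c • -V) i) t := hasDerivAt_pi.1 hb i
    have h3 : HasDerivAt (fun s => conj (b s j)) (conj ((c • -V) j)) t :=
      conjCLE.toContinuousLinearMap.hasFDerivAt.comp_hasDerivAt t (hasDerivAt_pi.1 hb j)
    refine ((h1.mul h2).mul h3).congr_deriv ?_
    simp only [map_smul, Pi.smul_apply, Pi.neg_apply, Pi.mul_apply, Complex.real_smul, map_mul, map_neg,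
      Complex.conj_ofReal]
    ring
  have hsum := reCLM.hasFDerivAt.comp_hasDerivAt t
    (HasDerivAt.fun_sum (u := Finset.univ) fun i _ => HasDerivAt.fun_sum (u := Finset.univ)
      fun j _ => hterm i j)
  refine hsum.congr_deriv ?_
  have e2 : (∑ i, ∑ j, g (a t) i j * b t i * conj (V j)).re
      = (∑ i, ∑ j, g (a t) i j * V i * conj (b t j)).re := rMet_symm g hH (b t) V
  simp only [rMet, pair, dG, Matrix.of_apply] at key
  simp only [reCLM_apply, mul_assoc (c : ℂ), Finset.sum_sub_distrib, ← Finset.mul_sum,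
    Complex.sub_re, Complex.re_ofReal_mul]
  rw [e2, key]
  ring

lemma exists_rMet_lower {K : Set (Fin n → ℂ)} (hK : IsCompact K)
    (hg : ∀ i j, ContinuousOn (fun q => g q i j) K) (hpos : ∀ p ∈ K, (g p).PosDef) :
    ∃ m : ℝ, 0 < m ∧ ∀ p ∈ K, ∀ X, m * ‖X‖ ^ 2 ≤ rMet g p X X := by
  classical
  set S := K ×ˢ Metric.sphere (0 : Fin n → ℂ) 1 with hS
  have hc : ContinuousOn (fun y : (Fin n → ℂ) × (Fin n → ℂ) => rMet g y.1 y.2 y.2) S := by
    have hX : ∀ i, ContinuousOn (fun y : (Fin n → ℂ) × (Fin n → ℂ) => y.2 i) S :=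
      fun i => ((continuous_apply i).comp continuous_snd).continuousOn
    exact continuous_re.comp_continuousOn <| continuousOn_finsetSum _ fun i _ =>
      continuousOn_finsetSum _ fun j _ =>
        (((hg i j).comp continuousOn_fst fun y hy => hy.1).mul (hX i)).mul
          (continuous_conj.comp_continuousOn (hX j))
  have hpos' : ∀ p ∈ K, ∀ X : Fin n → ℂ, X ≠ 0 → 0 < rMet g p X X := by
    intro p hp X hX
    have h := (hpos p hp).dotProduct_mulVec_pos (x := star X)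
      (by simpa using hX)
    rw [Complex.lt_def] at h
    refine h.1.trans_eq ?_
    simp only [rMet, star_star, dotProduct, Matrix.mulVec, Finset.mul_sum, Pi.star_apply]
    congr 1
    exact Finset.sum_congr rfl fun i _ => Finset.sum_congr rfl fun j _ => by
      rw [← Complex.star_def]; ring
  obtain ⟨m, hm, hb⟩ : ∃ m : ℝ, 0 < m ∧ ∀ y ∈ S, m ≤ rMet g y.1 y.2 y.2 := by
    rcases S.eq_empty_or_nonempty with hE | hne
    · exact ⟨1, one_pos, by simp [hE]⟩
    obtain ⟨y, hy, hmin⟩ := (hK.prod (isCompact_sphere _ _)).exists_isMinOn hne hc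
    refine ⟨rMet g y.1 y.2 y.2, hpos' _ hy.1 _ ?_, fun z hz => hmin hz⟩
    intro h0
    simpa [h0] using hy.2
  refine ⟨m, hm, fun p hp X => ?_⟩
  rcases eq_or_ne X 0 with rfl | hX
  · simp [rMet]
  have hn : 0 < ‖X‖ := norm_pos_iff.2 hX
  have h := hb (p, ‖X‖⁻¹ • X) ⟨hp, by simp [norm_smul, hn.ne']⟩
  have e : rMet g p (‖X‖⁻¹ • X) (‖X‖⁻¹ • X) = (‖X‖⁻¹) ^ 2 * rMet g p X X := by
    simp only [rMet, Pi.smul_apply, Complex.real_smul, map_mul, Complex.conj_ofReal]
    rw [show ∑ i, ∑ j, g p i j * (((‖X‖⁻¹ : ℝ) : ℂ) * X i) * (((‖X‖⁻¹ : ℝ) : ℂ) * conj (X j))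
        = (((‖X‖⁻¹) ^ 2 : ℝ) : ℂ) * ∑ i, ∑ j, g p i j * X i * conj (X j) by
      simp only [Finset.mul_sum]
      exact Finset.sum_congr rfl fun i _ => Finset.sum_congr rfl fun j _ => by push_cast; ring,
      Complex.re_ofReal_mul]
  simp only at h
  rw [e, inv_pow, inv_mul_eq_div, le_div_iff₀ (by positivity)] at h
  exact h

end Field

section ODE

variable {E : Type*} [NormedAddCommGroup E] [NormedSpace ℝ E] [FiniteDimensional ℝ E]

lemma exists_cutoff {O L : Set E} (hO : IsOpen O) (hL : IsCompact L) (hLO : L ⊆ O) :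
    ∃ χ : E → ℝ, ContDiff ℝ 1 χ ∧ HasCompactSupport χ ∧ tsupport χ ⊆ O ∧
      (∀ y, 0 ≤ χ y ∧ χ y ≤ 1) ∧ ∀ y ∈ L, χ y = 1 := by
  obtain ⟨L', hL', hLL', hL'O⟩ := exists_compact_between hL hO hLO
  obtain ⟨f, hf, hfd, hf01⟩ :=
    (isOpen_interior (s := L')).exists_contDiff_support_eq (n := 1)
  obtain ⟨m, hm, hmb⟩ : ∃ m : ℝ, 0 < m ∧ ∀ y ∈ L, m ≤ f y := by
    rcases L.eq_empty_or_nonempty with hE | hne
    · exact ⟨1, one_pos, by simp [hE]⟩
    obtain ⟨y, hy, hmin⟩ := hL.exists_isMinOn hne hfd.continuous.continuousOn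
    refine ⟨f y, lt_of_le_of_ne (hf01 (mem_range_self y)).1 (Ne.symm ?_), fun z hz => hmin hz⟩
    have : y ∈ Function.support f := by rw [hf]; exact hLL' hy
    exact this
  refine ⟨fun y => Real.smoothTransition (f y / m), ?_, ?_, ?_, fun y =>
    ⟨Real.smoothTransition.nonneg _, Real.smoothTransition.le_one _⟩, fun y hy => ?_⟩
  · exact Real.smoothTransition.contDiff.comp (hfd.div_const m)
  · refine HasCompactSupport.intro hL' fun y hy => ?_
    have : f y = 0 := Function.notMem_support.1 (by rw [hf]; exact fun h => hy (interior_subset h))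
    simp [this]
  · refine (closure_minimal ?_ hL'.isClosed).trans hL'O
    intro y hy
    by_contra h
    have : f y = 0 := Function.notMem_support.1 (by rw [hf]; exact fun h' => h (interior_subset h'))
    exact hy (by simp [this])
  · exact Real.smoothTransition.one_of_one_le ((one_le_div hm).2 (hmb y hy))

omit [FiniteDimensional ℝ E] in
lemma exists_lipschitz_cutoff {O : Set E} (hO : IsOpen O) {f : E → E} (hf : ContDiffOn ℝ 1 f O)
    {χ : E → ℝ} (hχ : ContDiff ℝ 1 χ) (hc : HasCompactSupport χ) (hs : tsupport χ ⊆ O) :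
    ∃ (K : ℝ≥0) (C : ℝ), 0 ≤ C ∧ LipschitzWith K (fun y => χ y • f y) ∧
      ∀ y, ‖χ y • f y‖ ≤ C := by
  have hF : ContDiff ℝ 1 (fun y => χ y • f y) := by
    rw [contDiff_iff_contDiffAt]
    intro y
    by_cases hy : y ∈ tsupport χ
    · exact hχ.contDiffAt.smul (hf.contDiffAt (hO.mem_nhds (hs hy)))
    · refine (contDiffAt_const (c := (0 : E))).congr_of_eventuallyEq ?_
      filter_upwards [notMem_tsupport_iff_eventuallyEq.1 hy] with z hz
      simp [hz]
  have hcs : HasCompactSupport (fun y => χ y • f y) := hc.smul_right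
  obtain ⟨K, hK⟩ := hF.lipschitzWith_of_hasCompactSupport hcs one_ne_zero
  obtain ⟨C, hC⟩ := hcs.exists_bound_of_continuous hF.continuous
  exact ⟨K, max C 0, le_max_right _ _, hK, fun y => (hC y).trans (le_max_left _ _)⟩

/-- A bounded Lipschitz field has solutions on every interval. -/
lemma exists_solution {F : E → E} {K : ℝ≥0} (hF : LipschitzWith K F) {C : ℝ} (hC0 : 0 ≤ C)
    (hC : ∀ y, ‖F y‖ ≤ C) (y0 : E) {T : ℝ} (hT : 0 ≤ T) :
    ∃ y : ℝ → E, y 0 = y0 ∧ ∀ t ∈ Ioo (-T) T, HasDerivAt y (F (y t)) t := by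
  have h : IsPicardLindelof (fun _ => F) (tmin := -T) (tmax := T)
      ⟨0, by constructor <;> linarith⟩ y0 ((C * T).toNNReal) 0 C.toNNReal K := by
    refine ⟨fun t _ => hF.lipschitzOnWith, fun x _ => continuousOn_const, fun t _ x _ => ?_, ?_⟩
    · rw [Real.coe_toNNReal _ hC0]; exact hC x
    · rw [Real.coe_toNNReal _ hC0, Real.coe_toNNReal _ (mul_nonneg hC0 hT)]
      simp
  obtain ⟨y, hy, hd⟩ := h.exists_eq_forall_mem_Icc_hasDerivWithinAt₀
  exact ⟨y, hy, fun t ht => (hd t (Ioo_subset_Icc_self ht)).hasDerivAt (Icc_mem_nhds ht.1 ht.2)⟩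

omit [FiniteDimensional ℝ E] in
/-- Solutions of a cut off field never leave the support of the cutoff. -/
lemma mem_tsupport_of_solution {f : E → E} {χ : E → ℝ} {K : ℝ≥0}
    (hF : LipschitzWith K fun y => χ y • f y) {y : ℝ → E} {T : ℝ}
    (hy : ∀ t ∈ Ioo (-T) T, HasDerivAt y (χ (y t) • f (y t)) t) (h0 : y 0 ∈ tsupport χ)
    {t : ℝ} (ht : t ∈ Ioo (-T) T) : y t ∈ tsupport χ := by
  by_contra hn
  have hz : χ (y t) = 0 := image_eq_zero_of_notMem_tsupport hn
  have h := ODE_solution_unique_of_mem_Ioo (v := fun _ z => χ z • f z) (s := fun _ => univ)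
    (fun _ _ => hF.lipschitzOnWith) ht (g := fun _ => y t) (fun s hs => ⟨hy s hs, mem_univ _⟩)
    (fun s _ => ⟨by simpa [hz] using hasDerivAt_const s (y t), mem_univ _⟩) rfl
  have hT : (0 : ℝ) ∈ Ioo (-T) T := by constructor <;> linarith [ht.1, ht.2]
  exact hn (by rw [show y t = y 0 from (h hT).symm]; exact h0)

/-- A field whose solutions are confined to compact sets has global solutions. -/
lemma exists_global {O : Set E} (hO : IsOpen O) {f : E → E} (hf : ContDiffOn ℝ 1 f O) {y0 : E}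
    (h : ∀ T : ℝ, 0 < T → ∃ (L : Set E) (y : ℝ → E), IsCompact L ∧ L ⊆ O ∧ y 0 = y0 ∧
      ∀ t ∈ Ioo (-T) T, HasDerivAt y (f (y t)) t ∧ y t ∈ L) :
    ∃ y : ℝ → E, y 0 = y0 ∧ ∀ t, HasDerivAt y (f (y t)) t ∧ y t ∈ O := by
  choose L y hLc hLO hy0 hy using fun N : ℕ => h ((N : ℝ) + 1) (by positivity)
  have agree : ∀ N M : ℕ, N ≤ M → EqOn (y N) (y M) (Ioo (-((N : ℝ) + 1)) ((N : ℝ) + 1)) := by
    intro N M hNM
    obtain ⟨χ, hχ, hc, hs, -, h1⟩ :=
      exists_cutoff hO ((hLc N).union (hLc M)) (union_subset (hLO N) (hLO M))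
    obtain ⟨K, C, -, hK, -⟩ := exists_lipschitz_cutoff hO hf hχ hc hs
    have hle : (N : ℝ) ≤ M := by exact_mod_cast hNM
    refine ODE_solution_unique_of_mem_Ioo (v := fun _ z => χ z • f z) (s := fun _ => univ)
      (fun _ _ => hK.lipschitzOnWith) (t₀ := 0) ⟨by linarith [N.cast_nonneg (α := ℝ)], by positivity⟩
      (fun t ht => ⟨?_, mem_univ _⟩) (fun t ht => ⟨?_, mem_univ _⟩) (by rw [hy0, hy0])
    · rw [h1 _ (Or.inl (hy N t ht).2), one_smul]; exact (hy N t ht).1
    · have ht' : t ∈ Ioo (-((M : ℝ) + 1)) ((M : ℝ) + 1) :=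
        ⟨by linarith [ht.1], by linarith [ht.2]⟩
      rw [h1 _ (Or.inr (hy M t ht').2), one_smul]; exact (hy M t ht').1
  have inI : ∀ (t : ℝ) (N : ℕ), |t| ≤ N → t ∈ Ioo (-((N : ℝ) + 1)) ((N : ℝ) + 1) := fun t N h =>
    ⟨by linarith [(abs_le.1 h).1], by linarith [(abs_le.1 h).2]⟩
  set z : ℝ → E := fun t => y ⌈|t|⌉₊ t with hz
  have eq : ∀ (t : ℝ) (N : ℕ), t ∈ Ioo (-((N : ℝ) + 1)) ((N : ℝ) + 1) → z t = y N t := by
    intro t N ht
    rcases le_total ⌈|t|⌉₊ N with h' | h'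
    · exact agree _ _ h' (inI t _ (Nat.le_ceil _))
    · exact (agree _ _ h' ht).symm
  refine ⟨z, by rw [eq 0 0 (by simp)]; exact hy0 0, fun t => ?_⟩
  have ht := inI t ⌈|t|⌉₊ (Nat.le_ceil _)
  have hev : z =ᶠ[𝓝 t] y ⌈|t|⌉₊ :=
    Filter.eventuallyEq_of_mem (Ioo_mem_nhds ht.1 ht.2) fun s hs => eq s _ hs
  refine ⟨?_, hLO _ (hy _ t ht).2⟩
  exact (hy _ t ht).1.congr_of_eventuallyEq hev

end ODE

section Model

variable {A : ℝ} {W : (Fin 2 → ℂ) → ℝ}

/-- The exhaustion. -/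
noncomputable def pot (A : ℝ) (W : (Fin 2 → ℂ) → ℝ) (p : Fin 3 → ℂ) : ℝ :=
  A * lb (zc p) - Real.log (1 - xc W p)

/-- The derivative of the exhaustion. -/
noncomputable def dpot (A : ℝ) (W : (Fin 2 → ℂ) → ℝ) (p v : Fin 3 → ℂ) : ℝ :=
  A * (2 * (ip (zc v) (zc p)).re / (1 - nsq (zc p)))
    + 2 * Real.exp (W (zc p))
      * (conj (p 2) * (v 2 + p 2 * (d1 W 0 (zc p) * v 0 + d1 W 1 (zc p) * v 1))).re
      / (1 - xc W p)

lemma fderiv_eq_d1 {z : Fin 2 → ℂ} (hW : DifferentiableAt ℝ W z) (v : Fin 2 → ℂ) :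
    fderiv ℝ W z v = 2 * (d1 W 0 z * v 0 + d1 W 1 z * v 1).re := by
  have h2 : HasFDerivAt (fun q => (W q : ℂ)) (ofRealCLM.comp (fderiv ℝ W z)) z :=
    ofRealCLM.hasFDerivAt.comp z hW.hasFDerivAt
  conv_lhs => rw [vec_dec v]
  simp only [d1, wd, h2.fderiv, Fin.sum_univ_two, map_add, map_smul, smul_eq_mul]
  simp
  ring

lemma hasDerivAt_pot {a : ℝ → Fin 3 → ℂ} {t : ℝ} {v : Fin 3 → ℂ}
    (hW : DifferentiableAt ℝ W (zc (a t))) (ha : HasDerivAt a v t) (hp : a t ∈ dom W) :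
    HasDerivAt (fun s => pot A W (a s)) (dpot A W (a t) v) t := by
  have hc := hasDerivAt_pi.1 ha
  have hsq : ∀ k, HasDerivAt (fun s => normSq (a s k)) (2 * (v k * conj (a t k)).re) t := by
    intro k
    have hm := (hc k).mul (conjCLE.toContinuousLinearMap.hasFDerivAt.comp_hasDerivAt t (hc k))
    have h := reCLM.hasFDerivAt.comp_hasDerivAt t hm
    have e1 : (fun s => normSq (a s k)) = fun s => reCLM (a s k * conj (a s k)) := by
      funext s; simp [Complex.mul_conj]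
    rw [e1]
    refine h.congr_deriv ?_
    simp [Complex.mul_re]
    ring
  have hz : HasDerivAt (fun s => zc (a s)) (zc v) t := by
    rw [hasDerivAt_pi]
    intro i
    fin_cases i
    · simpa [zc] using hc 0
    · simpa [zc] using hc 1
  have hn : HasDerivAt (fun s => nsq (zc (a s)))
      (2 * (v 0 * conj (a t 0)).re + 2 * (v 1 * conj (a t 1)).re) t := by
    exact (hsq 0).add (hsq 1)
  have h1 : 1 - nsq (zc (a t)) ≠ 0 := by linarith [hp.1]
  have h2 : 1 - xc W (a t) ≠ 0 := by linarith [hp.2]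
  have hx := (hsq 2).mul (hW.hasFDerivAt.comp_hasDerivAt t hz).exp
  have hl : HasDerivAt (fun s => lb (zc (a s)))
      (-(-(2 * (v 0 * conj (a t 0)).re + 2 * (v 1 * conj (a t 1)).re) / (1 - nsq (zc (a t))))) t :=
    ((hn.const_sub 1).log h1).neg
  have hxl := (hx.const_sub 1).log h2
  refine ((hl.const_mul A).sub hxl).congr_deriv ?_
  rw [fderiv_eq_d1 hW]
  simp only [dpot, xc, ip, zc, Function.comp_apply, Matrix.cons_val_zero, Matrix.cons_val_one,
    Pi.mul_apply, Complex.add_re, Complex.mul_re, Complex.mul_im, Complex.add_im, Complex.conj_re,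
    Complex.conj_im, normSq_apply]
  ring

lemma rMet_met (p v : Fin 3 → ℂ) :
    rMet (met A W) p v v
      = A * ((normSq (v 0) + normSq (v 1)) / (1 - nsq (zc p))
          + normSq (ip (zc v) (zc p)) / (1 - nsq (zc p)) ^ 2)
        + xc W p / (1 - xc W p) * levQ W (zc p) (zc v)
        + Real.exp (W (zc p)) / (1 - xc W p) ^ 2
          * normSq (v 2 + p 2 * (d1 W 0 (zc p) * v 0 + d1 W 1 (zc p) * v 1)) := by
  have ho : ∀ a b, omb a b (zc p) = ((1 - nsq (zc p))⁻¹ : ℝ) * (if a = b then (1 : ℂ) else 0)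
      + (((1 - nsq (zc p)) ^ 2)⁻¹ : ℝ) * (conj (zc p a) * zc p b) := fun a b => by
    simp only [omb, Complex.ofReal_inv]; ring
  simp only [rMet, met, levQ, ho, Fin.sum_univ_three, Fin.sum_univ_two, div_eq_mul_inv (a := normSq (v 0) + normSq (v 1)),
    div_eq_mul_inv (a := normSq (ip (zc v) (zc p)))]
  generalize (1 - nsq (zc p))⁻¹ = a₁
  generalize ((1 - nsq (zc p)) ^ 2)⁻¹ = a₂
  generalize xc W p / (1 - xc W p) = r
  generalize Real.exp (W (zc p)) / (1 - xc W p) ^ 2 = q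
  generalize d1 W 0 (zc p) = e₀
  generalize d1 W 1 (zc p) = e₁
  generalize lev W 0 0 (zc p) = l₀
  generalize lev W 0 1 (zc p) = l₁
  generalize lev W 1 0 (zc p) = l₂
  generalize lev W 1 1 (zc p) = l₃
  simp [ip, zc, Complex.mul_re, Complex.mul_im, normSq_apply]
  ring

lemma dpot_sq_le (hA : 1 ≤ A) {p : Fin 3 → ℂ} (hp : p ∈ dom W)
    (hL : ∀ v, 0 ≤ levQ W (zc p) v) (v : Fin 3 → ℂ) :
    dpot A W p v ^ 2 ≤ 4 * (A + 1) * rMet (met A W) p v v := by
  rw [rMet_met, dpot]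
  have hd : 0 < 1 - nsq (zc p) := by linarith [hp.1]
  have hx : 0 < 1 - xc W p := by linarith [hp.2]
  have hx0 : 0 ≤ xc W p := by simp only [xc]; exact mul_nonneg (normSq_nonneg _) (Real.exp_pos _).le
  set β := v 2 + p 2 * (d1 W 0 (zc p) * v 0 + d1 W 1 (zc p) * v 1)
  set a := (ip (zc v) (zc p)).re / (1 - nsq (zc p)) with ha
  set b := Real.exp (W (zc p)) * (conj (p 2) * β).re / (1 - xc W p) with hb
  have h1 : a ^ 2 ≤ normSq (ip (zc v) (zc p)) / (1 - nsq (zc p)) ^ 2 := by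
    rw [ha, div_pow]; gcongr; rw [sq]; exact re_sq_le_normSq _
  have h2 : b ^ 2 ≤ Real.exp (W (zc p)) / (1 - xc W p) ^ 2 * normSq β := by
    have e : (conj (p 2) * β).re ^ 2 ≤ normSq (p 2) * normSq β := by
      rw [sq]; simpa using re_sq_le_normSq (conj (p 2) * β)
    rw [hb, div_pow, mul_pow, div_mul_eq_mul_div]
    apply div_le_div_of_nonneg_right _ (sq_nonneg _)
    calc Real.exp (W (zc p)) ^ 2 * (conj (p 2) * β).re ^ 2
        ≤ Real.exp (W (zc p)) ^ 2 * (normSq (p 2) * normSq β) := by gcongr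
      _ = Real.exp (W (zc p)) * xc W p * normSq β := by simp only [xc]; ring
      _ ≤ Real.exp (W (zc p)) * 1 * normSq β := by
          gcongr
          · exact normSq_nonneg _
          · linarith [hp.2]
      _ = Real.exp (W (zc p)) * normSq β := by ring
  have h3 : 0 ≤ (normSq (v 0) + normSq (v 1)) / (1 - nsq (zc p)) :=
    div_nonneg (add_nonneg (normSq_nonneg _) (normSq_nonneg _)) hd.le
  have h4 : 0 ≤ xc W p / (1 - xc W p) * levQ W (zc p) (zc v) :=
    mul_nonneg (div_nonneg hx0 hx.le) (hL _)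
  have e : A * (2 * (ip (zc v) (zc p)).re / (1 - nsq (zc p)))
      + 2 * Real.exp (W (zc p)) * (conj (p 2) * β).re / (1 - xc W p) = 2 * (A * a + b) := by
    rw [ha, hb]; ring
  rw [e]
  nlinarith [sq_nonneg (a - b), mul_le_mul_of_nonneg_left h1 (by linarith : (0 : ℝ) ≤ A),
    mul_nonneg (by linarith : (0 : ℝ) ≤ A) h3]

lemma pot_nonneg_parts (hA : 1 ≤ A) {p : Fin 3 → ℂ} (hp : p ∈ dom W) {M : ℝ}
    (hM : pot A W p ≤ M) :
    nsq (zc p) ≤ 1 - Real.exp (-M) ∧ xc W p ≤ 1 - Real.exp (-M) := by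
  have hn : 0 ≤ nsq (zc p) := add_nonneg (normSq_nonneg _) (normSq_nonneg _)
  have hx0 : 0 ≤ xc W p := mul_nonneg (normSq_nonneg _) (Real.exp_pos _).le
  have hd : 0 < 1 - nsq (zc p) := by linarith [hp.1]
  have hx : 0 < 1 - xc W p := by linarith [hp.2]
  have a1 : Real.log (1 - nsq (zc p)) ≤ 0 := Real.log_nonpos hd.le (by linarith)
  have a2 : Real.log (1 - xc W p) ≤ 0 := Real.log_nonpos hx.le (by linarith)
  simp only [pot, lb] at hM
  constructor
  · have : -M ≤ Real.log (1 - nsq (zc p)) := by nlinarith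
    have := (Real.le_log_iff_exp_le hd).1 this
    linarith
  · have : -M ≤ Real.log (1 - xc W p) := by nlinarith
    have := (Real.le_log_iff_exp_le hx).1 this
    linarith

lemma isCompact_sublevel (hW : ContinuousOn W ball2) {r : ℝ} (hr : r < 1) :
    IsCompact {p : Fin 3 → ℂ | nsq (zc p) ≤ r ∧ xc W p ≤ r} := by
  have hcn : Continuous nsq := by unfold nsq; fun_prop
  have hcz : Continuous zc := by
    refine continuous_pi fun i => ?_
    fin_cases i
    · simpa [zc] using continuous_apply (A := fun _ : Fin 3 => ℂ) 0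
    · simpa [zc] using continuous_apply (A := fun _ : Fin 3 => ℂ) 1
  have hB : IsClosed {p : Fin 3 → ℂ | nsq (zc p) ≤ r} := isClosed_le (hcn.comp hcz) continuous_const
  have hx : ContinuousOn (xc W) {p : Fin 3 → ℂ | nsq (zc p) ≤ r} :=
    (continuous_normSq.comp (continuous_apply 2)).continuousOn.mul
      (Real.continuous_exp.comp_continuousOn
        (hW.comp hcz.continuousOn fun p (hp : nsq (zc p) ≤ r) => lt_of_le_of_lt hp hr))
  have hcl := hx.preimage_isClosed_of_isClosed hB (isClosed_Iic (a := r))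
  have hK : IsCompact {z : Fin 2 → ℂ | nsq z ≤ r} := by
    refine Metric.isCompact_of_isClosed_isBounded (isClosed_le hcn continuous_const)
      (Metric.isBounded_closedBall.subset (t := Metric.closedBall 0 1) fun z hz => ?_)
    rw [mem_closedBall_zero_iff, pi_norm_le_iff_of_nonneg zero_le_one]
    have hz' : normSq (z 0) + normSq (z 1) ≤ r := hz
    intro i
    rw [← abs_of_nonneg (norm_nonneg _), ← abs_one, ← sq_le_sq, one_pow, Complex.sq_norm]
    fin_cases i <;> simp only [Fin.zero_eta, Fin.mk_one] <;>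
      linarith [normSq_nonneg (z 0), normSq_nonneg (z 1)]
  obtain ⟨B, hBd⟩ := hK.exists_bound_of_continuousOn (f := fun z => Real.exp (-W z))
    (Real.continuous_exp.comp_continuousOn
      (hW.mono fun z (hz : nsq z ≤ r) => lt_of_le_of_lt hz hr).neg)
  refine Metric.isCompact_of_isClosed_isBounded hcl
    (Metric.isBounded_closedBall.subset (t := Metric.closedBall 0 (1 + |B|)) fun p hp => ?_)
  obtain ⟨hp1, hp2⟩ : nsq (zc p) ≤ r ∧ xc W p ≤ r := hp
  rw [mem_closedBall_zero_iff, pi_norm_le_iff_of_nonneg (by positivity)]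
  have hb : Real.exp (-W (zc p)) ≤ B := (le_abs_self _).trans (hBd _ hp1)
  have h3 : normSq (p 2) ≤ |B| := by
    have : normSq (p 2) ≤ r * Real.exp (-W (zc p)) := by
      rw [Real.exp_neg, ← div_eq_mul_inv, le_div_iff₀ (Real.exp_pos _)]; exact hp2
    nlinarith [Real.exp_pos (-W (zc p)), le_abs_self B]
  have hp1' : normSq (p 0) + normSq (p 1) ≤ r := by simpa [nsq, zc] using hp1
  intro i
  have hle : normSq (p i) ≤ (1 + |B|) ^ 2 := by
    fin_cases i <;> simp only [Fin.zero_eta, Fin.mk_one, Fin.reduceFinMk] <;>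
      nlinarith [normSq_nonneg (p 0), normSq_nonneg (p 1), abs_nonneg B]
  rw [← Complex.sq_norm] at hle
  nlinarith [norm_nonneg (p i), abs_nonneg B]

end Model

section Generic

variable {n : ℕ} (g : (Fin n → ℂ) → Matrix (Fin n) (Fin n) ℂ) {U : Set (Fin n → ℂ)}

/-- An exhaustion with bounded gradient makes the metric geodesically complete. -/
lemma complete_of_exhaustion (hopen : IsOpen U)
    (hsm : ∀ i j, ContDiffOn ℝ ∞ (fun q => g q i j) U) (hpos : ∀ q ∈ U, (g q).PosDef)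
    (P : (Fin n → ℂ) → ℝ) (dP : (Fin n → ℂ) → (Fin n → ℂ) → ℝ) {κ : ℝ}
    (hP : ∀ (a : ℝ → Fin n → ℂ) (t : ℝ) (v : Fin n → ℂ), a t ∈ U → HasDerivAt a v t →
      HasDerivAt (fun s => P (a s)) (dP (a t) v) t)
    (hlin : ∀ q v, ∀ c : ℝ, dP q (c • v) = c * dP q v)
    (hb : ∀ q ∈ U, ∀ v, dP q v ^ 2 ≤ κ * rMet g q v v)
    (hK : ∀ M, ∃ K, IsCompact K ∧ K ⊆ U ∧ ∀ q ∈ U, P q ≤ M → q ∈ K) :
    IsGeodesicallyComplete U g := by
  intro p hp v
  have hdet : ∀ q ∈ U, (g q).det ≠ 0 := fun q hq => (hpos q hq).det_pos.ne'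
  have hdiff : ∀ q ∈ U, ∀ i j, DifferentiableAt ℝ (fun q' => g q' i j) q := fun q hq i j =>
    ((hsm i j).contDiffAt (hopen.mem_nhds hq)).differentiableAt (by simp)
  have hfc : ContDiffOn ℝ 1 (fld g) (U ×ˢ univ) := contDiffOn_fld g hopen hsm hdet
  have hO : IsOpen (U ×ˢ (univ : Set (Fin n → ℂ))) := hopen.prod isOpen_univ
  obtain ⟨G₀, hG₀⟩ : ∃ G₀, G₀ = rMet g p v v := ⟨_, rfl⟩
  obtain ⟨S, hS⟩ : ∃ S, S = Real.sqrt (κ * G₀) := ⟨_, rfl⟩
  suffices h : ∀ T : ℝ, 0 < T → ∃ (L : Set ((Fin n → ℂ) × (Fin n → ℂ))) (y : ℝ → _),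
      IsCompact L ∧ L ⊆ U ×ˢ univ ∧ y 0 = (p, v) ∧
      ∀ t ∈ Ioo (-T) T, HasDerivAt y (fld g (y t)) t ∧ y t ∈ L by
    obtain ⟨y, hy0, hy⟩ := exists_global hO hfc h
    refine ⟨fun t => (y t).1, fun t => (y t).2, by simp [hy0], by simp [hy0],
      fun t => ⟨(hy t).2.1, ?_, ?_⟩⟩
    · exact (ContinuousLinearMap.fst ℝ (Fin n → ℂ) (Fin n → ℂ)).hasFDerivAt.comp_hasDerivAt t
        (hy t).1
    · exact (ContinuousLinearMap.snd ℝ (Fin n → ℂ) (Fin n → ℂ)).hasFDerivAt.comp_hasDerivAt t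
        (hy t).1
  intro T hT
  have hS0 : 0 ≤ S := hS ▸ Real.sqrt_nonneg _
  have hST : P p ≤ P p + S * T := le_add_of_nonneg_right (mul_nonneg hS0 hT.le)
  obtain ⟨Ks, hKc, hKd, hKm⟩ := hK (P p + S * T)
  obtain ⟨m, hm, hlow⟩ := exists_rMet_lower g hKc
    (fun i j => (hsm i j).continuousOn.mono hKd) (fun q hq => hpos q (hKd hq))
  have inL : ∀ q X, q ∈ U → P q ≤ P p + S * T → rMet g q X X = G₀ →
      (q, X) ∈ Ks ×ˢ Metric.closedBall (0 : Fin n → ℂ) (Real.sqrt (G₀ / m)) := by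
    intro q X hq hpq hX
    refine ⟨hKm q hq hpq, mem_closedBall_zero_iff.2 (Real.le_sqrt_of_sq_le ?_)⟩
    rw [le_div_iff₀ hm, mul_comm, ← hX]
    exact hlow q (hKm q hq hpq) X
  have hLc := hKc.prod (isCompact_closedBall (0 : Fin n → ℂ) (Real.sqrt (G₀ / m)))
  have hLO : Ks ×ˢ Metric.closedBall (0 : Fin n → ℂ) (Real.sqrt (G₀ / m)) ⊆ U ×ˢ univ :=
    prod_mono hKd (subset_univ _)
  obtain ⟨χ, hχ, hc, hs, h01, h1⟩ := exists_cutoff hO hLc hLO
  obtain ⟨K, C, hC0, hKL, hC⟩ := exists_lipschitz_cutoff hO hfc hχ hc hs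
  obtain ⟨y, hy0, hy⟩ := exists_solution hKL hC0 hC (p, v) hT.le
  have hpv := inL p v hp hST hG₀.symm
  have h0s : y 0 ∈ tsupport χ := subset_tsupport _ (by simp [hy0, h1 _ hpv])
  have hin : ∀ t ∈ Ioo (-T) T, (y t).1 ∈ U := fun t ht =>
    (hs (mem_tsupport_of_solution hKL hy h0s ht)).1
  have ha : ∀ t ∈ Ioo (-T) T, HasDerivAt (fun s => (y s).1) (χ (y t) • (y t).2) t := fun t ht =>
    (ContinuousLinearMap.fst ℝ (Fin n → ℂ) (Fin n → ℂ)).hasFDerivAt.comp_hasDerivAt t (hy t ht)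
  have hb' : ∀ t ∈ Ioo (-T) T, HasDerivAt (fun s => (y s).2)
      (χ (y t) • -sharp g (y t).1 (chr g (y t).1 (y t).2 (y t).2)) t := fun t ht =>
    (ContinuousLinearMap.snd ℝ (Fin n → ℂ) (Fin n → ℂ)).hasFDerivAt.comp_hasDerivAt t (hy t ht)
  have h0T : (0 : ℝ) ∈ Ioo (-T) T := ⟨by linarith, hT⟩
  have hspeed : ∀ t ∈ Ioo (-T) T, rMet g (y t).1 (y t).2 (y t).2 = G₀ := by
    intro t ht
    have := (convex_Ioo (-T) T).norm_image_sub_le_of_norm_hasDerivWithin_le
      (f := fun s => rMet g (y s).1 (y s).2 (y s).2) (f' := fun _ => (0 : ℝ)) (C := 0)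
      (fun s hs' => (hasDerivAt_speed (g := g) (a := fun r => (y r).1) (b := fun r => (y r).2)
        (t := s) (c := χ (y s)) (hdiff _ (hin s hs')) (hpos _ (hin s hs')).isHermitian
        (hdet _ (hin s hs')) (ha s hs') (hb' s hs')).hasDerivWithinAt) (by simp) h0T ht
    rw [zero_mul, norm_le_zero_iff, sub_eq_zero] at this
    rw [this, hy0, hG₀]
  have hpot : ∀ t ∈ Ioo (-T) T, P (y t).1 ≤ P p + S * T := by
    intro t ht
    have := (convex_Ioo (-T) T).norm_image_sub_le_of_norm_hasDerivWithin_le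
      (f := fun s => P (y s).1) (C := S)
      (fun s hs' => (hP _ s _ (hin s hs') (ha s hs')).hasDerivWithinAt)
      (fun s hs' => ?_) h0T ht
    · have h2 : ‖t - 0‖ ≤ T := by
        rw [sub_zero, Real.norm_eq_abs, abs_le]; exact ⟨ht.1.le, ht.2.le⟩
      have h3 := this.trans (mul_le_mul_of_nonneg_left h2 hS0)
      rw [hy0, Real.norm_eq_abs] at h3
      linarith [(abs_le.1 h3).2]
    · rw [Real.norm_eq_abs, hS]
      refine Real.abs_le_sqrt ?_
      rw [hlin, mul_pow, ← hspeed s hs']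
      refine le_trans ?_ (hb _ (hin s hs') _)
      exact mul_le_of_le_one_left (sq_nonneg _) (by nlinarith [(h01 (y s)).1, (h01 (y s)).2])
  refine ⟨_, y, hLc, hLO, hy0, fun t ht => ?_⟩
  have hmem := inL _ _ (hin t ht) (hpot t ht) (hspeed t ht)
  refine ⟨?_, hmem⟩
  have := hy t ht
  rwa [h1 _ hmem, one_smul] at this

end Generic

end CompleteAux

open CompleteAux in
/-- The example is geodesically complete. -/
theorem complete (hK : KahlerStmt) : CompleteStmt := by
  intro A W hA hW hL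
  obtain ⟨hopen, -, -, hsm, hpt⟩ := hK A W (by linarith) hW hL
  have hb2 : IsOpen ball2 := isOpen_lt (by unfold nsq; fun_prop) continuous_const
  refine complete_of_exhaustion (met A W) hopen hsm (fun q hq => (hpt q hq).1) (pot A W)
    (dpot A W) (κ := 4 * (A + 1)) (fun a t v ha hd => hasDerivAt_pot
      ((hW.contDiffAt (hb2.mem_nhds ha.1)).differentiableAt (by simp)) hd ha)
    (fun q v c => ?_) (fun q hq v => dpot_sq_le hA hq (fun w => hL _ hq.1 w) v) (fun M => ?_)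
  · simp [dpot, zc, ip, Complex.real_smul, Complex.mul_re, Complex.mul_im]
    ring
  · have hr : 1 - Real.exp (-M) < 1 := by linarith [Real.exp_pos (-M)]
    exact ⟨_, isCompact_sublevel hW.continuousOn hr,
      fun q hq => ⟨lt_of_le_of_lt hq.1 hr, lt_of_le_of_lt hq.2 hr⟩,
      fun q hq hM => pot_nonneg_parts hA hq hM⟩

end Vale.Agent.P250.Full
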