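import Vale.Agent.P250.Full.Calc

/-!
Second Wirtinger derivatives, derivatives along vectors and composition with holomorphic maps.
-/

namespace Vale.Agent.P250.Full.Curv

open Complex Filter Calc
open scoped ComplexConjugate Topology ContDiff

variable {n : ℕ} {f g : (Fin n → ℂ) → ℂ} {p : Fin n → ℂ}

theorem fderiv_eq_wd (f : (Fin n → ℂ) → ℂ) (p v : Fin n → ℂ) :
    fderiv ℝ f p v = ∑ i, (v i * wd i f p + conj (v i) * wdb i f p) := by
  have hv : v = ∑ i, ((v i).re • (Pi.single i 1 : Fin n → ℂ)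
      + (v i).im • (Pi.single i I : Fin n → ℂ)) := by
    conv_lhs => rw [← Finset.univ_sum_single v]
    refine Finset.sum_congr rfl fun i _ => ?_
    rw [← Pi.single_smul, ← Pi.single_smul, ← Pi.single_add]
    congr 1
    simp [real_smul, re_add_im]
  conv_lhs => rw [hv]
  simp only [map_sum, map_add, map_smul]
  refine Finset.sum_congr rfl fun i _ => ?_
  simp only [wd, wdb, real_smul]
  apply Complex.ext <;> simp <;> ring

theorem fderiv_re (hf : DifferentiableAt ℝ f p) (v : Fin n → ℂ) :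
    fderiv ℝ (fun q => (f q).re) p v = (fderiv ℝ f p v).re := by
  have h : HasFDerivAt (fun q => (f q).re) (reCLM.comp (fderiv ℝ f p)) p :=
    reCLM.hasFDerivAt.comp p hf.hasFDerivAt
  rw [h.fderiv]
  rfl

theorem wd_sum {ι : Type*} (s : Finset ι) {F : ι → (Fin n → ℂ) → ℂ}
    (hF : ∀ a ∈ s, DifferentiableAt ℝ (F a) p) (i : Fin n) :
    wd i (fun q => ∑ a ∈ s, F a q) p = ∑ a ∈ s, wd i (F a) p := by
  simp only [wd, fderiv_fun_sum hF, sum_apply, Finset.sum_div, Finset.mul_sum,
    ← Finset.sum_sub_distrib]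

theorem wdb_sum {ι : Type*} (s : Finset ι) {F : ι → (Fin n → ℂ) → ℂ}
    (hF : ∀ a ∈ s, DifferentiableAt ℝ (F a) p) (i : Fin n) :
    wdb i (fun q => ∑ a ∈ s, F a q) p = ∑ a ∈ s, wdb i (F a) p := by
  simp only [wdb, fderiv_fun_sum hF, sum_apply, Finset.sum_div, Finset.mul_sum,
    ← Finset.sum_add_distrib]

theorem differentiableAt_wd (hf : ContDiffAt ℝ 2 f p) (i : Fin n) :
    DifferentiableAt ℝ (wd i f) p := by
  have h : DifferentiableAt ℝ (fderiv ℝ f) p :=
    (hf.fderiv_right (m := 1) (by norm_num)).differentiableAt (by norm_num)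
  have h1 : DifferentiableAt ℝ (fun q => fderiv ℝ f q (Pi.single i 1)) p :=
    h.clm_apply (differentiableAt_const _)
  have h2 : DifferentiableAt ℝ (fun q => fderiv ℝ f q (Pi.single i I)) p :=
    h.clm_apply (differentiableAt_const _)
  unfold wd
  simp only [div_eq_mul_inv]
  fun_prop

theorem fderiv_wd_aux (hf : ContDiffAt ℝ 2 f p) (c : ℂ) (a b v : Fin n → ℂ) :
    fderiv ℝ (fun q => (fderiv ℝ f q a + c * fderiv ℝ f q b) / 2) p v
      = (fderiv ℝ (fderiv ℝ f) p v a + c * fderiv ℝ (fderiv ℝ f) p v b) / 2 := by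
  have h : DifferentiableAt ℝ (fderiv ℝ f) p :=
    (hf.fderiv_right (m := 1) (by norm_num)).differentiableAt (by norm_num)
  have ha : ∀ a, HasFDerivAt (fun q => fderiv ℝ f q a)
      ((fderiv ℝ (fderiv ℝ f) p).flip a) p := fun a => by
    refine (h.hasFDerivAt.clm_apply (hasFDerivAt_const a p)).congr_fderiv ?_
    simp
  have h2 : HasFDerivAt (fun q => (fderiv ℝ f q a + c * fderiv ℝ f q b) / 2)
      ((2 : ℂ)⁻¹ • ((fderiv ℝ (fderiv ℝ f) p).flip a
        + c • (fderiv ℝ (fderiv ℝ f) p).flip b)) p := by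
    simpa [div_eq_inv_mul] using ((ha a).add ((ha b).const_mul c)).const_mul (2 : ℂ)⁻¹
  rw [h2.fderiv]
  simp only [smul_apply, add_apply, ContinuousLinearMap.flip_apply, smul_eq_mul]
  ring

theorem wd_wd_comm (hf : ContDiffAt ℝ 2 f p) (i j : Fin n) :
    wd i (wd j f) p = wd j (wd i f) p := by
  have hs : IsSymmSndFDerivAt ℝ f p := hf.isSymmSndFDerivAt (by simp)
  have e : ∀ k, wd k f
      = fun q => (fderiv ℝ f q (Pi.single k 1) + (-I) * fderiv ℝ f q (Pi.single k I)) / 2 :=
    fun k => by funext q; simp [wd, sub_eq_add_neg]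
  rw [e i, e j]
  simp only [wd, fderiv_wd_aux hf]
  rw [hs (Pi.single j 1) (Pi.single i 1), hs (Pi.single j 1) (Pi.single i I),
    hs (Pi.single j I) (Pi.single i 1), hs (Pi.single j I) (Pi.single i I)]
  ring

theorem wd_wdb_comm (hf : ContDiffAt ℝ 2 f p) (i j : Fin n) :
    wd i (wdb j f) p = wdb j (wd i f) p := by
  have hs : IsSymmSndFDerivAt ℝ f p := hf.isSymmSndFDerivAt (by simp)
  have e : wd i f
      = fun q => (fderiv ℝ f q (Pi.single i 1) + (-I) * fderiv ℝ f q (Pi.single i I)) / 2 := by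
    funext q; simp [wd, sub_eq_add_neg]
  have e' : wdb j f
      = fun q => (fderiv ℝ f q (Pi.single j 1) + I * fderiv ℝ f q (Pi.single j I)) / 2 := rfl
  rw [e, e']
  simp only [wd, wdb, fderiv_wd_aux hf]
  rw [hs (Pi.single j 1) (Pi.single i 1), hs (Pi.single j 1) (Pi.single i I),
    hs (Pi.single j I) (Pi.single i 1), hs (Pi.single j I) (Pi.single i I)]
  ring

/-! ### Composition with a holomorphic map -/

variable {H : (Fin n → ℂ) → Fin n → ℂ}

/-- The complex Jacobian matrix, indexed by source then target. -/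
noncomputable def jac (H : (Fin n → ℂ) → Fin n → ℂ) (q : Fin n → ℂ) :
    Matrix (Fin n) (Fin n) ℂ := fun i a => fderiv ℂ H q (Pi.single i 1) a

theorem fderiv_comp_hol (hH : DifferentiableAt ℂ H p) (hf : DifferentiableAt ℝ f (H p))
    (v : Fin n → ℂ) :
    fderiv ℝ (fun q => f (H q)) p v = fderiv ℝ f (H p) (fderiv ℂ H p v) := by
  have h := hf.hasFDerivAt.comp p (hH.hasFDerivAt.restrictScalars ℝ)
  rw [show fderiv ℝ (fun q => f (H q)) p = _ from h.fderiv]
  rfl

theorem wd_comp_hol (hH : DifferentiableAt ℂ H p) (hf : DifferentiableAt ℝ f (H p)) (i : Fin n) :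
    wd i (fun q => f (H q)) p = ∑ c, jac H p i c * wd c f (H p) := by
  simp only [wd, fderiv_comp_hol hH hf, single_I i, map_smul]
  rw [fderiv_eq_wd f, fderiv_eq_wd f]
  simp only [Pi.smul_apply, smul_eq_mul, map_mul, conj_I, Finset.sum_add_distrib]
  rw [← Finset.sum_add_distrib, ← Finset.sum_add_distrib, Finset.mul_sum, ← Finset.sum_sub_distrib,
    Finset.sum_div]
  refine Finset.sum_congr rfl fun c _ => ?_
  simp only [wd, wdb, jac]
  rw [single_I c]
  ring_nf
  simp only [I_sq, I_pow_three]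
  ring

theorem wdb_comp_hol (hH : DifferentiableAt ℂ H p) (hf : DifferentiableAt ℝ f (H p)) (i : Fin n) :
    wdb i (fun q => f (H q)) p = ∑ c, conj (jac H p i c) * wdb c f (H p) := by
  simp only [wdb, fderiv_comp_hol hH hf, single_I i, map_smul]
  rw [fderiv_eq_wd f, fderiv_eq_wd f]
  simp only [Pi.smul_apply, smul_eq_mul, map_mul, conj_I]
  rw [Finset.mul_sum, ← Finset.sum_add_distrib, Finset.sum_div]
  refine Finset.sum_congr rfl fun c _ => ?_
  simp only [wd, wdb, jac]
  rw [single_I c]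
  ring_nf
  simp only [I_sq, I_pow_three]
  ring

end Vale.Agent.P250.Full.Curv
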