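import Vale.Agent.P250.Full.CurvBasic

/-!
Kähler's identity: the Levi-Civita curvature of the real metric of a Kähler matrix field is
given by the complex curvature tensor.
-/

namespace Vale.Agent.P250.Full.Curv

open Complex Filter Calc Matrix Finset
open scoped ComplexConjugate Topology ContDiff ComplexOrder

variable {n : ℕ} {U : Set (Fin n → ℂ)} {g : (Fin n → ℂ) → Matrix (Fin n) (Fin n) ℂ}
  {p : Fin n → ℂ}

/-- The complex curvature tensor `∂_k ∂̄_l g_ij - ∂_k g g⁻¹ ∂̄_l g`. -/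
noncomputable def ktens (g : (Fin n → ℂ) → Matrix (Fin n) (Fin n) ℂ) (p : Fin n → ℂ)
    (i j k l : Fin n) : ℂ :=
  wd k (fun q => wdb l (fun q' => g q' i j) q) p
    - ∑ r, ∑ s, wd k (fun q => g q i r) p * (g p)⁻¹ r s * wdb l (fun q => g q s j) p

/-- A trilinear expression. -/
noncomputable def tri (a : Fin n → Fin n → Fin n → ℂ) (Y Z W : Fin n → ℂ) : ℂ :=
  ∑ k, ∑ i, ∑ j, a k i j * Y k * Z i * conj (W j)

/-- The first derivatives `∂_k g_ij`. -/
noncomputable def dg (g : (Fin n → ℂ) → Matrix (Fin n) (Fin n) ℂ) (q : Fin n → ℂ)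
    (k i j : Fin n) : ℂ := wd k (fun x => g x i j) q

theorem rot3 {M : Type*} [AddCommMonoid M] (F : Fin n → Fin n → Fin n → M) :
    ∑ a, ∑ b, ∑ c, F a b c = ∑ c, ∑ a, ∑ b, F a b c :=
  calc ∑ a, ∑ b, ∑ c, F a b c = ∑ a, ∑ c, ∑ b, F a b c := sum_congr rfl fun _ _ => sum_comm
    _ = _ := sum_comm

theorem sum4_swap {M : Type*} [AddCommMonoid M] (F : Fin n → Fin n → Fin n → Fin n → M) :
    ∑ i, ∑ j, ∑ k, ∑ l, F i j k l = ∑ k, ∑ l, ∑ i, ∑ j, F i j k l :=
  calc ∑ i, ∑ j, ∑ k, ∑ l, F i j k l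
      = ∑ x : Fin n × Fin n, ∑ y : Fin n × Fin n, F x.1 x.2 y.1 y.2 := by
        simp only [Fintype.sum_prod_type]
    _ = ∑ y : Fin n × Fin n, ∑ x : Fin n × Fin n, F x.1 x.2 y.1 y.2 := sum_comm
    _ = _ := by simp only [Fintype.sum_prod_type]

theorem sum6 {M : Type*} [AddCommMonoid M]
    (F : Fin n → Fin n → Fin n → Fin n → Fin n → Fin n → M) :
    ∑ i, ∑ j, ∑ k, ∑ l, ∑ r, ∑ s, F i j k l r s
      = ∑ r, ∑ s, ∑ k, ∑ i, ∑ l, ∑ j, F i j k l r s :=
  calc ∑ i, ∑ j, ∑ k, ∑ l, ∑ r, ∑ s, F i j k l r s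
      = ∑ x : Fin n × Fin n × Fin n × Fin n, ∑ y : Fin n × Fin n,
          F x.1 x.2.1 x.2.2.1 x.2.2.2 y.1 y.2 := by simp only [Fintype.sum_prod_type]
    _ = ∑ y : Fin n × Fin n, ∑ x : Fin n × Fin n × Fin n × Fin n,
          F x.1 x.2.1 x.2.2.1 x.2.2.2 y.1 y.2 := sum_comm
    _ = _ := by
      simp only [Fintype.sum_prod_type]
      refine sum_congr rfl fun r _ => sum_congr rfl fun s _ => ?_
      rw [rot3]
      exact sum_congr rfl fun k _ => sum_congr rfl fun i _ => sum_comm

theorem prod_sums (a b : Fin n → Fin n → ℂ) (c : ℂ) :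
    (∑ k, ∑ i, a k i) * c * (∑ l, ∑ j, b l j) = ∑ k, ∑ i, ∑ l, ∑ j, a k i * c * b l j := by
  simp only [Finset.sum_mul]
  simp only [Finset.mul_sum]

theorem tri_symm {a : Fin n → Fin n → Fin n → ℂ} (h : ∀ k i j, a k i j = a i k j)
    (Y Z W : Fin n → ℂ) : tri a Y Z W = tri a Z Y W := by
  unfold tri
  rw [Finset.sum_comm]
  refine sum_congr rfl fun k _ => sum_congr rfl fun i _ => sum_congr rfl fun j _ => ?_
  rw [h]; ring

theorem herm (hg : IsKahlerMetric U g) {q : Fin n → ℂ} (hq : q ∈ U) (i j : Fin n) :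
    conj (g q j i) = g q i j := (hg.2 q hq).1.isHermitian.apply i j

theorem contDiffAt_entry (hU : IsOpen U) (hg : IsKahlerMetric U g) {q : Fin n → ℂ} (hq : q ∈ U)
    (i j : Fin n) : ContDiffAt ℝ ∞ (fun x => g x i j) q :=
  (hg.1 i j).contDiffAt (hU.mem_nhds hq)

theorem differentiableAt_entry (hU : IsOpen U) (hg : IsKahlerMetric U g) {q : Fin n → ℂ}
    (hq : q ∈ U) (i j : Fin n) : DifferentiableAt ℝ (fun x => g x i j) q :=
  (contDiffAt_entry hU hg hq i j).differentiableAt (by simp)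

theorem contDiffAt_entry_two (hU : IsOpen U) (hg : IsKahlerMetric U g) {q : Fin n → ℂ} (hq : q ∈ U)
    (i j : Fin n) : ContDiffAt ℝ 2 (fun x => g x i j) q :=
  (contDiffAt_entry hU hg hq i j).of_le (WithTop.coe_le_coe.2 (le_top (a := (2 : ℕ∞))))

theorem wdb_entry (hU : IsOpen U) (hg : IsKahlerMetric U g) {q : Fin n → ℂ} (hq : q ∈ U)
    (k i j : Fin n) : wdb k (fun x => g x i j) q = conj (dg g q k j i) := by
  have h : (fun x => g x i j) =ᶠ[𝓝 q] fun x => conj (g x j i) := by
    filter_upwards [hU.mem_nhds hq] with x hx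
    exact (herm hg hx i j).symm
  rw [wdb_congr h, wdb_conj (differentiableAt_entry hU hg hq j i), dg]

theorem wd_entry (hU : IsOpen U) (hg : IsKahlerMetric U g) {q : Fin n → ℂ} (hq : q ∈ U)
    (k i j : Fin n) : dg g q k i j = conj (wdb k (fun x => g x j i) q) := by
  rw [wdb_entry hU hg hq, conj_conj]

theorem dg_symm (hg : IsKahlerMetric U g) {q : Fin n → ℂ} (hq : q ∈ U) (k i j : Fin n) :
    dg g q k i j = dg g q i k j := (hg.2 q hq).2 k i j

theorem fderiv_rMet (hU : IsOpen U) (hg : IsKahlerMetric U g) {q : Fin n → ℂ} (hq : q ∈ U)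
    (Y Z W : Fin n → ℂ) :
    fderiv ℝ (fun x => rMet g x Z W) q Y
      = (tri (dg g q) Y Z W).re + (tri (dg g q) Y W Z).re := by
  have hd : ∀ i j, DifferentiableAt ℝ (fun x => g x i j * Z i * conj (W j)) q := fun i j =>
    ((differentiableAt_entry hU hg hq i j).mul_const _).mul_const _
  have hd' : ∀ i, DifferentiableAt ℝ (fun x => ∑ j, g x i j * Z i * conj (W j)) q := fun i =>
    DifferentiableAt.fun_sum fun j _ => hd i j
  unfold rMet
  rw [fderiv_re (DifferentiableAt.fun_sum fun i _ => hd' i) Y,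
    fderiv_fun_sum (fun i _ => hd' i)]
  have e : ∀ i, fderiv ℝ (fun x => ∑ j, g x i j * Z i * conj (W j)) q Y
      = ∑ j, ∑ k, (dg g q k i j * Y k * Z i * conj (W j)
        + conj (dg g q k j i) * conj (Y k) * conj (W j) * Z i) := fun i => by
    rw [fderiv_fun_sum fun j _ => hd i j, _root_.sum_apply]
    refine sum_congr rfl fun j _ => ?_
    rw [fderiv_mul_const ((differentiableAt_entry hU hg hq i j).mul_const _),
      fderiv_mul_const (differentiableAt_entry hU hg hq i j)]
    simp only [_root_.smul_apply, smul_eq_mul, fderiv_eq_wd (fun x => g x i j),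
      wdb_entry hU hg hq, Finset.mul_sum]
    refine sum_congr rfl fun k _ => ?_
    simp only [dg]
    ring
  rw [_root_.sum_apply]
  simp only [e]
  have e2 : (tri (dg g q) Y W Z).re = (conj (tri (dg g q) Y W Z)).re := (conj_re _).symm
  rw [e2, ← add_re]
  congr 1
  simp only [tri, map_sum, map_mul, conj_conj, sum_add_distrib]
  rw [rot3, rot3 (fun i j k => conj (dg g q k j i) * conj (Y k) * conj (W j) * Z i)]
  congr 1
  exact sum_congr rfl fun k _ => sum_comm

theorem chr_eq (hU : IsOpen U) (hg : IsKahlerMetric U g) {q : Fin n → ℂ} (hq : q ∈ U)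
    (Y Z W : Fin n → ℂ) : chr g q Y Z W = (tri (dg g q) Y Z W).re := by
  simp only [chr, fderiv_rMet hU hg hq]
  have s := tri_symm (dg_symm hg hq)
  rw [s Z Y W, s Z W Y, s W Y Z]
  ring

/-- The vector of first derivatives paired with `conj W`. -/
noncomputable def uvec (g : (Fin n → ℂ) → Matrix (Fin n) (Fin n) ℂ) (q : Fin n → ℂ)
    (Y Z : Fin n → ℂ) (j : Fin n) : ℂ := ∑ k, ∑ i, dg g q k i j * Y k * Z i

theorem tri_eq (q Y Z W : Fin n → ℂ) :
    tri (dg g q) Y Z W = ∑ j, uvec g q Y Z j * conj (W j) := by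
  simp only [tri, uvec, Finset.sum_mul]
  exact rot3 _

theorem sharp_eq (hU : IsOpen U) (hg : IsKahlerMetric U g) (hp : p ∈ U) (Y Z : Fin n → ℂ) :
    sharp g p (chr g p Y Z) = ((g p).transpose)⁻¹ *ᵥ uvec g p Y Z := by
  unfold sharp
  congr 1
  funext j
  rw [chr_eq hU hg hp, chr_eq hU hg hp, tri_eq, tri_eq]
  have e : ∀ c : ℂ, ∑ k, uvec g p Y Z k * conj ((Pi.single j c : Fin n → ℂ) k)
      = uvec g p Y Z j * conj c := fun c => by
    rw [sum_eq_single j]
    · simp
    · intro b _ hb; simp [Pi.single_eq_of_ne hb]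
    · simp
  rw [e, e, map_one, mul_one, conj_I]
  apply Complex.ext <;> simp

theorem rMet_sharp (hU : IsOpen U) (hg : IsKahlerMetric U g) (hp : p ∈ U)
    (Y Z Y' Z' : Fin n → ℂ) :
    rMet g p (sharp g p (chr g p Y Z)) (sharp g p (chr g p Y' Z'))
      = (∑ r, ∑ s, uvec g p Y Z r * (g p)⁻¹ r s * conj (uvec g p Y' Z' s)).re := by
  have hpd := (hg.2 p hp).1
  have hdet : IsUnit (g p).transpose.det := by
    rw [det_transpose]; exact (isUnit_iff_isUnit_det _).1 hpd.isUnit
  rw [sharp_eq hU hg hp, sharp_eq hU hg hp]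
  set V := ((g p).transpose)⁻¹ *ᵥ uvec g p Y Z with hV
  have hu : (g p).transpose *ᵥ V = uvec g p Y Z := by
    rw [hV, mulVec_mulVec, mul_nonsing_inv _ hdet, one_mulVec]
  unfold rMet
  congr 1
  rw [Finset.sum_comm]
  refine sum_congr rfl fun r _ => ?_
  rw [← Finset.sum_mul]
  have hr : ∑ i, g p i r * V i = uvec g p Y Z r := by rw [← hu]; rfl
  rw [hr]
  simp only [mulVec, dotProduct, map_sum, map_mul, Finset.mul_sum]
  refine sum_congr rfl fun s _ => ?_
  have : conj ((g p).transpose⁻¹ r s) = (g p)⁻¹ r s := by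
    rw [← transpose_nonsing_inv, transpose_apply]
    exact hpd.isHermitian.inv.apply r s
  rw [this]
  ring

/-- A quadrilinear expression. -/
noncomputable def quad (P : Fin n → Fin n → Fin n → Fin n → ℂ) (A B C E : Fin n → ℂ) : ℂ :=
  ∑ i, ∑ j, ∑ k, ∑ l, P i j k l * A i * conj (B j) * C k * conj (E l)

theorem quad_pair {P : Fin n → Fin n → Fin n → Fin n → ℂ}
    (hP : ∀ i j k l, P i j k l = P k l i j) (A B C E : Fin n → ℂ) :
    quad P A B C E = quad P C E A B := by
  unfold quad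
  rw [sum4_swap]
  refine sum_congr rfl fun k _ => sum_congr rfl fun l _ => sum_congr rfl fun i _ =>
    sum_congr rfl fun j _ => ?_
  rw [hP]; ring

theorem quad_herm {P : Fin n → Fin n → Fin n → Fin n → ℂ}
    (hP : ∀ i j k l, conj (P i j k l) = P j i l k) (A B C E : Fin n → ℂ) :
    conj (quad P A B C E) = quad P B A E C := by
  simp only [quad, map_sum, map_mul, conj_conj, hP]
  rw [Finset.sum_comm]
  refine sum_congr rfl fun j _ => sum_congr rfl fun i _ => ?_
  rw [Finset.sum_comm]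
  refine sum_congr rfl fun l _ => sum_congr rfl fun k _ => ?_
  ring

/-- The second derivatives `∂_k ∂̄_l g_ij`, with the index order of `ktens`. -/
noncomputable def ddg (g : (Fin n → ℂ) → Matrix (Fin n) (Fin n) ℂ) (p : Fin n → ℂ)
    (i j k l : Fin n) : ℂ := wd k (fun q => wdb l (fun q' => g q' i j) q) p

theorem eventually_mem (hU : IsOpen U) (hp : p ∈ U) : ∀ᶠ q in 𝓝 p, q ∈ U := hU.mem_nhds hp

theorem ddg_comm (hU : IsOpen U) (hg : IsKahlerMetric U g) (hp : p ∈ U) (i j k l : Fin n) :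
    ddg g p i j k l = wdb l (fun q => dg g q k i j) p :=
  wd_wdb_comm (contDiffAt_entry_two hU hg hp i j) k l

theorem differentiableAt_dg (hU : IsOpen U) (hg : IsKahlerMetric U g) (hp : p ∈ U)
    (k i j : Fin n) : DifferentiableAt ℝ (fun q => dg g q k i j) p :=
  differentiableAt_wd (contDiffAt_entry_two hU hg hp i j) k

theorem ddg_symm (hU : IsOpen U) (hg : IsKahlerMetric U g) (hp : p ∈ U) (i j k l : Fin n) :
    ddg g p i j k l = ddg g p k j i l := by
  rw [ddg_comm hU hg hp, ddg_comm hU hg hp]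
  exact wdb_congr ((eventually_mem hU hp).mono fun q hq => dg_symm hg hq k i j) l

theorem ddg_symm' (hU : IsOpen U) (hg : IsKahlerMetric U g) (hp : p ∈ U) (i j k l : Fin n) :
    ddg g p i j k l = ddg g p i l k j := by
  refine wd_congr ((eventually_mem hU hp).mono fun q hq => ?_) k
  show wdb l (fun q' => g q' i j) q = wdb j (fun q' => g q' i l) q
  rw [wdb_entry hU hg hq, wdb_entry hU hg hq, dg_symm hg hq]

theorem ddg_herm (hU : IsOpen U) (hg : IsKahlerMetric U g) (hp : p ∈ U) (i j k l : Fin n) :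
    conj (ddg g p i j k l) = ddg g p j i l k := by
  rw [ddg_comm hU hg hp j i l k]
  unfold ddg
  rw [← wdb_conj (differentiableAt_wdb
    (contDiffAt_entry_two hU hg hp i j) l)]
  refine wdb_congr ((eventually_mem hU hp).mono fun q hq => ?_) k
  show conj (wdb l (fun q' => g q' i j) q) = dg g q l j i
  rw [wdb_entry hU hg hq, conj_conj]

theorem ktens_pair (hU : IsOpen U) (hg : IsKahlerMetric U g) (hp : p ∈ U) (i j k l : Fin n) :
    ktens g p i j k l = ktens g p k l i j := by
  unfold ktens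
  congr 1
  · exact ((ddg_symm hU hg hp i j k l).trans (ddg_symm' hU hg hp k j i l))
  · refine sum_congr rfl fun r _ => sum_congr rfl fun s _ => ?_
    rw [wdb_entry hU hg hp, wdb_entry hU hg hp]
    show dg g p k i r * _ * _ = dg g p i k r * _ * _
    rw [dg_symm hg hp k i r, dg_symm hg hp l j s]

theorem ktens_herm (hU : IsOpen U) (hg : IsKahlerMetric U g) (hp : p ∈ U) (i j k l : Fin n) :
    conj (ktens g p i j k l) = ktens g p j i l k := by
  have h := ddg_herm hU hg hp i j k l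
  simp only [ddg] at h
  simp only [ktens, map_sub, map_sum, map_mul, h]
  congr 1
  rw [Finset.sum_comm]
  refine sum_congr rfl fun s _ => sum_congr rfl fun r _ => ?_
  rw [wdb_entry hU hg hp, wdb_entry hU hg hp, conj_conj,
    show conj ((g p)⁻¹ r s) = (g p)⁻¹ s r from (hg.2 p hp).1.isHermitian.inv.apply s r]
  simp only [dg]
  ring

/-- The holomorphic second derivatives part. -/
noncomputable def hol4 (g : (Fin n → ℂ) → Matrix (Fin n) (Fin n) ℂ) (p X Y Z W : Fin n → ℂ) :
    ℂ :=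
  ∑ m, ∑ k, ∑ i, ∑ j, wd m (fun q => dg g q k i j) p * X m * Y k * Z i * conj (W j)

theorem hol4_symm (hU : IsOpen U) (hg : IsKahlerMetric U g) (hp : p ∈ U)
    (X Y Z W : Fin n → ℂ) : hol4 g p X Y Z W = hol4 g p Y X Z W := by
  unfold hol4
  rw [Finset.sum_comm]
  refine sum_congr rfl fun m _ => sum_congr rfl fun k _ => sum_congr rfl fun i _ =>
    sum_congr rfl fun j _ => ?_
  have : wd k (fun q => dg g q m i j) p = wd m (fun q => dg g q k i j) p :=
    wd_wd_comm (contDiffAt_entry_two hU hg hp i j) k m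
  rw [this]; ring

theorem fderiv_chr (hU : IsOpen U) (hg : IsKahlerMetric U g) (hp : p ∈ U)
    (X Y Z W : Fin n → ℂ) :
    fderiv ℝ (fun q => chr g q Y Z W) p X
      = (hol4 g p X Y Z W + quad (ddg g p) Z W Y X).re := by
  have h0 := differentiableAt_dg hU hg hp
  have hd : ∀ k i j, DifferentiableAt ℝ (fun q => dg g q k i j * Y k * Z i * conj (W j)) p :=
    fun k i j => (((h0 k i j).mul_const _).mul_const _).mul_const _
  have hd1 : ∀ k i, DifferentiableAt ℝ (fun q => ∑ j, dg g q k i j * Y k * Z i * conj (W j)) p :=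
    fun k i => DifferentiableAt.fun_sum fun j _ => hd k i j
  have hd2 : ∀ k, DifferentiableAt ℝ
      (fun q => ∑ i, ∑ j, dg g q k i j * Y k * Z i * conj (W j)) p :=
    fun k => DifferentiableAt.fun_sum fun i _ => hd1 k i
  have hev : (fun q => chr g q Y Z W) =ᶠ[𝓝 p] fun q => (tri (dg g q) Y Z W).re :=
    (eventually_mem hU hp).mono fun q hq => chr_eq hU hg hq Y Z W
  rw [hev.fderiv_eq]
  unfold tri
  rw [fderiv_re (DifferentiableAt.fun_sum fun k _ => hd2 k) X,
    fderiv_fun_sum (fun k _ => hd2 k), _root_.sum_apply]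
  have e : ∀ k, fderiv ℝ (fun q => ∑ i, ∑ j, dg g q k i j * Y k * Z i * conj (W j)) p X
      = ∑ i, ∑ j, ∑ m, (wd m (fun q => dg g q k i j) p * X m * Y k * Z i * conj (W j)
          + ddg g p i j k m * Z i * conj (W j) * Y k * conj (X m)) := fun k => by
    rw [fderiv_fun_sum (fun i _ => hd1 k i), _root_.sum_apply]
    refine sum_congr rfl fun i _ => ?_
    rw [fderiv_fun_sum fun j _ => hd k i j, _root_.sum_apply]
    refine sum_congr rfl fun j _ => ?_
    rw [fderiv_mul_const (((h0 k i j).mul_const _).mul_const _),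
      fderiv_mul_const ((h0 k i j).mul_const _), fderiv_mul_const (h0 k i j)]
    simp only [_root_.smul_apply, smul_eq_mul, fderiv_eq_wd (fun q => dg g q k i j),
      ddg_comm hU hg hp, Finset.mul_sum]
    refine sum_congr rfl fun m _ => ?_
    ring
  simp only [e, sum_add_distrib]
  have h1 : ∑ k, ∑ i, ∑ j, ∑ m, wd m (fun q => dg g q k i j) p * X m * Y k * Z i * conj (W j)
      = hol4 g p X Y Z W := by
    unfold hol4
    rw [Finset.sum_comm (f := fun m k => ∑ i, ∑ j,
      wd m (fun q => dg g q k i j) p * X m * Y k * Z i * conj (W j))]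
    exact sum_congr rfl fun k _ => rot3 _
  have h2 : ∑ k, ∑ i, ∑ j, ∑ m, ddg g p i j k m * Z i * conj (W j) * Y k * conj (X m)
      = quad (ddg g p) Z W Y X :=
    (rot3 (fun i j k => ∑ m, ddg g p i j k m * Z i * conj (W j) * Y k * conj (X m))).symm
  rw [h1, h2]

theorem conn_eq (hU : IsOpen U) (hg : IsKahlerMetric U g) (hp : p ∈ U)
    (A B C E : Fin n → ℂ) :
    rMet g p (sharp g p (chr g p A C)) (sharp g p (chr g p B E))
      = (quad (fun i j k l => ∑ r, ∑ s,
          wd k (fun q => g q i r) p * (g p)⁻¹ r s * wdb l (fun q => g q s j) p) C E A B).re := by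
  rw [rMet_sharp hU hg hp]
  congr 1
  simp only [quad, uvec, map_sum, map_mul, wdb_entry hU hg hp, prod_sums]
  simp only [Finset.sum_mul]
  refine Eq.trans ?_ (sum6 _).symm
  refine sum_congr rfl fun r _ => sum_congr rfl fun s _ => sum_congr rfl fun k _ =>
    sum_congr rfl fun i _ => sum_congr rfl fun l _ => sum_congr rfl fun j _ => ?_
  simp only [dg]
  ring

theorem curv_eq (hU : IsOpen U) (hg : IsKahlerMetric U g) (hp : p ∈ U) (X Y : Fin n → ℂ) :
    curv g p X Y Y X
      = (quad (ktens g p) Y X Y X).re - (quad (ktens g p) Y X X Y).re := by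
  have e : ∀ A B C E, quad (ktens g p) A B C E = quad (ddg g p) A B C E
      - quad (fun i j k l => ∑ r, ∑ s,
          wd k (fun q => g q i r) p * (g p)⁻¹ r s * wdb l (fun q => g q s j) p) A B C E := by
    intro A B C E
    simp only [quad, ktens, ddg, sub_mul, sum_sub_distrib]
  simp only [curv, fderiv_chr hU hg hp, conn_eq hU hg hp, e]
  rw [hol4_symm hU hg hp Y X Y X]
  simp only [add_re, sub_re]
  ring

theorem half_sq (hU : IsOpen U) (hg : IsKahlerMetric U g) (hp : p ∈ U) (X Y : Fin n → ℂ) :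
    (∑ i, ∑ j, ∑ k, ∑ l, ktens g p i j k l
      * (X i * conj (Y j) - Y i * conj (X j)) * (X k * conj (Y l) - Y k * conj (X l))).re
      = 2 * ((quad (ktens g p) Y X Y X).re - (quad (ktens g p) Y X X Y).re) := by
  have e : ∑ i, ∑ j, ∑ k, ∑ l, ktens g p i j k l
      * (X i * conj (Y j) - Y i * conj (X j)) * (X k * conj (Y l) - Y k * conj (X l))
      = quad (ktens g p) X Y X Y - quad (ktens g p) X Y Y X - quad (ktens g p) Y X X Y
        + quad (ktens g p) Y X Y X := by
    simp only [quad, ← sum_add_distrib, ← sum_sub_distrib]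
    refine sum_congr rfl fun i _ => sum_congr rfl fun j _ => sum_congr rfl fun k _ =>
      sum_congr rfl fun l _ => ?_
    ring
  have h1 : (quad (ktens g p) X Y X Y).re = (quad (ktens g p) Y X Y X).re := by
    rw [← quad_herm (ktens_herm hU hg hp) Y X Y X, conj_re]
  rw [e, quad_pair (ktens_pair hU hg hp) X Y Y X]
  simp only [add_re, sub_re, h1]
  ring

end Vale.Agent.P250.Full.Curv

namespace Vale.Agent.P250.Full

open Complex

/-- Kähler's identity for the curvature. -/
theorem kahlerCurv : KahlerCurvStmt := by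
  intro n U g hU hg p hp X Y
  rw [Curv.curv_eq hU hg hp]
  have h := Curv.half_sq hU hg hp X Y
  simp only [Curv.ktens] at h ⊢
  linarith

end Vale.Agent.P250.Full
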