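import Vale.Agent.P250.Full.CurvGeneral

/-!
Naturality of curvature under holomorphic local diffeomorphisms.
-/

namespace Vale.Agent.P250.Full.Curv

open Complex Filter Calc Matrix Finset
open scoped ComplexConjugate Topology ContDiff ComplexOrder

variable {n : ℕ} {U V : Set (Fin n → ℂ)} {g : (Fin n → ℂ) → Matrix (Fin n) (Fin n) ℂ}
  {H : (Fin n → ℂ) → Fin n → ℂ} {p : Fin n → ℂ}

/-- The setting of a pullback. -/
structure PullData (U V : Set (Fin n → ℂ)) (g : (Fin n → ℂ) → Matrix (Fin n) (Fin n) ℂ)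
    (H : (Fin n → ℂ) → Fin n → ℂ) : Prop where
  hU : IsOpen U
  hV : IsOpen V
  hg : IsKahlerMetric U g
  hH : DifferentiableOn ℂ H V
  hs : ContDiffOn ℝ ∞ H V
  hm : Set.MapsTo H V U
  hinj : ∀ q ∈ V, Function.Injective (fderiv ℂ H q)

/-- `∂_k` of the Jacobian. -/
noncomputable def jacD (H : (Fin n → ℂ) → Fin n → ℂ) (q : Fin n → ℂ) (k : Fin n) :
    Matrix (Fin n) (Fin n) ℂ := fun i a => wd k (fun x => jac H x i a) q

/-- `∂_k` of `g ∘ H`. -/
noncomputable def compD (H : (Fin n → ℂ) → Fin n → ℂ)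
    (g : (Fin n → ℂ) → Matrix (Fin n) (Fin n) ℂ) (q : Fin n → ℂ) (k : Fin n) :
    Matrix (Fin n) (Fin n) ℂ := fun a b => wd k (fun x => g (H x) a b) q

/-- `∂̄_l` of `g ∘ H`. -/
noncomputable def compDb (H : (Fin n → ℂ) → Fin n → ℂ)
    (g : (Fin n → ℂ) → Matrix (Fin n) (Fin n) ℂ) (q : Fin n → ℂ) (l : Fin n) :
    Matrix (Fin n) (Fin n) ℂ := fun a b => wdb l (fun x => g (H x) a b) q

namespace PullData

theorem dH (h : PullData U V g H) {q : Fin n → ℂ} (hq : q ∈ V) : DifferentiableAt ℂ H q :=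
  h.hH.differentiableAt (h.hV.mem_nhds hq)

theorem dJ (h : PullData U V g H) {q : Fin n → ℂ} (hq : q ∈ V) (i a : Fin n) :
    DifferentiableAt ℂ (fun x => jac H x i a) q :=
  differentiableAt_pi.1 ((P274.Full.PatchAux.differentiableOn_fderiv_apply h.hV h.hH
    (Pi.single i 1)).differentiableAt (h.hV.mem_nhds hq)) a

theorem rJ (h : PullData U V g H) {q : Fin n → ℂ} (hq : q ∈ V) (i a : Fin n) :
    DifferentiableAt ℝ (fun x => jac H x i a) q := (h.dJ hq i a).restrictScalars ℝ

theorem dJD (h : PullData U V g H) {q : Fin n → ℂ} (hq : q ∈ V) (k i a : Fin n) :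
    DifferentiableAt ℂ (fun x => jacD H x k i a) q := by
  have hev : (fun x => jacD H x k i a) =ᶠ[𝓝 q]
      fun x => fderiv ℂ (fun y => jac H y i a) x (Pi.single k 1) :=
    (eventually_mem h.hV hq).mono fun x hx => wd_hol (h.dJ hx i a) k
  refine DifferentiableAt.congr_of_eventuallyEq ?_ hev
  exact (P274.Full.PatchAux.differentiableOn_fderiv_apply h.hV
    (fun x hx => (h.dJ hx i a).differentiableWithinAt) _).differentiableAt (h.hV.mem_nhds hq)

theorem smooth_comp (h : PullData U V g H) (a b : Fin n) :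
    ContDiffOn ℝ ∞ (fun x => g (H x) a b) V := (h.hg.1 a b).comp h.hs h.hm

theorem two_comp (h : PullData U V g H) {q : Fin n → ℂ} (hq : q ∈ V) (a b : Fin n) :
    ContDiffAt ℝ 2 (fun x => g (H x) a b) q :=
  ((h.smooth_comp a b).contDiffAt (h.hV.mem_nhds hq)).of_le
    (WithTop.coe_le_coe.2 (le_top (a := (2 : ℕ∞))))

theorem dG (h : PullData U V g H) {q : Fin n → ℂ} (hq : q ∈ V) (a b : Fin n) :
    DifferentiableAt ℝ (fun x => g (H x) a b) q :=
  (h.two_comp hq a b).differentiableAt (by norm_num)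

theorem smooth_jac (h : PullData U V g H) (i a : Fin n) :
    ContDiffOn ℝ ∞ (fun x => jac H x i a) V := by
  have h1 : ContDiffOn ℝ ∞ (fderiv ℝ H) V := h.hs.fderiv_of_isOpen h.hV (by simp)
  have h2 : ContDiffOn ℝ ∞ (fun x => fderiv ℝ H x (Pi.single i 1) a) V :=
    contDiffOn_pi.1 (h1.clm_apply contDiffOn_const) a
  refine h2.congr fun x hx => ?_
  rw [(h.dH hx).fderiv_restrictScalars ℝ]
  rfl

theorem wd_pull (h : PullData U V g H) {q : Fin n → ℂ} (hq : q ∈ V) (k i j : Fin n) :
    wd k (fun x => pull H g x i j) q = ∑ a, ∑ b, (jacD H q k i a * g (H q) a b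
      + jac H q i a * compD H g q k a b) * conj (jac H q j b) := by
  have hd : ∀ a b, DifferentiableAt ℝ
      (fun x => jac H x i a * g (H x) a b * conj (jac H x j b)) q := fun a b =>
    ((h.rJ hq i a).mul (h.dG hq a b)).mul (differentiableAt_conj (h.rJ hq j b))
  show wd k (fun x => ∑ a, ∑ b, jac H x i a * g (H x) a b * conj (jac H x j b)) q = _
  rw [wd_sum univ (fun a _ => DifferentiableAt.fun_sum fun b _ => hd a b)]
  refine sum_congr rfl fun a _ => ?_
  rw [wd_sum univ (fun b _ => hd a b)]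
  refine sum_congr rfl fun b _ => ?_
  rw [wd_mul ((h.rJ hq i a).fun_mul (h.dG hq a b)) (differentiableAt_conj (h.rJ hq j b)),
    wd_mul (h.rJ hq i a) (h.dG hq a b), wd_conj (h.rJ hq j b), wdb_hol (h.dJ hq j b), map_zero]
  simp [jacD, compD]

theorem wdb_pull (h : PullData U V g H) {q : Fin n → ℂ} (hq : q ∈ V) (l i j : Fin n) :
    wdb l (fun x => pull H g x i j) q = ∑ a, ∑ b, jac H q i a * (compDb H g q l a b
      * conj (jac H q j b) + g (H q) a b * conj (jacD H q l j b)) := by
  have hd : ∀ a b, DifferentiableAt ℝ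
      (fun x => jac H x i a * g (H x) a b * conj (jac H x j b)) q := fun a b =>
    ((h.rJ hq i a).mul (h.dG hq a b)).mul (differentiableAt_conj (h.rJ hq j b))
  show wdb l (fun x => ∑ a, ∑ b, jac H x i a * g (H x) a b * conj (jac H x j b)) q = _
  rw [wdb_sum univ (fun a _ => DifferentiableAt.fun_sum fun b _ => hd a b)]
  refine sum_congr rfl fun a _ => ?_
  rw [wdb_sum univ (fun b _ => hd a b)]
  refine sum_congr rfl fun b _ => ?_
  rw [wdb_mul ((h.rJ hq i a).fun_mul (h.dG hq a b)) (differentiableAt_conj (h.rJ hq j b)),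
    wdb_mul (h.rJ hq i a) (h.dG hq a b), wdb_conj (h.rJ hq j b), wdb_hol (h.dJ hq i a)]
  simp only [jacD, compDb]
  ring

theorem pull_eq (H : (Fin n → ℂ) → Fin n → ℂ) (g : (Fin n → ℂ) → Matrix (Fin n) (Fin n) ℂ)
    (q : Fin n → ℂ) : pull H g q = jac H q * g (H q) * (jac H q)ᴴ := by
  ext i j
  simp only [mul_apply, conjTranspose_apply, Finset.sum_mul]
  rw [Finset.sum_comm]
  rfl

theorem vecMul_jac (H : (Fin n → ℂ) → Fin n → ℂ) (q v : Fin n → ℂ) :
    v ᵥ* jac H q = fderiv ℂ H q v := by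
  funext a
  have e : fderiv ℂ H q v = ∑ i, fderiv ℂ H q (Pi.single i (v i)) := by
    rw [← map_sum (fderiv ℂ H q), Finset.univ_sum_single]
  simp only [e, Finset.sum_apply, vecMul, dotProduct]
  refine sum_congr rfl fun i _ => ?_
  rw [show (Pi.single i (v i) : Fin n → ℂ) = v i • Pi.single i 1 by
    rw [← Pi.single_smul', smul_eq_mul, mul_one], map_smul]
  rfl

theorem jac_inj (h : PullData U V g H) {q : Fin n → ℂ} (hq : q ∈ V) :
    Function.Injective (jac H q).vecMul := by
  intro v w hvw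
  apply h.hinj q hq
  rw [← vecMul_jac, ← vecMul_jac]
  exact hvw

theorem jacD_symm (h : PullData U V g H) {q : Fin n → ℂ} (hq : q ∈ V) (i j a : Fin n) :
    jacD H q i j a = jacD H q j i a := by
  have e : ∀ j, (fun x => jac H x j a) =ᶠ[𝓝 q] wd j (fun x => H x a) := fun j => by
    refine (eventually_mem h.hV hq).mono fun x hx => ?_
    have hd : DifferentiableAt ℂ (fun y => H y a) x := differentiableAt_pi.1 (h.dH hx) a
    rw [wd_hol hd, (hasFDerivAt_pi'.1 (h.dH hx).hasFDerivAt a).fderiv]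
    rfl
  unfold jacD
  rw [wd_congr (e j), wd_congr (e i)]
  exact wd_wd_comm (((contDiffOn_pi.1 h.hs a).contDiffAt (h.hV.mem_nhds hq)).of_le
    (WithTop.coe_le_coe.2 (le_top (a := (2 : ℕ∞))))) i j

theorem compD_eq (h : PullData U V g H) {q : Fin n → ℂ} (hq : q ∈ V) (k a b : Fin n) :
    compD H g q k a b = ∑ c, jac H q k c * dg g (H q) c a b :=
  wd_comp_hol (h.dH hq) (differentiableAt_entry h.hU h.hg (h.hm hq) a b) k

theorem compDb_eq (h : PullData U V g H) {q : Fin n → ℂ} (hq : q ∈ V) (l a b : Fin n) :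
    compDb H g q l a b = ∑ d, conj (jac H q l d) * wdb d (fun x => g x a b) (H q) :=
  wdb_comp_hol (h.dH hq) (differentiableAt_entry h.hU h.hg (h.hm hq) a b) l

theorem kahler (h : PullData U V g H) : IsKahlerMetric V (pull H g) := by
  refine ⟨fun i j => ?_, fun q hq => ⟨?_, fun i j k => ?_⟩⟩
  · show ContDiffOn ℝ ∞ (fun x => ∑ a, ∑ b, jac H x i a * g (H x) a b * conj (jac H x j b)) V
    exact ContDiffOn.sum fun a _ => ContDiffOn.sum fun b _ =>
      ((h.smooth_jac i a).mul (h.smooth_comp a b)).mul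
        (Complex.conjCLE.contDiff.comp_contDiffOn (h.smooth_jac j b))
  · rw [pull_eq]
    exact (h.hg.2 _ (h.hm hq)).1.mul_mul_conjTranspose_same (h.jac_inj hq)
  · rw [h.wd_pull hq, h.wd_pull hq]
    simp only [add_mul, sum_add_distrib, h.jacD_symm hq i j]
    congr 1
    simp only [h.compD_eq hq, Finset.mul_sum, Finset.sum_mul]
    rw [Finset.sum_comm]
    conv_rhs => rw [Finset.sum_comm]
    refine sum_congr rfl fun b _ => ?_
    rw [Finset.sum_comm]
    refine sum_congr rfl fun a _ => sum_congr rfl fun c _ => ?_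
    rw [dg_symm h.hg (h.hm hq) a c b]
    ring

theorem wd_compDb (h : PullData U V g H) (hp : p ∈ V) (a b k l : Fin n) :
    wd k (fun x => compDb H g x l a b) p
      = ∑ c, ∑ d, jac H p k c * conj (jac H p l d) * ddg g (H p) a b c d := by
  have hf : ∀ d, DifferentiableAt ℝ (wdb d (fun x => g x a b)) (H p) := fun d =>
    differentiableAt_wdb (contDiffAt_entry_two h.hU h.hg (h.hm hp) a b) d
  have hH' : DifferentiableAt ℝ H p := (h.dH hp).restrictScalars ℝ
  have hd : ∀ d, DifferentiableAt ℝ (fun x => wdb d (fun y => g y a b) (H x)) p := fun d =>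
    (hf d).comp p hH'
  rw [wd_congr ((eventually_mem h.hV hp).mono fun x hx => h.compDb_eq hx l a b),
    wd_sum univ (fun d _ => (differentiableAt_conj (h.rJ hp l d)).fun_mul (hd d)), Finset.sum_comm]
  refine sum_congr rfl fun d _ => ?_
  rw [wd_mul (differentiableAt_conj (h.rJ hp l d)) (hd d), wd_conj (h.rJ hp l d),
    wdb_hol (h.dJ hp l d), map_zero, zero_mul, zero_add, wd_comp_hol (h.dH hp) (hf d),
    Finset.mul_sum]
  refine sum_congr rfl fun c _ => ?_
  unfold ddg
  ring

theorem ddg_pull (h : PullData U V g H) (hp : p ∈ V) (i j k l : Fin n) :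
    ddg (pull H g) p i j k l
      = (jacD H p k * (compDb H g p l * (jac H p)ᴴ + g (H p) * (jacD H p l)ᴴ)
        + jac H p * (Matrix.of (fun a b => wd k (fun x => compDb H g x l a b) p) * (jac H p)ᴴ
          + compD H g p k * (jacD H p l)ᴴ)) i j := by
  have hB : ∀ a b, DifferentiableAt ℝ (fun x => compDb H g x l a b) p := fun a b =>
    differentiableAt_wdb (h.two_comp hp a b) l
  have hS : ∀ b, DifferentiableAt ℝ (fun x => jacD H x l j b) p := fun b =>
    (h.dJD hp l j b).restrictScalars ℝ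
  have hin : ∀ a b, DifferentiableAt ℝ (fun x => compDb H g x l a b * conj (jac H x j b)
      + g (H x) a b * conj (jacD H x l j b)) p := fun a b =>
    ((hB a b).fun_mul (differentiableAt_conj (h.rJ hp j b))).fun_add
      ((h.dG hp a b).fun_mul (differentiableAt_conj (hS b)))
  have hd : ∀ a b, DifferentiableAt ℝ (fun x => jac H x i a * (compDb H g x l a b
      * conj (jac H x j b) + g (H x) a b * conj (jacD H x l j b))) p := fun a b =>
    (h.rJ hp i a).fun_mul (hin a b)
  unfold ddg
  rw [wd_congr ((eventually_mem h.hV hp).mono fun x hx => h.wdb_pull hx l i j),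
    wd_sum univ (fun a _ => DifferentiableAt.fun_sum fun b _ => hd a b)]
  simp only [Matrix.add_apply, mul_apply, conjTranspose_apply, of_apply, ← sum_add_distrib,
    Finset.mul_sum]
  refine sum_congr rfl fun a _ => ?_
  rw [wd_sum univ (fun b _ => hd a b)]
  refine sum_congr rfl fun b _ => ?_
  rw [wd_mul (h.rJ hp i a) (hin a b),
    wd_add ((hB a b).fun_mul (differentiableAt_conj (h.rJ hp j b)))
      ((h.dG hp a b).fun_mul (differentiableAt_conj (hS b))),
    wd_mul (hB a b) (differentiableAt_conj (h.rJ hp j b)),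
    wd_mul (h.dG hp a b) (differentiableAt_conj (hS b)),
    wd_conj (h.rJ hp j b), wd_conj (hS b), wdb_hol (h.dJ hp j b), wdb_hol (h.dJD hp l j b),
    map_zero]
  simp only [jacD, compD, starRingEnd_apply]
  ring

/-- The curvature tensor contracted in its last two slots with the Jacobian. -/
noncomputable def contr (H : (Fin n → ℂ) → Fin n → ℂ)
    (g : (Fin n → ℂ) → Matrix (Fin n) (Fin n) ℂ) (p : Fin n → ℂ) (k l : Fin n) :
    Matrix (Fin n) (Fin n) ℂ :=
  fun a b => ∑ c, ∑ d, jac H p k c * conj (jac H p l d) * ktens g (H p) a b c d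

theorem contr_eq (h : PullData U V g H) (hp : p ∈ V) (k l : Fin n) :
    Matrix.of (fun a b => wd k (fun x => compDb H g x l a b) p)
      - compD H g p k * (g (H p))⁻¹ * compDb H g p l = contr H g p k l := by
  ext a b
  have e : ∀ (x : Fin n → ℂ) (y : ℂ) (z : Fin n → ℂ),
      (∑ c, x c) * y * (∑ d, z d) = ∑ c, ∑ d, x c * y * z d := fun x y z => by
    simp only [Finset.sum_mul]
    simp only [Finset.mul_sum]
  simp only [Matrix.sub_apply, of_apply, mul_apply, contr, ktens, h.wd_compDb hp, ddg,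
    mul_sub, sum_sub_distrib]
  congr 1
  simp only [Finset.sum_mul]
  simp only [h.compD_eq hp, h.compDb_eq hp, e, Finset.mul_sum]
  rw [sum4_swap]
  refine sum_congr rfl fun c _ => sum_congr rfl fun d _ => ?_
  rw [Finset.sum_comm]
  refine sum_congr rfl fun r _ => sum_congr rfl fun s _ => ?_
  simp only [dg]
  ring

theorem ktens_pull (h : PullData U V g H) (hp : p ∈ V) (i j k l : Fin n) :
    ktens (pull H g) p i j k l = (jac H p * contr H g p k l * (jac H p)ᴴ) i j := by
  have hJ : IsUnit (jac H p).det :=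
    (isUnit_iff_isUnit_det _).1 (vecMul_injective_iff_isUnit.1 (h.jac_inj hp))
  have hJ' : IsUnit (jac H p)ᴴ.det := by
    rw [det_conjTranspose]; exact hJ.star
  have hG : IsUnit (g (H p)).det :=
    (isUnit_iff_isUnit_det _).1 (h.hg.2 _ (h.hm hp)).1.isUnit
  have hA : Matrix.of (fun i j => wd k (fun x => pull H g x i j) p)
      = (jacD H p k * g (H p) + jac H p * compD H g p k) * (jac H p)ᴴ := by
    ext i j
    simp only [of_apply, h.wd_pull hp, Matrix.add_apply, mul_apply, conjTranspose_apply,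
      Finset.sum_mul, add_mul, sum_add_distrib, starRingEnd_apply]
    congr 1 <;> exact Finset.sum_comm
  have hB : Matrix.of (fun i j => wdb l (fun x => pull H g x i j) p)
      = jac H p * (compDb H g p l * (jac H p)ᴴ + g (H p) * (jacD H p l)ᴴ) := by
    ext i j
    simp only [of_apply, h.wdb_pull hp, Matrix.add_apply, mul_apply, conjTranspose_apply,
      Finset.mul_sum, mul_add, sum_add_distrib, starRingEnd_apply]
  have hq : ∑ r, ∑ s, wd k (fun x => pull H g x i r) p * (pull H g p)⁻¹ r s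
        * wdb l (fun x => pull H g x s j) p
      = ((jacD H p k * g (H p) + jac H p * compD H g p k) * (jac H p)ᴴ * (pull H g p)⁻¹
          * (jac H p * (compDb H g p l * (jac H p)ᴴ + g (H p) * (jacD H p l)ᴴ))) i j := by
    rw [← hA, ← hB]
    simp only [mul_apply, of_apply, Finset.sum_mul]
    exact Finset.sum_comm
  show ddg (pull H g) p i j k l - _ = _
  rw [h.ddg_pull hp, hq, ← Matrix.sub_apply, ← h.contr_eq hp k l, pull_eq]
  refine congrArg (fun M : Matrix (Fin n) (Fin n) ℂ => M i j) ?_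
  simp only [Matrix.mul_inv_rev, Matrix.mul_assoc, Matrix.mul_add, Matrix.add_mul,
    Matrix.mul_sub, Matrix.sub_mul, mul_nonsing_inv_cancel_left _ _ hJ',
    nonsing_inv_mul_cancel_left _ _ hJ, mul_nonsing_inv_cancel_left _ _ hG,
    nonsing_inv_mul_cancel_left _ _ hG]
  abel

theorem bil (J P : Matrix (Fin n) (Fin n) ℂ) (A B : Fin n → ℂ) :
    ∑ i, ∑ j, (J * P * Jᴴ) i j * A i * conj (B j)
      = ∑ a, ∑ b, P a b * (A ᵥ* J) a * conj ((B ᵥ* J) b) := by
  simp only [mul_apply, conjTranspose_apply, vecMul, dotProduct, map_sum, map_mul,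
    Finset.sum_mul, Finset.mul_sum, starRingEnd_apply]
  rw [sum4_swap]
  rw [Finset.sum_comm]
  refine sum_congr rfl fun a _ => sum_congr rfl fun b _ => ?_
  rw [Finset.sum_comm]
  refine sum_congr rfl fun j _ => sum_congr rfl fun i _ => ?_
  ring

theorem quad_pull (h : PullData U V g H) (hp : p ∈ V) (A B C E : Fin n → ℂ) :
    quad (ktens (pull H g) p) A B C E = quad (ktens g (H p)) (fderiv ℂ H p A) (fderiv ℂ H p B)
      (fderiv ℂ H p C) (fderiv ℂ H p E) := by
  simp only [← vecMul_jac]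
  unfold quad
  simp only [h.ktens_pull hp]
  rw [sum4_swap, sum4_swap (fun a b c d => ktens g (H p) a b c d * _ * _ * _ * _)]
  have e1 : ∀ k l, ∑ i, ∑ j, (jac H p * contr H g p k l * (jac H p)ᴴ) i j * A i * conj (B j)
      * C k * conj (E l) = ∑ a, ∑ b, contr H g p k l a b * (A ᵥ* jac H p) a
        * conj ((B ᵥ* jac H p) b) * C k * conj (E l) := fun k l => by
    simp only [← Finset.sum_mul, bil]
  simp only [e1]
  rw [sum4_swap]
  conv_rhs => rw [sum4_swap]
  refine sum_congr rfl fun a _ => sum_congr rfl fun b _ => ?_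
  have e2 : ∀ k l, contr H g p k l a b
      = (jac H p * (Matrix.of fun c d => ktens g (H p) a b c d) * (jac H p)ᴴ) k l := fun k l => by
    simp only [contr, mul_apply, conjTranspose_apply, of_apply, Finset.sum_mul, starRingEnd_apply]
    rw [Finset.sum_comm]
    refine sum_congr rfl fun d _ => sum_congr rfl fun c _ => ?_
    ring
  have e3 := bil (jac H p) (Matrix.of fun c d => ktens g (H p) a b c d) C E
  calc ∑ k, ∑ l, contr H g p k l a b * (A ᵥ* jac H p) a * conj ((B ᵥ* jac H p) b) * C k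
        * conj (E l)
      = (∑ k, ∑ l, (jac H p * (Matrix.of fun c d => ktens g (H p) a b c d) * (jac H p)ᴴ) k l
          * C k * conj (E l)) * (A ᵥ* jac H p) a * conj ((B ᵥ* jac H p) b) := by
        simp only [e2, Finset.sum_mul]
        exact sum_congr rfl fun k _ => sum_congr rfl fun l _ => by ring
    _ = _ := by
        rw [e3]
        simp only [Finset.sum_mul, of_apply]
        exact sum_congr rfl fun c _ => sum_congr rfl fun d _ => by ring

end PullData

end Vale.Agent.P250.Full.Curv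

namespace Vale.Agent.P250.Full

/-- Curvature is natural under holomorphic local diffeomorphisms. -/
theorem pullCurv : PullStmt := by
  intro n U V g H hU hV hg hH hs hm hinj p hp X Y
  have h : Curv.PullData U V g H := ⟨hU, hV, hg, hH, hs, hm, hinj⟩
  rw [Curv.curv_eq hV h.kahler hp, Curv.curv_eq hU hg (hm hp), h.quad_pull hp, h.quad_pull hp]

end Vale.Agent.P250.Full
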