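import Vale.Agent.P250.Full.Statement

/-!
The example: a Hartogs domain over the ball of `ℂ²` whose weight carries layers of smoothed
hyperplane potentials.
-/

namespace Vale.Agent.P250.Full

open Complex
open scoped ComplexConjugate

/-- Squared Euclidean norm on `ℂ²`. -/
def nsq (z : Fin 2 → ℂ) : ℝ := normSq (z 0) + normSq (z 1)

/-- Hermitian product on `ℂ²`. -/
noncomputable def ip (z e : Fin 2 → ℂ) : ℂ := z 0 * conj (e 0) + z 1 * conj (e 1)

/-- The unit vector orthogonal to a unit vector `e`. -/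
noncomputable def perp (e : Fin 2 → ℂ) : Fin 2 → ℂ := ![-conj (e 1), conj (e 0)]

/-- The open unit ball of `ℂ²`. -/
def ball2 : Set (Fin 2 → ℂ) := {z | nsq z < 1}

/-- The unit sphere of `ℂ²`. -/
def sph : Set (Fin 2 → ℂ) := {z | nsq z = 1}

/-- The cell size of layer `n`. -/
noncomputable def tl (D : ℝ) (n : ℕ) : ℝ := Real.exp (-((n : ℝ) * D))

/-- Half-plane coordinate at scale `t`. -/
noncomputable def uc (t : ℝ) (s : ℂ) : ℂ := (1 - s) / ((1 + s) * t)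

/-- Real zero of the cell map. -/
noncomputable def av (t : ℝ) : ℝ := (1 - t) / (1 + t)

/-- The cell map of the disc; it equals `(uc - 1) / (uc + 1)`. -/
noncomputable def bc (t : ℝ) (s : ℂ) : ℂ := ((av t : ℂ) - s) / (1 - (av t : ℂ) * s)

/-- Smooth step: zero below `ρ²/4`, one above `3ρ²/4`. -/
noncomputable def stp (ρ v : ℝ) : ℝ := Real.smoothTransition ((v - ρ ^ 2 / 4) / (ρ ^ 2 / 2))

/-- Smoothed `log x`, equal to it for `3ρ²/4 ≤ x ≤ 1`. -/
noncomputable def prof (ρ x : ℝ) : ℝ := -∫ v in x..1, stp ρ v / v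

/-- The potential of one cell. -/
noncomputable def gam (ρ t : ℝ) (e z : Fin 2 → ℂ) : ℝ := prof ρ (normSq (bc t (ip z e)))

/-- The small variable `(1 - a²) / (1 - a s)`, so that `bc = (vc - 1) / av` up to sign. -/
noncomputable def vc (t : ℝ) (s : ℂ) : ℂ := (1 - (av t : ℂ) ^ 2) / (1 - (av t : ℂ) * s)

/-- A finite net of the sphere at scale `t`, separated and covering at distance `1000 t`. -/
def IsNet (t : ℝ) (S : Finset (Fin 2 → ℂ)) : Prop :=
  (∀ e ∈ S, e ∈ sph) ∧ (∀ e ∈ S, ∀ e' ∈ S, e ≠ e' → 1000 * t ≤ ‖1 - ip e e'‖) ∧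
    ∀ x ∈ sph, ∃ e ∈ S, ‖1 - ip x e‖ < 1000 * t

open Classical in
/-- A chosen net at scale `t`. -/
noncomputable def net (t : ℝ) : Finset (Fin 2 → ℂ) :=
  if h : ∃ S, IsNet t S then h.choose else ∅

/-- The profile of one cell, corrected by the first four terms of the expansion of `log |bc|²`
in `vc`, which makes it small of fifth order. -/
noncomputable def cell1 (ρ t : ℝ) (s : ℂ) : ℝ :=
  prof ρ (normSq (bc t s)) + 2 * (∑ k ∈ Finset.range 4, vc t s ^ (k + 1) / (k + 1)).re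
    + 2 * Real.log (av t)

/-- The contribution of one cell. -/
noncomputable def cell (ρ D : ℝ) (n : ℕ) (e z : Fin 2 → ℂ) : ℝ := cell1 ρ (tl D n) (ip z e)

/-- The weight: all layers `n ≥ 1`. -/
noncomputable def phi (ρ D : ℝ) (z : Fin 2 → ℂ) : ℝ :=
  ∑' n : ℕ, ∑ e ∈ net (tl D (n + 1)), cell ρ D (n + 1) e z

/-- `L = -log (1 - |z|²)`. -/
noncomputable def lb (z : Fin 2 → ℂ) : ℝ := -Real.log (1 - nsq z)

/-- The total weight. -/
noncomputable def Phi (ρ D N : ℝ) (z : Fin 2 → ℂ) : ℝ := lb z + N * phi ρ D z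

/-- Base coordinates of a point of `ℂ³`. -/
def zc (p : Fin 3 → ℂ) : Fin 2 → ℂ := ![p 0, p 1]

/-- The quantity `x = |w|² e^Φ`. -/
noncomputable def xc (W : (Fin 2 → ℂ) → ℝ) (p : Fin 3 → ℂ) : ℝ :=
  normSq (p 2) * Real.exp (W (zc p))

/-- The Hartogs domain of a weight `W`. -/
def dom (W : (Fin 2 → ℂ) → ℝ) : Set (Fin 3 → ℂ) := {p | nsq (zc p) < 1 ∧ xc W p < 1}

/-- `∂ W`. -/
noncomputable def d1 (W : (Fin 2 → ℂ) → ℝ) (a : Fin 2) (z : Fin 2 → ℂ) : ℂ :=
  wd a (fun q => (W q : ℂ)) z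

/-- `∂ ∂̄ W`. -/
noncomputable def lev (W : (Fin 2 → ℂ) → ℝ) (a b : Fin 2) (z : Fin 2 → ℂ) : ℂ :=
  wd a (fun q => wdb b (fun q' => (W q' : ℂ)) q) z

/-- The ball metric `∂ ∂̄ lb`. -/
noncomputable def omb (a b : Fin 2) (z : Fin 2 → ℂ) : ℂ :=
  (if a = b then (1 : ℂ) else 0) / ((1 - nsq z : ℝ) : ℂ)
    + conj (z a) * z b / (((1 - nsq z) ^ 2 : ℝ) : ℂ)

/-- `∂ ∂̄ (A lb - log (1 - x))` on the domain of `W`. -/
noncomputable def met (A : ℝ) (W : (Fin 2 → ℂ) → ℝ) (p : Fin 3 → ℂ) : Matrix (Fin 3) (Fin 3) ℂ :=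
  let x := xc W p
  let q : ℂ := ((Real.exp (W (zc p)) / (1 - x) ^ 2 : ℝ) : ℂ)
  let w := p 2
  let base : Fin 2 → Fin 2 → ℂ := fun a b =>
    (A : ℂ) * omb a b (zc p) + ((x / (1 - x) : ℝ) : ℂ) * lev W a b (zc p)
      + q * (normSq w : ℂ) * d1 W a (zc p) * conj (d1 W b (zc p))
  let side : Fin 2 → ℂ := fun a => q * w * d1 W a (zc p)
  !![base 0 0, base 0 1, side 0; base 1 0, base 1 1, side 1; conj (side 0), conj (side 1), q]

end Vale.Agent.P250.Full
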