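import Vale.Agent.P250.Full.Geometry.Cell

/-!
Bounded geometry of the weight.
-/

namespace Vale.Agent.P250.Full.Geometry

open Complex Filter Calc
open scoped ComplexConjugate Topology ContDiff

variable {ρ D N : ℝ} {a : Fin 2 → ℂ} {M : ℕ}

theorem tl_pos (D : ℝ) (n : ℕ) : 0 < tl D n := Real.exp_pos _

theorem tl_le (hD : 7 ≤ D) (n : ℕ) : tl D (n + 1) ≤ 1 / 1000 := by
  have h1 : tl D (n + 1) ≤ Real.exp (-7) := by
    refine Real.exp_le_exp.2 ?_
    push_cast
    nlinarith [(n.cast_nonneg : (0 : ℝ) ≤ n)]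
  have h2 : (1000 : ℝ) ≤ Real.exp 7 := by
    have h := pow_le_pow_left₀ (by norm_num) Real.exp_one_gt_d9.le 7
    rw [Real.exp_one_pow] at h
    norm_num at h ⊢
    linarith
  refine h1.trans ?_
  rw [Real.exp_neg, one_div]
  exact inv_anti₀ (by norm_num) h2

theorem exists_layer (hD : 7 ≤ D) {δ : ℝ} (hδ : 0 < δ) : ∃ M : ℕ, 50 * tl D (M + 1) < δ := by
  obtain ⟨k, hk⟩ := exists_nat_gt (50 / δ)
  refine ⟨k, ?_⟩
  have h1 : ((k : ℝ) + 1) * D + 1 ≤ Real.exp (((k : ℝ) + 1) * D) := Real.add_one_le_exp _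
  have h2 : (k : ℝ) < Real.exp (((k : ℝ) + 1) * D) := by
    nlinarith [(k.cast_nonneg : (0 : ℝ) ≤ k)]
  have h3 : 50 / δ < Real.exp (((k : ℝ) + 1) * D) := hk.trans h2
  rw [div_lt_iff₀ hδ] at h3
  rw [tl, Real.exp_neg, ← div_eq_mul_inv, div_lt_iff₀ (Real.exp_pos _)]
  push_cast
  linarith

theorem eventually_reg (ha : a ∈ ball2) (hM : 50 * tl D (M + 1) < 1 - nsq a) :
    ∀ᶠ z in 𝓝 (0 : Fin 2 → ℂ), z ∈ ball2 ∧ 50 * tl D (M + 1) ≤ 1 - nsq (aut a z) := by
  refine Filter.Eventually.and (isOpen_ball2.mem_nhds zero_mem_ball2) ?_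
  have hc : ContinuousAt (fun z => 1 - nsq (aut a z)) 0 :=
    continuousAt_const.sub ((contDiff_nsq (k := 0)).continuous.continuousAt.comp
      ((differentiableOn_aut ha).differentiableAt (isOpen_ball2.mem_nhds zero_mem_ball2)).continuousAt)
  exact (hc.eventually (lt_mem_nhds (by simpa [aut_zero] using hM))).mono fun _ h => h.le

/-- The Levi form of the weight in new coordinates: finitely many cells and the ball metric. -/
theorem lev_Phi_aut (hP : PhiStmt) (hF : ProfStmt) (h1 : 0 < ρ) (h2 : ρ ≤ 1 / 10) (hD : 7 ≤ D)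
    (ha : a ∈ ball2) {z : Fin 2 → ℂ} (hz : z ∈ ball2)
    (hM : 50 * tl D (M + 1) ≤ 1 - nsq (aut a z)) (i j : Fin 2) :
    lev (fun q => Phi ρ D N (aut a q)) i j z = omb i j z + (N : ℂ) *
      ∑ n ∈ Finset.range M, ∑ e ∈ net (tl D (n + 1)),
        lev (fun q => gam ρ (tl D (n + 1)) e (aut a q)) i j z := by
  obtain ⟨hsm, hlev⟩ := hP ρ D h1 h2 hD
  have hb := aut_mem ha hz
  have hphi : ContDiffAt ℝ 2 (phi ρ D) (aut a z) :=
    (hsm.contDiffAt (isOpen_ball2.mem_nhds hb)).of_le (WithTop.coe_le_coe.2 le_top)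
  have haut : ContDiffAt ℝ 2 (aut a) z := by
    have hip : ContDiffAt ℝ 2 (fun q => ip q a) z := by unfold ip; fun_prop
    have hi := (contDiffAt_const (c := (1 : ℂ)).sub hip).inv (one_sub_ip_ne ha hz)
    unfold aut
    refine hi.smul ?_
    simp only [div_eq_mul_inv]
    fun_prop
  have c1 : ContDiffAt ℝ 2 (fun q => lb (aut a q)) z := by
    have : ContDiffAt ℝ 2 lb (aut a z) := by
      have h : ContDiffAt ℝ 2 (fun q => 1 - nsq q) (aut a z) :=
        contDiffAt_const.sub contDiff_nsq.contDiffAt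
      exact (h.log (sub_ne_zero.2 (show nsq (aut a z) < 1 from hb).ne')).neg
    exact this.comp z haut
  have c2 : ContDiffAt ℝ 2 (fun q => phi ρ D (aut a q)) z := hphi.comp z haut
  show lev (fun q => lb (aut a q) + N * phi ρ D (aut a q)) i j z = _
  rw [lev_add c1 (contDiffAt_const.mul c2), lev_lb_aut ha hz, lev_const_mul c2,
    lev_chain isOpen_ball2 (differentiableOn_aut ha) hz hphi]
  congr 2
  simp only [hlev _ hb M hM, Finset.sum_mul, Fin.sum_univ_two, ← Finset.sum_add_distrib]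
  refine Finset.sum_congr rfl fun n _ => Finset.sum_congr rfl fun e he => ?_
  rw [lev_chain isOpen_ball2 (differentiableOn_aut ha) hz
    (contDiffAt_gam hF h1 h2 (tl_pos D _) (tl_le hD n) ((isNet_net _ (tl_pos D _)).1 e he) hb)]
  simp only [Fin.sum_univ_two, add_mul]

/-- A cell in new coordinates has a jet of size `δ / t` if active, and vanishes otherwise. -/
theorem jet_cell (hF : ProfStmt) (h1 : 0 < ρ) (h2 : ρ ≤ 1 / 10) {C : ℝ}
    (hC : ∀ p : ℂ × ℂ × (Fin 2 → ℂ) × (Fin 2 → ℂ), ‖p‖ ≤ 20 → ∀ i j, Jet (model ρ i j p) C)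
    {t : ℝ} (ht : 0 < t) (ht1 : t ≤ 1 / 1000) (ha : a ∈ ball2) {e : Fin 2 → ℂ} (he : e ∈ sph)
    (i j : Fin 2) :
    Jet (fun z => lev (fun q => gam ρ t e (aut a q)) i j z)
      (if normSq (bc t (ip a e)) ≤ 3 * ρ ^ 2 / 4 then (1 - nsq a) / t * C else 0) := by
  have hball := isOpen_ball2.mem_nhds zero_mem_ball2
  split_ifs with hrel
  · obtain ⟨p, hp, hε, hform⟩ := cell_normal_form h1 h2 ht ht1 ha he hrel
    have hδ : 0 ≤ (1 - nsq a) / t := div_nonneg (sub_nonneg.2 (le_of_lt ha)) ht.le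
    have key := (hC p hp i j).const_mul ((1 - nsq a) / t)
    rw [abs_of_nonneg hδ] at key
    refine key.congr ?_
    filter_upwards [hball] with z hz
    obtain ⟨hne, heq⟩ := hform z hz
    have hev : hfun t a e =ᶠ[𝓝 z] hh p :=
      eventually_of_mem (isOpen_ball2.mem_nhds hz) fun q hq => (hform q hq).2
    rw [lev_gam_aut hF h1 h2 ht ht1 ha he hz, heq, hev.fderiv_eq,
      (hasFDerivAt_hh p hne i).2, (hasFDerivAt_hh p hne j).2, ← hε, model, ← mul_conj]
    simp only [map_mul]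
    ring
  · refine jet_zero.congr ?_
    have h0 : hfun t a e 0 = bc t (ip a e) := by rw [hfun, aut_zero]
    have hc : ContinuousAt (fun z => normSq (hfun t a e z)) 0 :=
      continuous_normSq.continuousAt.comp
        ((differentiableOn_hfun ht ht1 ha he).differentiableAt hball).continuousAt
    filter_upwards [hball, hc.eventually (lt_mem_nhds (a := 3 * ρ ^ 2 / 4)
      (by simp only [h0]; exact not_le.1 hrel))] with z hz hlt
    rw [lev_gam_aut hF h1 h2 ht ht1 ha he hz, K_eq_zero hF h1 h2 hlt]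
    simp

/-- In one layer at most one cell is active. -/
theorem card_active (h1 : 0 < ρ) (h2 : ρ ≤ 1 / 10) {t : ℝ} (ht : 0 < t) (ht1 : t ≤ 1 / 1000)
    (ha : a ∈ ball2) :
    ((net t).filter fun e => normSq (bc t (ip a e)) ≤ 3 * ρ ^ 2 / 4).card ≤ 1 := by
  refine Finset.card_le_one.2 fun e he e' he' => ?_
  rw [Finset.mem_filter] at he he'
  obtain ⟨hs, hsep, -⟩ := isNet_net t ht
  by_contra hne
  have q1 := (relevant_facts h1 h2 ht ht1 ha (hs e he.1) he.2).2.2.2.1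
  have q2 := (relevant_facts h1 h2 ht ht1 ha (hs e' he'.1) he'.2).2.2.2.1
  have h := triangle e a e' (le_of_eq (hs e he.1)) (le_of_lt ha) (le_of_eq (hs e' he'.1))
  rw [norm_one_sub_ip_comm e a] at h
  have hT := Real.sqrt_le_sqrt (hsep e he.1 e' he'.1 hne)
  have b1 := Real.sqrt_le_sqrt q1
  have b2 := Real.sqrt_le_sqrt q2
  have e1 : Real.sqrt (1000 * t) = Real.sqrt 1000 * Real.sqrt t := Real.sqrt_mul (by norm_num) t
  have e2 : Real.sqrt (3 * t) = Real.sqrt 3 * Real.sqrt t := Real.sqrt_mul (by norm_num) t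
  have b3 : Real.sqrt 3 ≤ 2 := by rw [Real.sqrt_le_left] <;> norm_num
  have b4 : 30 ≤ Real.sqrt 1000 := by rw [Real.le_sqrt] <;> norm_num
  nlinarith [Real.sqrt_pos.2 ht]

/-- The geometric sum over the active layers. -/
theorem layer_sum_le {u : ℕ → ℝ} (h0 : ∀ n, 0 ≤ u n) (hu : ∀ n, 2 * u n ≤ u (n + 1)) (M : ℕ) :
    ∑ n ∈ Finset.range M, (if u n ≤ 5 then u n else 0) ≤ min 10 (u M) := by
  induction M with
  | zero => simpa using h0 0
  | succ M ih =>
    rw [Finset.sum_range_succ]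
    obtain ⟨i1, i2⟩ := le_min_iff.1 ih
    have := hu M
    have := h0 M
    refine le_min ?_ ?_ <;> split_ifs <;> linarith

theorem exists_jet_bound (hP : PhiStmt) (hF : ProfStmt) (h1 : 0 < ρ) (h2 : ρ ≤ 1 / 10)
    (hD : 7 ≤ D) (N : ℝ) : ∃ C : ℝ, ∀ a ∈ ball2, ∀ i j : Fin 2,
      Jet (fun z => lev (fun q => Phi ρ D N (aut a q)) i j z) C := by
  obtain ⟨C, hC0, hC⟩ := exists_model_bound hF h1 h2
  refine ⟨(∑ i, ∑ j, ∑ k : Fin 3, ‖iteratedFDeriv ℝ (k : ℕ) (omb i j) 0‖) + |N| * (10 * C),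
    fun a ha i j => ?_⟩
  obtain ⟨M, hM⟩ := exists_layer hD (sub_pos.2 ha)
  have hom : Jet (omb i j) (∑ i, ∑ j, ∑ k : Fin 3, ‖iteratedFDeriv ℝ (k : ℕ) (omb i j) 0‖) := by
    have hc : ∀ c : Fin 2, ContDiffAt ℝ 2 (fun z : Fin 2 → ℂ => z c) 0 := fun c => by fun_prop
    have hd : ContDiffAt ℝ 2 (fun z : Fin 2 → ℂ => ((1 - nsq z : ℝ) : ℂ)) 0 :=
      ofRealCLM.contDiff.contDiffAt.comp (0 : Fin 2 → ℂ)
        (contDiffAt_const.sub contDiff_nsq.contDiffAt)
    have hd0 : ((1 - nsq (0 : Fin 2 → ℂ) : ℝ) : ℂ) ≠ 0 := by simp [nsq]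
    refine ⟨?_, fun k hk => ?_⟩
    · show ContDiffAt ℝ 2 (fun z => omb i j z) 0
      simp only [omb, div_eq_mul_inv, ofReal_pow]
      exact (contDiffAt_const.mul (hd.inv hd0)).add
        (((conjCLE.contDiff.contDiffAt.comp (0 : Fin 2 → ℂ) (hc i)).mul (hc j)).mul
          ((hd.pow 2).inv (pow_ne_zero 2 hd0)))
    · refine le_trans ?_ (Finset.single_le_sum (fun i _ => by positivity) (Finset.mem_univ i))
      refine le_trans ?_ (Finset.single_le_sum (fun j _ => by positivity) (Finset.mem_univ j))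
      exact Finset.single_le_sum (f := fun k : Fin 3 => ‖iteratedFDeriv ℝ (k : ℕ) (omb i j) 0‖)
        (fun k _ => norm_nonneg _) (Finset.mem_univ (⟨k, Nat.lt_succ_of_le hk⟩ : Fin 3))
  let u : ℕ → ℝ := fun n => (1 - nsq a) / tl D (n + 1)
  have hu0 : ∀ n, 0 ≤ u n := fun n => div_nonneg (sub_nonneg.2 (le_of_lt ha)) (tl_pos D _).le
  have hu : ∀ n, 2 * u n ≤ u (n + 1) := fun n => by
    have he : tl D (n + 1) = tl D (n + 2) * Real.exp D := by
      rw [tl, tl, ← Real.exp_add]; push_cast; ring_nf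
    have h8 : 2 ≤ Real.exp D := by linarith [Real.add_one_le_exp D]
    simp only [u]
    rw [he, ← div_div, mul_div_assoc', div_le_iff₀ (Real.exp_pos D)]
    nlinarith [hu0 (n + 1)]
  have hlayer : ∀ n ∈ Finset.range M, Jet
      (fun z => ∑ e ∈ net (tl D (n + 1)), lev (fun q => gam ρ (tl D (n + 1)) e (aut a q)) i j z)
      ((if u n ≤ 5 then u n else 0) * C) := fun n _ => by
    have ht := tl_pos D (n + 1)
    have ht1 := tl_le hD n
    refine (jet_sum _ fun e he =>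
      jet_cell hF h1 h2 hC ht ht1 ha ((isNet_net _ ht).1 e he) i j).mono ?_
    rw [Finset.sum_ite, Finset.sum_const_zero, add_zero, Finset.sum_const, nsmul_eq_mul]
    have hcard := card_active h1 h2 ht ht1 ha
    rcases Nat.le_one_iff_eq_zero_or_eq_one.1 hcard with h | h <;> rw [h]
    · rw [Nat.cast_zero, zero_mul]
      exact mul_nonneg (by split_ifs <;> simp [hu0 n]) hC0
    · obtain ⟨e, he⟩ := Finset.card_eq_one.1 h
      have hem : e ∈ (net (tl D (n + 1))).filter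
          fun e => normSq (bc (tl D (n + 1)) (ip a e)) ≤ 3 * ρ ^ 2 / 4 :=
        he ▸ Finset.mem_singleton_self e
      rw [Finset.mem_filter] at hem
      obtain ⟨-, -, hδ, -, hcs⟩ := relevant_facts h1 h2 ht ht1 ha ((isNet_net _ ht).1 e hem.1) hem.2
      have hu5 : u n ≤ 5 := by
        simp only [u]; rw [div_le_iff₀ ht]; linarith
      rw [if_pos hu5, Nat.cast_one, one_mul]
  refine ((hom.add (((jet_sum _ hlayer).mono (C' := 10 * C) ?_).const_mul N))).congr ?_
  · rw [← Finset.sum_mul]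
    exact mul_le_mul_of_nonneg_right ((layer_sum_le hu0 hu M).trans (min_le_left _ _)) hC0
  · filter_upwards [eventually_reg ha hM] with z hz
    rw [lev_Phi_aut hP hF h1 h2 hD ha hz.1 hz.2]

theorem lower_bound (hP : PhiStmt) (hF : ProfStmt) (hL : LayerStmt) (h1 : 0 < ρ) (h2 : ρ ≤ 1 / 10)
    (hD : 7 ≤ D) (hN : 0 ≤ N) (ha : a ∈ ball2) (v : Fin 2 → ℂ) :
    nsq v ≤ levQ (fun q => Phi ρ D N (aut a q)) 0 v := by
  obtain ⟨M, hM⟩ := exists_layer hD (sub_pos.2 ha)
  have hM' : 50 * tl D (M + 1) ≤ 1 - nsq (aut a 0) := by rw [aut_zero]; exact hM.le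
  have hsum : 0 ≤ ∑ n ∈ Finset.range M, ∑ e ∈ net (tl D (n + 1)),
      levQ (fun q => gam ρ (tl D (n + 1)) e (aut a q)) 0 v :=
    Finset.sum_nonneg fun n _ => Finset.sum_nonneg fun e he => by
      have ht := tl_pos D (n + 1)
      have he' := (isNet_net _ ht).1 e he
      have hb := aut_mem ha zero_mem_ball2
      rw [levQ_chain isOpen_ball2 (differentiableOn_aut ha) zero_mem_ball2
        (contDiffAt_gam hF h1 h2 ht (tl_le hD n) he' hb)]
      obtain ⟨C, -, h⟩ := hL ρ h1 h2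
      exact (h _ ht (tl_le hD n) _ hb _).1 e he'
  have hexp : levQ (fun q => Phi ρ D N (aut a q)) 0 v = nsq v + N *
      ∑ n ∈ Finset.range M, ∑ e ∈ net (tl D (n + 1)),
        levQ (fun q => gam ρ (tl D (n + 1)) e (aut a q)) 0 v := by
    simp only [levQ, lev_Phi_aut hP hF h1 h2 hD ha zero_mem_ball2 hM', Fin.sum_univ_two,
      add_mul, add_re, mul_assoc, re_ofReal_mul, Finset.sum_mul, re_sum]
    simp [omb, nsq, normSq_apply, Finset.sum_add_distrib]
    ring
  rw [hexp]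
  nlinarith [mul_nonneg hN hsum]

/-- The weight has bounded geometry. -/
theorem geometry (hP : PhiStmt) (hF : ProfStmt) (hL : LayerStmt) : GeometryStmt := by
  intro ρ D N h1 h2 hD hN
  refine ⟨?_, ?_⟩
  · have hlb : ContDiffOn ℝ ∞ lb ball2 := fun z hz =>
      (((contDiffAt_const.sub contDiff_nsq.contDiffAt).log
        (sub_ne_zero.2 (show nsq z < 1 from hz).ne')).neg).contDiffWithinAt
    exact hlb.add (contDiffOn_const.mul (hP ρ D h1 h2 hD).1)
  · obtain ⟨C, hC⟩ := exists_jet_bound hP hF h1 h2 hD N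
    exact ⟨C, fun a ha => ⟨lower_bound hP hF hL h1 h2 hD hN ha, fun i j => (hC a ha i j).2⟩⟩

end Vale.Agent.P250.Full.Geometry
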