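import Vale.Agent.P250.Full.Spec

/-!
Nets on the sphere of `ℂ²`: the quasi-metric `‖1 - ⟨x, y⟩‖`, separated covering
sets.
-/

namespace Vale.Agent.P250.Full

open Complex MeasureTheory Set
open scoped ComplexConjugate Real

theorem ip_conj (z w : Fin 2 → ℂ) : conj (ip z w) = ip w z := by
  simp [ip]; ring

theorem norm_one_sub_ip_comm (z w : Fin 2 → ℂ) : ‖1 - ip z w‖ = ‖1 - ip w z‖ := by
  rw [← ip_conj z w, ← Complex.norm_conj (1 - ip z w)]
  simp

theorem ip_self (z : Fin 2 → ℂ) : ip z z = (nsq z : ℂ) := by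
  simp [ip, nsq, Complex.mul_conj]

theorem nsq_eq_norm_sq (z : Fin 2 → ℂ) : nsq z = ‖z 0‖ ^ 2 + ‖z 1‖ ^ 2 := by
  simp [nsq, Complex.normSq_eq_norm_sq]

theorem norm_ip_le (z w : Fin 2 → ℂ) (hz : nsq z ≤ 1) (hw : nsq w ≤ 1) : ‖ip z w‖ ≤ 1 := by
  have h : ‖ip z w‖ ≤ ‖z 0‖ * ‖w 0‖ + ‖z 1‖ * ‖w 1‖ := by
    refine (norm_add_le _ _).trans (le_of_eq ?_)
    simp
  rw [nsq_eq_norm_sq] at hz hw
  nlinarith [sq_nonneg (‖z 0‖ - ‖w 0‖), sq_nonneg (‖z 1‖ - ‖w 1‖)]

/-- The triangle inequality for `√‖1 - ⟨z, w⟩‖`. -/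
theorem triangle : TriangleStmt := by
  intro z w v hz hw hv
  set a := ip z w with ha
  set b := ip v w with hb
  set r := 1 - nsq w with hr
  have hr0 : 0 ≤ r := by linarith
  have ha1 : ‖a‖ ≤ 1 := norm_ip_le z w hz hw
  have hb1 : ‖b‖ ≤ 1 := norm_ip_le v w hv hw
  have hbv : ‖1 - ip w v‖ = ‖1 - b‖ := norm_one_sub_ip_comm w v
  have key : ∀ y : Fin 2 → ℂ, nsq y ≤ 1 →
      ‖y 0 - ip y w * w 0‖ ^ 2 + ‖y 1 - ip y w * w 1‖ ^ 2 + ‖ip y w‖ ^ 2 * r
        ≤ 2 * ‖1 - ip y w‖ := by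
    intro y hy
    have hc : ‖ip y w‖ ≤ 1 := norm_ip_le y w hy hw
    have e : ‖y 0 - ip y w * w 0‖ ^ 2 + ‖y 1 - ip y w * w 1‖ ^ 2 + ‖ip y w‖ ^ 2 * r
        = nsq y - ‖ip y w‖ ^ 2 := by
      simp only [hr, nsq, Complex.sq_norm, ip]
      simp [Complex.normSq_apply]
      ring
    have h1 : 1 - ‖ip y w‖ ≤ ‖1 - ip y w‖ := by
      simpa using norm_sub_norm_le (1 : ℂ) (ip y w)
    nlinarith [norm_nonneg (ip y w), norm_nonneg (1 - ip y w)]
  have hdec : 1 - ip z v = (1 - a) + a * conj (1 - b) -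
      ((z 0 - a * w 0) * conj (v 0 - b * w 0) + (z 1 - a * w 1) * conj (v 1 - b * w 1)
        + a * conj b * (r : ℂ)) := by
    simp only [ha, hb, hr, ip, nsq]
    push_cast [← Complex.mul_conj]
    simp only [map_sub, map_mul, map_add, map_one, Complex.conj_conj]
    ring
  have P := key z hz
  have Q := key v hv
  rw [← ha] at P
  rw [← hb] at Q
  set p0 := ‖z 0 - a * w 0‖
  set p1 := ‖z 1 - a * w 1‖
  set q0 := ‖v 0 - b * w 0‖
  set q1 := ‖v 1 - b * w 1‖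
  have hbound : ‖1 - ip z v‖ ≤ ‖1 - a‖ + ‖1 - b‖ + (p0 * q0 + p1 * q1 + ‖a‖ * ‖b‖ * r) := by
    rw [hdec]
    refine (norm_sub_le _ _).trans (add_le_add ((norm_add_le _ _).trans ?_) ?_)
    · rw [norm_mul, Complex.norm_conj]
      nlinarith [norm_nonneg (1 - b)]
    · refine (norm_add_le _ _).trans (add_le_add ((norm_add_le _ _).trans (le_of_eq ?_)) (le_of_eq ?_))
      · rw [norm_mul, norm_mul, Complex.norm_conj, Complex.norm_conj]
      · rw [norm_mul, norm_mul, Complex.norm_conj, Complex.norm_real, Real.norm_eq_abs,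
          abs_of_nonneg hr0]
  have cs : (p0 * q0 + p1 * q1 + ‖a‖ * ‖b‖ * r) ^ 2 ≤
      (2 * (Real.sqrt ‖1 - a‖ * Real.sqrt ‖1 - b‖)) ^ 2 := by
    have hs : Real.sqrt r ^ 2 = r := Real.sq_sqrt hr0
    have : (p0 * q0 + p1 * q1 + ‖a‖ * ‖b‖ * r) ^ 2 ≤
        (p0 ^ 2 + p1 ^ 2 + ‖a‖ ^ 2 * r) * (q0 ^ 2 + q1 ^ 2 + ‖b‖ ^ 2 * r) := by
      nlinarith [sq_nonneg (p0 * q1 - p1 * q0),
        mul_nonneg hr0 (sq_nonneg (p0 * ‖b‖ - ‖a‖ * q0)),
        mul_nonneg hr0 (sq_nonneg (p1 * ‖b‖ - ‖a‖ * q1))]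
    refine this.trans ((mul_le_mul P Q (by positivity) (by positivity)).trans (le_of_eq ?_))
    rw [mul_pow, mul_pow, Real.sq_sqrt (norm_nonneg _), Real.sq_sqrt (norm_nonneg _)]
    ring
  have cs' := abs_le_of_sq_le_sq cs (by positivity)
  rw [hbv]
  rw [Real.sqrt_le_left (by positivity)]
  have h1 := Real.sq_sqrt (norm_nonneg (1 - a))
  have h2 := Real.sq_sqrt (norm_nonneg (1 - b))
  nlinarith [le_abs_self (p0 * q0 + p1 * q1 + ‖a‖ * ‖b‖ * r)]

theorem continuous_ip_left (e : Fin 2 → ℂ) : Continuous fun x => ip x e := by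
  unfold ip; fun_prop

theorem continuous_nsq : Continuous nsq := by
  unfold nsq; fun_prop

theorem isCompact_sph : IsCompact sph := by
  refine Metric.isCompact_of_isClosed_isBounded (isClosed_eq continuous_nsq continuous_const) ?_
  refine (Metric.isBounded_closedBall (x := (0 : Fin 2 → ℂ)) (r := 1)).subset fun z hz => ?_
  have hz' : nsq z = 1 := hz
  rw [nsq_eq_norm_sq] at hz'
  rw [mem_closedBall_zero_iff, pi_norm_le_iff_of_nonneg zero_le_one]
  intro i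
  fin_cases i <;> simp <;> nlinarith [norm_nonneg (z 0), norm_nonneg (z 1)]

theorem near_of_near {z w v : Fin 2 → ℂ} (hz : z ∈ sph) (hw : w ∈ sph) (hv : v ∈ sph) {a b c : ℝ}
    (ha : ‖1 - ip z w‖ ≤ a) (hb : ‖1 - ip w v‖ ≤ b)
    (hc : a + b + 2 * Real.sqrt a * Real.sqrt b ≤ c) : ‖1 - ip z v‖ ≤ c := by
  have h := triangle z w v (le_of_eq hz) (le_of_eq hw) (le_of_eq hv)
  have h' := h.trans (add_le_add (Real.sqrt_le_sqrt ha) (Real.sqrt_le_sqrt hb))
  rw [Real.sqrt_le_left (by positivity)] at h'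
  have := (norm_nonneg _).trans ha
  have := (norm_nonneg _).trans hb
  nlinarith [Real.sq_sqrt ‹0 ≤ a›, Real.sq_sqrt ‹0 ≤ b›]

/-- Nets exist. -/
theorem exists_isNet (t : ℝ) (ht : 0 < t) : ∃ S, IsNet t S := by
  classical
  set δ := 1000 * t with hδ
  have hδ0 : 0 < δ := by positivity
  obtain ⟨b, hb⟩ : ∃ b : Finset sph,
      sph ⊆ ⋃ c ∈ b, {x | ‖1 - ip x (c : Fin 2 → ℂ)‖ < δ / 8} := by
    refine isCompact_sph.elim_finite_subcover
      (fun c : sph => {x | ‖1 - ip x (c : Fin 2 → ℂ)‖ < δ / 8})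
      (fun c => isOpen_lt ((continuous_const.sub (continuous_ip_left _)).norm) continuous_const) ?_
    intro x hx
    refine Set.mem_iUnion.2 ⟨⟨x, hx⟩, ?_⟩
    have : ip x x = 1 := by rw [ip_self, show nsq x = 1 from hx]; simp
    simp [this, hδ0]
  let Sep : Finset (Fin 2 → ℂ) → Prop := fun S =>
    (∀ e ∈ S, e ∈ sph) ∧ ∀ e ∈ S, ∀ e' ∈ S, e ≠ e' → δ ≤ ‖1 - ip e e'‖
  have bound : ∀ S, Sep S → S.card ≤ b.card := by
    intro S hS
    have hex : ∀ e ∈ S, ∃ c ∈ b, ‖1 - ip e (c : Fin 2 → ℂ)‖ < δ / 8 := by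
      intro e he
      simpa using hb (hS.1 e he)
    choose f hf hf' using hex
    rw [← Finset.card_attach]
    refine Finset.card_le_card_of_injOn (fun e => f e.1 e.2) (fun e _ => hf e.1 e.2) ?_
    intro e _ e' _ heq
    by_contra hne
    have h1 := hS.2 e.1 e.2 e'.1 e'.2 fun h => hne (Subtype.ext h)
    have h2 : ‖1 - ip (f e.1 e.2 : Fin 2 → ℂ) e'.1‖ < δ / 8 := by
      rw [norm_one_sub_ip_comm, show f e.1 e.2 = f e'.1 e'.2 from heq]
      exact hf' e'.1 e'.2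
    have h3 := near_of_near (hS.1 e.1 e.2) (f e.1 e.2).2 (hS.1 e'.1 e'.2) (hf' e.1 e.2).le h2.le
      (le_refl _)
    have hs : Real.sqrt (δ / 8) * Real.sqrt (δ / 8) = δ / 8 := Real.mul_self_sqrt (by positivity)
    linarith [mul_assoc 2 (Real.sqrt (δ / 8)) (Real.sqrt (δ / 8))]
  let K : ℕ → Prop := fun k => ∃ S, Sep S ∧ S.card = k
  have hK : K 0 := ⟨∅, ⟨by simp, by simp⟩, rfl⟩
  obtain ⟨S, hS, hcard⟩ := Nat.findGreatest_spec (P := K) (Nat.zero_le b.card) hK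
  refine ⟨S, hS.1, hS.2, fun x hx => ?_⟩
  by_contra hfar
  push Not at hfar
  have hxS : x ∉ S := fun h => by
    have := hfar x h
    rw [ip_self, show nsq x = 1 from hx] at this
    simp at this
    linarith
  have hS' : Sep (insert x S) := by
    refine ⟨fun e he => ?_, fun e he e' he' hne => ?_⟩
    · rcases Finset.mem_insert.1 he with rfl | he
      exacts [hx, hS.1 e he]
    · rcases Finset.mem_insert.1 he with h1 | h1 <;> rcases Finset.mem_insert.1 he' with h2 | h2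
      · exact absurd (h1.trans h2.symm) hne
      · rw [h1]; exact hfar e' h2
      · rw [h2, norm_one_sub_ip_comm]; exact hfar e h1
      · exact hS.2 e h1 e' h2 hne
  have := Nat.le_findGreatest (P := K) (n := b.card) (bound _ hS') ⟨_, hS', rfl⟩
  rw [Finset.card_insert_of_notMem hxS] at this
  omega

/-- The chosen net is a net. -/
theorem isNet_net : NetStmt := by
  intro t ht
  have h := exists_isNet t ht
  rw [Full.net, dif_pos h]
  exact h.choose_spec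

/-! ### Averages of functions of one slice coordinate -/

theorem ip_slice {e : Fin 2 → ℂ} (he : e ∈ sph) (s w : ℂ) : ip (s • e + w • perp e) e = s := by
  have h : e 0 * conj (e 0) + e 1 * conj (e 1) = 1 := by
    have := ip_self e
    rw [show nsq e = 1 from he] at this
    simpa [ip] using this
  simp [ip, perp]
  linear_combination s * h

end Vale.Agent.P250.Full
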