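import Vale.Agent.P250.Full.Levi
import Vale.Agent.P274.Full.Patch.Smooth

/-!
The Jacobian of a bounded model along the zero section, and the obstruction.
-/

namespace Vale.Agent.P250.Full

open Complex Set Metric Filter InnerProductSpace
open scoped ComplexConjugate ContDiff Topology

/-- A point of the zero section. -/
def sec (z : Fin 2 → ℂ) : Fin 3 → ℂ := ![z 0, z 1, 0]

lemma zc_sec (z : Fin 2 → ℂ) : zc (sec z) = z := by
  funext i; fin_cases i <;> simp [zc, sec]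

lemma continuous_nsq : Continuous nsq := by unfold nsq; fun_prop

lemma continuous_zc : Continuous zc := by unfold zc; fun_prop

lemma isOpen_ball2 : IsOpen ball2 := isOpen_lt continuous_nsq continuous_const

lemma sec_mem {W : (Fin 2 → ℂ) → ℝ} {z : Fin 2 → ℂ} (hz : z ∈ ball2) : sec z ∈ dom W := by
  refine ⟨by rw [zc_sec]; exact hz, ?_⟩
  simp [xc, sec]

lemma isOpen_dom_of_continuous {W : (Fin 2 → ℂ) → ℝ} (hW : ContinuousOn W ball2) :
    IsOpen (dom W) := by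
  have h : ContinuousOn (xc W) (zc ⁻¹' ball2) := by
    have := (hW.comp continuous_zc.continuousOn (mapsTo_preimage _ _)).rexp
    exact ((continuous_normSq.comp (continuous_apply 2)).continuousOn).mul this
  exact h.isOpen_inter_preimage (isOpen_ball2.preimage continuous_zc) (isOpen_Iio (a := (1 : ℝ)))

/-- The Jacobian matrix at a point. -/
noncomputable def jac (F : (Fin 3 → ℂ) → Fin 3 → ℂ) (p : Fin 3 → ℂ) : Matrix (Fin 3) (Fin 3) ℂ :=
  fun i j => fderiv ℂ F p (Pi.single j 1) i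

lemma jac_eq (F : (Fin 3 → ℂ) → Fin 3 → ℂ) (p : Fin 3 → ℂ) :
    jac F p = LinearMap.toMatrix' (fderiv ℂ F p : (Fin 3 → ℂ) →ₗ[ℂ] Fin 3 → ℂ) := by
  ext i j
  rw [LinearMap.toMatrix'_apply]
  simp [jac]

lemma det_jac_ne_zero {U V : Set (Fin 3 → ℂ)} {F G : (Fin 3 → ℂ) → Fin 3 → ℂ} (hU : IsOpen U)
    (hV : IsOpen V) (hF : DifferentiableOn ℂ F U) (hG : DifferentiableOn ℂ G V)
    (hm : MapsTo F U V) (hGF : ∀ p ∈ U, G (F p) = p) {p : Fin 3 → ℂ} (hp : p ∈ U) :
    (jac F p).det ≠ 0 := by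
  have h1 := (hG.differentiableAt (hV.mem_nhds (hm hp))).hasFDerivAt.comp p
    (hF.differentiableAt (hU.mem_nhds hp)).hasFDerivAt
  have h2 : HasFDerivAt (G ∘ F) (ContinuousLinearMap.id ℂ (Fin 3 → ℂ)) p :=
    (hasFDerivAt_id p).congr_of_eventuallyEq
      (Filter.eventuallyEq_of_mem (hU.mem_nhds hp) fun q hq => hGF q hq)
  have h3 := congrArg (fun L : (Fin 3 → ℂ) →L[ℂ] Fin 3 → ℂ =>
    (LinearMap.toMatrix' (L : (Fin 3 → ℂ) →ₗ[ℂ] Fin 3 → ℂ)).det) (h1.unique h2)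
  simp only [ContinuousLinearMap.toLinearMap_comp, LinearMap.toMatrix'_comp, Matrix.det_mul,
    ContinuousLinearMap.coe_id, LinearMap.toMatrix'_id, Matrix.det_one] at h3
  rw [← jac_eq F p] at h3
  intro h
  rw [h, mul_zero] at h3
  exact zero_ne_one h3

lemma differentiableOn_det {F : (Fin 3 → ℂ) → Fin 3 → ℂ} {U : Set (Fin 3 → ℂ)} (hU : IsOpen U)
    (hF : DifferentiableOn ℂ F U) {S : Set (Fin 2 → ℂ)} (hS : MapsTo sec S U) :
    DifferentiableOn ℂ (fun z => (jac F (sec z)).det) S := by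
  have hsec : Differentiable ℂ sec := by
    rw [differentiable_pi]; intro i; fin_cases i <;> simp [sec] <;> fun_prop
  have he : ∀ i j, DifferentiableOn ℂ (fun z => jac F (sec z) i j) S := fun i j =>
    (differentiableOn_pi.1 ((P274.Full.PatchAux.differentiableOn_fderiv_apply hU hF
      (Pi.single j 1)).comp hsec.differentiableOn hS)) i
  simp only [Matrix.det_fin_three]
  fun_prop

/-- Cauchy's estimate for a partial derivative. -/
lemma norm_partial_le {F : (Fin 3 → ℂ) → Fin 3 → ℂ} {U : Set (Fin 3 → ℂ)} (hU : IsOpen U)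
    (hF : DifferentiableOn ℂ F U) {M R : ℝ} (hM : ∀ p ∈ U, ‖F p‖ ≤ M) (hR : 0 < R)
    {p v : Fin 3 → ℂ} (hv : ∀ ζ : ℂ, ‖ζ‖ ≤ R → p + ζ • v ∈ U) (i : Fin 3) :
    ‖fderiv ℂ F p v i‖ ≤ M / R := by
  have hd : ∀ ζ : ℂ, ‖ζ‖ ≤ R →
      HasDerivAt (fun ζ : ℂ => F (p + ζ • v) i) (fderiv ℂ F (p + ζ • v) v i) ζ := fun ζ hζ => by
    have h1 : HasDerivAt (fun ζ : ℂ => p + ζ • v) v ζ := by
      simpa using ((hasDerivAt_id ζ).smul_const v).const_add p
    exact hasDerivAt_pi.1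
      ((hF.differentiableAt (hU.mem_nhds (hv ζ hζ))).hasFDerivAt.comp_hasDerivAt ζ h1) i
  have hdiff : DiffContOnCl ℂ (fun ζ : ℂ => F (p + ζ • v) i) (ball 0 R) := by
    refine DifferentiableOn.diffContOnCl fun ζ hζ => ?_
    rw [closure_ball 0 hR.ne'] at hζ
    exact (hd ζ (mem_closedBall_zero_iff.1 hζ)).differentiableAt.differentiableWithinAt
  have h := Complex.norm_deriv_le_of_forall_mem_sphere_norm_le hR hdiff fun ζ hζ =>
    (norm_le_pi_norm (F (p + ζ • v)) i).trans (hM _ (hv ζ (mem_sphere_zero_iff_norm.1 hζ).le))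
  rw [(hd 0 (by simp [hR.le])).deriv] at h
  simpa using h

lemma nsq_move {z : Fin 2 → ℂ} (hz : z ∈ ball2) (a : Fin 2) {ζ : ℂ}
    (hζ : ‖ζ‖ ≤ (1 - nsq z) / 4) : nsq (z + ζ • (Pi.single a 1 : Fin 2 → ℂ)) < 1 := by
  have hd : 0 < 1 - nsq z := sub_pos.2 hz
  have hb : ∀ b, ‖z b‖ ≤ 1 := fun b => by
    have h1 : normSq (z b) ≤ nsq z := by
      fin_cases b <;> simp [nsq, normSq_nonneg]
    rw [← Complex.sq_norm] at h1
    nlinarith [norm_nonneg (z b)]
  have key : ∀ w : ℂ, normSq (w + ζ) ≤ normSq w + 2 * ‖w‖ * ‖ζ‖ + ‖ζ‖ ^ 2 := fun w => by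
    rw [← Complex.sq_norm, ← Complex.sq_norm]
    nlinarith [norm_add_le w ζ, norm_nonneg (w + ζ)]
  have hn : 0 ≤ nsq z := add_nonneg (normSq_nonneg _) (normSq_nonneg _)
  have hle : ∀ b, 2 * ‖z b‖ * ‖ζ‖ + ‖ζ‖ ^ 2 ≤ 3 * ‖ζ‖ := fun b => by
    nlinarith [hb b, norm_nonneg ζ]
  fin_cases a
  · have h1 := key (z 0)
    have h2 := hle 0
    simp [nsq] at *
    linarith
  · have h1 := key (z 1)
    have h2 := hle 1
    simp [nsq] at *
    linarith

lemma norm_det3_le {M : Matrix (Fin 3) (Fin 3) ℂ} {b : Fin 3 → ℝ} (h : ∀ i j, ‖M i j‖ ≤ b j) :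
    ‖M.det‖ ≤ 6 * (b 0 * b 1 * b 2) := by
  have hb : ∀ j, 0 ≤ b j := fun j => (norm_nonneg _).trans (h 0 j)
  have key : ∀ i j k, ‖M i 0 * M j 1 * M k 2‖ ≤ b 0 * b 1 * b 2 := fun i j k => by
    rw [norm_mul, norm_mul]
    exact mul_le_mul (mul_le_mul (h i 0) (h j 1) (norm_nonneg _) (hb 0)) (h k 2) (norm_nonneg _)
      (mul_nonneg (hb 0) (hb 1))
  have e : M.det = M 0 0 * M 1 1 * M 2 2 - M 0 0 * M 2 1 * M 1 2 - M 1 0 * M 0 1 * M 2 2
      + M 2 0 * M 0 1 * M 1 2 + M 1 0 * M 2 1 * M 0 2 - M 2 0 * M 1 1 * M 0 2 := by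
    rw [Matrix.det_fin_three]; ring
  rw [e]
  linarith [norm_sub_le (M 0 0 * M 1 1 * M 2 2 - M 0 0 * M 2 1 * M 1 2 - M 1 0 * M 0 1 * M 2 2
      + M 2 0 * M 0 1 * M 1 2 + M 1 0 * M 2 1 * M 0 2) (M 2 0 * M 1 1 * M 0 2),
    norm_add_le (M 0 0 * M 1 1 * M 2 2 - M 0 0 * M 2 1 * M 1 2 - M 1 0 * M 0 1 * M 2 2
      + M 2 0 * M 0 1 * M 1 2) (M 1 0 * M 2 1 * M 0 2),
    norm_add_le (M 0 0 * M 1 1 * M 2 2 - M 0 0 * M 2 1 * M 1 2 - M 1 0 * M 0 1 * M 2 2)
      (M 2 0 * M 0 1 * M 1 2),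
    norm_sub_le (M 0 0 * M 1 1 * M 2 2 - M 0 0 * M 2 1 * M 1 2) (M 1 0 * M 0 1 * M 2 2),
    norm_sub_le (M 0 0 * M 1 1 * M 2 2) (M 0 0 * M 2 1 * M 1 2),
    key 0 1 2, key 0 2 1, key 1 0 2, key 2 0 1, key 1 2 0, key 2 1 0]

/-- A bounded model gives a zero-free holomorphic function below the weight. -/
theorem jacobian : JacobianStmt := by
  intro W hW hbi
  obtain ⟨V, F, G, hV, -, hVb, hFm, -, hGF, -, hF, hG⟩ := hbi
  obtain ⟨M, hM0, hM⟩ := hVb.exists_pos_norm_le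
  have hU := isOpen_dom_of_continuous hW
  have hM' : ∀ p ∈ dom W, ‖F p‖ ≤ M := fun p hp => hM _ (hFm hp)
  refine ⟨fun z => (jac F (sec z)).det, 36 * 256 * M ^ 4 * (4 * M ^ 2), by positivity,
    differentiableOn_det hU hF fun z hz => sec_mem hz, fun z hz => ⟨?_, ?_⟩⟩
  · exact det_jac_ne_zero hU hV hF hG hFm hGF (sec_mem hz)
  set δ : ℝ := 1 - nsq z with hδ
  have hδ0 : 0 < δ := sub_pos.2 hz
  set E : ℝ := Real.exp (W z / 2) with hE
  have hE0 : 0 < E := Real.exp_pos _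
  have hbase : ∀ (a : Fin 2) (i : Fin 3),
      ‖jac F (sec z) i a.castSucc‖ ≤ M / (δ / 4) := by
    intro a i
    refine norm_partial_le hU hF hM' (by linarith) (fun ζ hζ => ?_) i
    have hzc : sec z + ζ • (Pi.single a.castSucc 1 : Fin 3 → ℂ)
        = sec (z + ζ • (Pi.single a 1 : Fin 2 → ℂ)) := by
      funext k; fin_cases k <;> fin_cases a <;> simp [sec, Fin.castSucc]
    rw [hzc]
    exact sec_mem (nsq_move hz a hζ)
  have hfib : ∀ i : Fin 3, ‖jac F (sec z) i 2‖ ≤ M / (1 / (2 * E)) := by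
    intro i
    refine norm_partial_le hU hF hM' (by positivity) (fun ζ hζ => ?_) i
    have hzc : zc (sec z + ζ • (Pi.single 2 1 : Fin 3 → ℂ)) = z := by
      funext k; fin_cases k <;> simp [zc, sec]
    refine ⟨by rw [hzc]; exact hz, ?_⟩
    have hw : (sec z + ζ • (Pi.single 2 1 : Fin 3 → ℂ)) 2 = ζ := by simp [sec]
    rw [xc, hzc, hw, ← Complex.sq_norm, show Real.exp (W z) = E ^ 2 by
      rw [hE, sq, ← Real.exp_add]; ring_nf]
    have h2 : ‖ζ‖ * E ≤ 1 / 2 := by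
      rw [le_div_iff₀ (by positivity)] at hζ
      linarith
    nlinarith [mul_nonneg (norm_nonneg ζ) hE0.le]
  set b : Fin 3 → ℝ := ![M / (δ / 4), M / (δ / 4), M / (1 / (2 * E))] with hb
  have hent : ∀ i j, ‖jac F (sec z) i j‖ ≤ b j := by
    intro i j
    fin_cases j
    · simpa [hb] using hbase 0 i
    · simpa [hb] using hbase 1 i
    · simpa [hb] using hfib i
  have hdet := norm_det3_le hent
  rw [← Complex.sq_norm]
  refine (pow_le_pow_left₀ (norm_nonneg _) hdet 2).trans (le_of_eq ?_)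
  have hEW : E ^ 2 = Real.exp (W z) := by rw [hE, sq, ← Real.exp_add]; ring_nf
  rw [← hEW]
  simp [hb]
  field_simp
  ring

/-- The logarithm of the modulus of a zero-free holomorphic function is pluriharmonic. -/
lemma levQ_log_normSq {G : (Fin 2 → ℂ) → ℂ} {V : Set (Fin 2 → ℂ)} (hV : IsOpen V)
    (hG : DifferentiableOn ℂ G V) (h0 : ∀ z ∈ V, G z ≠ 0) :
    ContDiffOn ℝ 2 (fun z => Real.log (normSq (G z))) V ∧
      ∀ z ∈ V, ∀ v, levQ (fun z => Real.log (normSq (G z))) z v = 0 := by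
  have hc : ContDiffOn ℝ 2 (fun z => Real.log (normSq (G z))) V := by
    have h1 : ContDiffOn ℝ 2 G V :=
      (P274.Full.PatchAux.contDiffOn_of_holo hV hG 2).restrict_scalars ℝ
    have h2 : ContDiff ℝ 2 (normSq : ℂ → ℝ) := by
      have : (normSq : ℂ → ℝ) = fun w => w.re * w.re + w.im * w.im := funext normSq_apply
      rw [this]
      exact (reCLM.contDiff.mul reCLM.contDiff).add (imCLM.contDiff.mul imCLM.contDiff)
    exact (h2.comp_contDiffOn h1).log fun z hz => normSq_eq_zero.ne.2 (h0 z hz)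
  refine ⟨hc, fun z hz v => ?_⟩
  set φ : ℂ → Fin 2 → ℂ := fun t => z + t • v with hφ
  have hφd : Differentiable ℂ φ := by fun_prop
  have hUo : IsOpen (φ ⁻¹' V) := hV.preimage hφd.continuous
  have h0U : (0 : ℂ) ∈ φ ⁻¹' V := by simpa [hφ] using hz
  have hkey := hq_comp_levQ hV hc hUo hφd.differentiableOn (fun t ht => ht) h0U
  have hderiv : deriv φ 0 = v := by
    simpa [hφ] using (((hasDerivAt_id (0 : ℂ)).smul_const v).const_add z).deriv
  rw [hderiv] at hkey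
  simp only [hφ, zero_smul, add_zero] at hkey
  have han : AnalyticAt ℂ (fun t => G (φ t)) 0 :=
    (hG.comp hφd.differentiableOn fun t ht => ht).analyticAt (hUo.mem_nhds h0U)
  have hh := (han.harmonicAt_log_norm (h0 _ h0U)).const_smul (c := (2 : ℝ))
  have heq : (fun t => Real.log (normSq (G (φ t)))) = (2 : ℝ) • fun t => Real.log ‖G (φ t)‖ := by
    funext t
    simp only [Pi.smul_apply, smul_eq_mul]
    rw [← Complex.sq_norm, Real.log_pow]
    norm_num
  have hlap : hq (fun t => Real.log (normSq (G (φ t)))) 0 1 = 0 := by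
    rw [heq]
    have := hh.2.eq_of_nhds
    rw [laplacian_eq_iteratedFDeriv_complexPlane] at this
    simpa [hq, hess, iteratedFDeriv_two_apply] using this
  simp only [hφ] at hlap
  linarith

lemma exists_layerShell (D : ℝ) (hD : 0 ≤ D) (n : ℕ) : ∃ z, z ∈ layerShell D n := by
  have h1 : depth D n ≤ 1 := Real.exp_le_one_iff.2 (by
    rw [neg_nonpos]; exact mul_nonneg (by positivity) hD)
  have h0 : 0 < depth D n := Real.exp_pos _
  refine ⟨![(Real.sqrt (1 - 3 / 4 * depth D n) : ℂ), 0], ?_⟩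
  simp only [layerShell, mem_ofPred_eq, nsq, Matrix.cons_val_zero, Matrix.cons_val_one,
    normSq_ofReal, map_zero, add_zero, Real.mul_self_sqrt (by linarith : 0 ≤ 1 - 3 / 4 * depth D n)]
  constructor <;> linarith

lemma layerShell_mem {D : ℝ} {n : ℕ} {z : Fin 2 → ℂ} (h : z ∈ layerShell D n) :
    z ∈ ball2 ∧ lb z ≤ ((n : ℝ) + 1 / 2) * D + Real.log 2 := by
  have h0 : 0 < depth D n := Real.exp_pos _
  refine ⟨show nsq z < 1 by linarith [h.1], ?_⟩
  have := Real.log_lt_log (by linarith) h.1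
  rw [Real.log_div h0.ne' two_ne_zero, depth, Real.log_exp] at this
  rw [lb]
  linarith

/-- No bounded model for some coupling constant. -/
theorem obstruction_of (hS : StepStmt) (hP : PhiStmt) : ObstructionStmt := by
  obtain ⟨ρ, D, q, hρ, hρ', hD, hq, hstep⟩ := hS
  set N : ℝ := (5 * D + 1) / q with hNdef
  have hN : 0 < N := div_pos (by linarith) hq
  have hNq : N * q = 5 * D + 1 := div_mul_cancel₀ _ hq.ne'
  refine ⟨ρ, D, N, hρ, hρ', hD, hN.le, fun hbi => ?_⟩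
  have hphi := (hP ρ D hρ hρ' hD).1
  have hlb : ContinuousOn lb ball2 := by
    show ContinuousOn (fun z => -Real.log (1 - nsq z)) ball2
    exact ((continuous_const.sub continuous_nsq).continuousOn.log
      fun z (hz : nsq z < 1) => ne_of_gt (sub_pos.2 hz)).neg
  obtain ⟨G, C, hC, hGd, hG⟩ := jacobian (Phi ρ D N)
    (hlb.add (continuousOn_const.mul hphi.continuousOn)) hbi
  set h : (Fin 2 → ℂ) → ℝ := fun z => Real.log (normSq (G z)) with hh
  obtain ⟨hhc, hhp⟩ := levQ_log_normSq isOpen_ball2 hGd fun z hz => (hG z hz).1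
  have hψ : ∀ z ∈ ball2, h z ≤ Real.log C + N * phi ρ D z + 5 * lb z := by
    intro z hz
    have hd : 0 < 1 - nsq z := sub_pos.2 hz
    have := Real.log_le_log (normSq_pos.2 (hG z hz).1) (hG z hz).2
    rw [Real.log_div (by positivity) (by positivity), Real.log_mul hC.ne' (Real.exp_ne_zero _),
      Real.log_exp, Real.log_pow] at this
    simp only [hh, lb, Phi] at *
    push_cast at this
    linarith
  obtain ⟨x, hx⟩ := exists_layerShell D (by linarith) 1
  have hchain : ∀ k : ℕ, ∃ y ∈ layerShell D (k + 1),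
      N * phi ρ D y - h y ≤ N * phi ρ D x - h x - k * (N * q) := by
    intro k
    induction k with
    | zero => exact ⟨x, hx, by simp⟩
    | succ k ih =>
      obtain ⟨y, hy, hle⟩ := ih
      obtain ⟨y', hy', hle'⟩ := hstep (k + 1) (Nat.le_add_left 1 k) y hy h hhc hhp N hN
      exact ⟨y', hy', by push_cast; linarith⟩
  set B : ℝ := Real.log C + (N * phi ρ D x - h x) + 5 * (3 / 2 * D + Real.log 2) with hB
  obtain ⟨k, hk⟩ := exists_nat_gt B
  obtain ⟨y, hy, hle⟩ := hchain k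
  obtain ⟨hyb, hyl⟩ := layerShell_mem hy
  have := hψ y hyb
  rw [hNq] at hle
  push_cast at hyl
  linarith

end Vale.Agent.P250.Full
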