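import Vale.Agent.P250.Full.Spec

/-!
The Levi form as a second derivative, and its behaviour along holomorphic curves.
-/

namespace Vale.Agent.P250.Full

open Complex Set
open scoped ComplexConjugate ContDiff Topology

section Hessian

variable {E : Type*} [NormedAddCommGroup E] [NormedSpace ℂ E]

/-- The real Hessian. -/
noncomputable def hess (f : E → ℝ) (z a b : E) : ℝ := fderiv ℝ (fderiv ℝ f) z a b

/-- The Hessian summed over the real basis `v`, `I • v` of the complex line of `v`. -/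
noncomputable def hq (f : E → ℝ) (z v : E) : ℝ := hess f z v v + hess f z (I • v) (I • v)

variable {f : E → ℝ} {V : Set E} {z : E}

lemma differentiableAt_fderiv (hV : IsOpen V) (hf : ContDiffOn ℝ 2 f V) (hz : z ∈ V) :
    DifferentiableAt ℝ (fderiv ℝ f) z :=
  ((hf.contDiffAt (hV.mem_nhds hz)).fderiv_right (m := 1) (by norm_num)).differentiableAt (by simp)

lemma hess_comm (hV : IsOpen V) (hf : ContDiffOn ℝ 2 f V) (hz : z ∈ V) (a b : E) :
    hess f z a b = hess f z b a :=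
  (hf.contDiffAt (hV.mem_nhds hz)).isSymmSndFDerivAt (by simp) a b

lemma hq_smul (hV : IsOpen V) (hf : ContDiffOn ℝ 2 f V) (hz : z ∈ V) (c : ℂ) (v : E) :
    hq f z (c • v) = normSq c * hq f z v := by
  have h1 : c • v = c.re • v + c.im • (I • v) := by
    rw [← Complex.coe_smul c.re v, ← Complex.coe_smul c.im (I • v), smul_smul, ← add_smul,
      re_add_im]
  have h2 : I • c • v = (-c.im) • v + c.re • (I • v) := by
    rw [← Complex.coe_smul (-c.im) v, ← Complex.coe_smul c.re (I • v), smul_smul, smul_smul,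
      ← add_smul]
    congr 1
    apply Complex.ext <;> simp
  simp only [hq, hess]
  rw [h2, h1]
  simp only [map_add, map_smul, add_apply,
    smul_apply, smul_eq_mul, normSq_apply]
  have := hess_comm hV hf hz v (I • v)
  simp only [hess] at this
  rw [this]
  ring

variable {φ : ℂ → E} {U : Set ℂ}

/-- The line Hessian of a composite with a holomorphic curve. -/
lemma hq_comp (hV : IsOpen V) (hf : ContDiffOn ℝ 2 f V) [CompleteSpace E] (hU : IsOpen U)
    (hφ : DifferentiableOn ℂ φ U) (hmap : MapsTo φ U V) {ζ : ℂ} (hζ : ζ ∈ U) :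
    hq (fun w => f (φ w)) ζ 1 = hq f (φ ζ) (deriv φ ζ) := by
  have hφ' : DifferentiableOn ℂ (deriv φ) U := hφ.deriv hU
  have hd : ∀ w ∈ U, HasFDerivAt φ
      (((1 : ℂ →L[ℂ] ℂ).smulRight (deriv φ w)).restrictScalars ℝ) w := fun w hw =>
    ((hφ.differentiableAt (hU.mem_nhds hw)).hasDerivAt.hasFDerivAt).restrictScalars ℝ
  set ψ := fun w => f (φ w) with hψ
  have hdir : ∀ u : ℂ, (fun w => fderiv ℝ ψ w u) =ᶠ[𝓝 ζ]
      fun w => fderiv ℝ f (φ w) (u • deriv φ w) := fun u =>
    Filter.eventuallyEq_of_mem (hU.mem_nhds hζ) fun w hw => by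
      have hfd := ((hf.contDiffAt (hV.mem_nhds (hmap hw))).differentiableAt (by simp)).hasFDerivAt
      show fderiv ℝ ψ w u = _
      have hc : fderiv ℝ ψ w = (fderiv ℝ f (φ w)).comp
          (((1 : ℂ →L[ℂ] ℂ).smulRight (deriv φ w)).restrictScalars ℝ) :=
        (hfd.comp w (hd w hw)).fderiv
      rw [hc]
      rfl
  have hsnd : ∀ u : ℂ, fderiv ℝ (fun w => fderiv ℝ ψ w u) ζ u
      = hess f (φ ζ) (u • deriv φ ζ) (u • deriv φ ζ)
        + fderiv ℝ f (φ ζ) ((u * u) • deriv (deriv φ) ζ) := by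
    intro u
    rw [(hdir u).fderiv_eq]
    have h1 := (differentiableAt_fderiv hV hf (hmap hζ)).hasFDerivAt.comp ζ (hd ζ hζ)
    have h2 := ((hφ'.differentiableAt (hU.mem_nhds hζ)).hasDerivAt.const_smul u).hasFDerivAt
      |>.restrictScalars ℝ
    rw [show fderiv ℝ (fun w => fderiv ℝ f (φ w) (u • deriv φ w)) ζ = _ from (h1.clm_apply h2).fderiv]
    simp only [add_apply, ContinuousLinearMap.coe_comp, Function.comp_apply,
      ContinuousLinearMap.flip_apply, ContinuousLinearMap.coe_restrictScalars',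
      ContinuousLinearMap.smulRight_apply, ContinuousLinearMap.toSpanSingleton_apply,
      Pi.smul_apply, hess, smul_smul]
    rw [add_comm]
    rfl
  have hψd : DifferentiableAt ℝ (fderiv ℝ ψ) ζ := by
    have : ContDiffOn ℝ 2 ψ U := hf.comp
      ((hφ.contDiffOn hU).restrict_scalars ℝ) hmap
    exact differentiableAt_fderiv hU this hζ
  have hh : ∀ u : ℂ, hess ψ ζ u u = fderiv ℝ (fun w => fderiv ℝ ψ w u) ζ u := fun u => by
    rw [fderiv_clm_apply hψd (differentiableAt_const u)]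
    simp [hess]
  simp only [hq, hh, hsnd, smul_eq_mul, mul_one, one_smul, I_mul_I, neg_smul, map_neg]
  ring

end Hessian

lemma wd_wdb {n : ℕ} {f : (Fin n → ℂ) → ℝ} {V : Set (Fin n → ℂ)} {z : Fin n → ℂ} (hV : IsOpen V)
    (hf : ContDiffOn ℝ 2 f V) (hz : z ∈ V) (a b : Fin n) :
    wd a (fun q => wdb b (fun q' => (f q' : ℂ)) q) z
      = ((hess f z (Pi.single a 1) (Pi.single b 1) + hess f z (Pi.single a I) (Pi.single b I) : ℝ)
          + I * (hess f z (Pi.single a 1) (Pi.single b I)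
            - hess f z (Pi.single a I) (Pi.single b 1) : ℝ)) / 4 := by
  have hev : (fun q => wdb b (fun q' => (f q' : ℂ)) q) =ᶠ[𝓝 z] fun q =>
      ((fderiv ℝ f q (Pi.single b 1) : ℂ) + I * (fderiv ℝ f q (Pi.single b I) : ℂ)) / 2 := by
    refine Filter.eventuallyEq_of_mem (hV.mem_nhds hz) fun q hq => ?_
    have h1 := ((hf.contDiffAt (hV.mem_nhds hq)).differentiableAt (by simp)).hasFDerivAt
    have h2 : HasFDerivAt (fun q' => (f q' : ℂ)) (ofRealCLM.comp (fderiv ℝ f q)) q :=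
      ofRealCLM.hasFDerivAt.comp q h1
    simp only [wdb]
    rw [h2.fderiv]
    simp
  have hd : ∀ v : Fin n → ℂ, HasFDerivAt (fun q => (fderiv ℝ f q v : ℂ))
      (ofRealCLM.comp ((fderiv ℝ (fderiv ℝ f) z).flip v)) z := fun v => by
    have h := (differentiableAt_fderiv hV hf hz).hasFDerivAt.clm_apply (hasFDerivAt_const v z)
    refine ofRealCLM.hasFDerivAt.comp z (h.congr_fderiv ?_)
    simp
  have hW : HasFDerivAt (fun q => ((fderiv ℝ f q (Pi.single b 1) : ℂ)
      + I * (fderiv ℝ f q (Pi.single b I) : ℂ)) / 2)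
      ((2 : ℂ)⁻¹ • (ofRealCLM.comp ((fderiv ℝ (fderiv ℝ f) z).flip (Pi.single b 1))
        + I • ofRealCLM.comp ((fderiv ℝ (fderiv ℝ f) z).flip (Pi.single b I)))) z := by
    simpa [div_eq_inv_mul] using ((hd _).add ((hd (Pi.single b I)).const_mul I)).const_mul (2 : ℂ)⁻¹
  simp only [wd]
  rw [hev.fderiv_eq, hW.fderiv]
  simp only [hess, smul_apply, add_apply,
    ContinuousLinearMap.coe_comp, Function.comp_apply, ContinuousLinearMap.flip_apply,
    ofRealCLM_apply, smul_eq_mul]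
  apply Complex.ext <;> simp <;> ring

/-- The Levi form is a quarter of the line Hessian. -/
lemma levQ_eq {f : (Fin 2 → ℂ) → ℝ} {V : Set (Fin 2 → ℂ)} {z : Fin 2 → ℂ} (hV : IsOpen V)
    (hf : ContDiffOn ℝ 2 f V) (hz : z ∈ V) (v : Fin 2 → ℂ) :
    levQ f z v = hq f z v / 4 := by
  have hdec : ∀ u : Fin 2 → ℂ, u = (u 0).re • (Pi.single 0 1 : Fin 2 → ℂ)
      + (u 0).im • (Pi.single 0 I : Fin 2 → ℂ) + (u 1).re • (Pi.single 1 1 : Fin 2 → ℂ)
      + (u 1).im • (Pi.single 1 I : Fin 2 → ℂ) := fun u => by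
    funext i; fin_cases i <;> (apply Complex.ext <;> simp)
  have e1 : hess f z v v = fderiv ℝ (fderiv ℝ f) z v v := rfl
  rw [hq, e1, show hess f z (I • v) (I • v) = fderiv ℝ (fderiv ℝ f) z (I • v) (I • v) from rfl]
  conv_rhs => rw [hdec v, hdec (I • _)]
  simp only [levQ, lev, Fin.sum_univ_two, wd_wdb hV hf hz, hess, map_add, map_smul,
    add_apply, smul_apply, smul_eq_mul]
  simp
  ring

/-- Along a holomorphic curve the line Hessian is four times the Levi form of the velocity. -/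
lemma hq_comp_levQ {f : (Fin 2 → ℂ) → ℝ} {V : Set (Fin 2 → ℂ)} (hV : IsOpen V)
    (hf : ContDiffOn ℝ 2 f V) {φ : ℂ → Fin 2 → ℂ} {U : Set ℂ} (hU : IsOpen U)
    (hφ : DifferentiableOn ℂ φ U) (hmap : MapsTo φ U V) {ζ : ℂ} (hζ : ζ ∈ U) :
    hq (fun w => f (φ w)) ζ 1 = 4 * levQ f (φ ζ) (deriv φ ζ) := by
  rw [hq_comp hV hf hU hφ hmap hζ, levQ_eq hV hf (hmap hζ)]
  ring

end Vale.Agent.P250.Full
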