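import Vale.Agent.P250.Full.Calc
import Vale.Agent.P250.Full.Levi
import Vale.Agent.P250.Full.Complete

/-!
# The Hartogs metric is Kähler and is the complex Hessian of its potential
-/

namespace Vale.Agent.P250.Full

open Complex Filter Matrix Set Calc
open scoped ComplexConjugate Topology ContDiff ComplexOrder

/-- The projection to the base as a linear map. -/
noncomputable def zcL : (Fin 3 → ℂ) →L[ℝ] (Fin 2 → ℂ) :=
  ContinuousLinearMap.pi fun a => ContinuousLinearMap.proj (R := ℝ) (φ := fun _ : Fin 3 => ℂ) a.castSucc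

lemma zcL_apply (p : Fin 3 → ℂ) : zcL p = zc p := by
  funext a; fin_cases a <;> rfl

lemma zc_single (a : Fin 2) (c : ℂ) :
    zc (Pi.single (a.castSucc : Fin 3) c : Fin 3 → ℂ) = (Pi.single a c : Fin 2 → ℂ) := by
  funext b; fin_cases a <;> fin_cases b <;> rfl

lemma zc_single_two (c : ℂ) : zc (Pi.single 2 c : Fin 3 → ℂ) = 0 := by
  funext b; fin_cases b <;> rfl

lemma fderiv_comp_zc {f : (Fin 2 → ℂ) → ℂ} {p : Fin 3 → ℂ} (hf : DifferentiableAt ℝ f (zc p))
    (v : Fin 3 → ℂ) :
    fderiv ℝ (fun q => f (zc q)) p v = fderiv ℝ f (zc p) (zc v) := by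
  have h1 : HasFDerivAt f (fderiv ℝ f (zc p)) (zcL p) := by rw [zcL_apply]; exact hf.hasFDerivAt
  have h : HasFDerivAt (fun q => f (zc q)) ((fderiv ℝ f (zc p)).comp zcL) p := by
    simpa only [Function.comp_def, zcL_apply] using h1.comp p zcL.hasFDerivAt
  rw [h.fderiv, ContinuousLinearMap.comp_apply, zcL_apply]

section pull

variable {f : (Fin 2 → ℂ) → ℂ} {p : Fin 3 → ℂ}

lemma wd_zc (hf : DifferentiableAt ℝ f (zc p)) (a : Fin 2) :
    wd a.castSucc (fun q => f (zc q)) p = wd a f (zc p) := by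
  simp only [wd, fderiv_comp_zc hf]
  erw [zc_single, zc_single]

lemma wdb_zc (hf : DifferentiableAt ℝ f (zc p)) (a : Fin 2) :
    wdb a.castSucc (fun q => f (zc q)) p = wdb a f (zc p) := by
  simp only [wdb, fderiv_comp_zc hf]
  erw [zc_single, zc_single]

lemma wd_zc_two (hf : DifferentiableAt ℝ f (zc p)) :
    wd 2 (fun q => f (zc q)) p = 0 := by
  simp [wd, fderiv_comp_zc hf, zc_single_two]

lemma wdb_zc_two (hf : DifferentiableAt ℝ f (zc p)) :
    wdb 2 (fun q => f (zc q)) p = 0 := by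
  simp [wdb, fderiv_comp_zc hf, zc_single_two]

lemma differentiableAt_zc : DifferentiableAt ℝ zc p := by
  simpa [funext zcL_apply] using zcL.differentiableAt (x := p)

lemma continuous_zc : Continuous zc := by
  simpa [funext zcL_apply] using zcL.continuous

lemma contDiff_zc {k : WithTop ℕ∞} : ContDiff ℝ k zc := by
  simpa [funext zcL_apply] using zcL.contDiff (n := k)

end pull

lemma isOpen_ball2 : IsOpen ball2 := by
  have h : Continuous nsq := by unfold nsq; fun_prop
  exact isOpen_lt h continuous_const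

lemma contDiff_nsq {k : WithTop ℕ∞} : ContDiff ℝ k nsq := by
  have h : ∀ a : Fin 2, ContDiff ℝ k fun z : Fin 2 → ℂ => z a := fun a => contDiff_apply ℝ ℂ a
  unfold nsq
  simp only [normSq_apply]
  exact (((Complex.reCLM.contDiff.comp (h 0)).mul (Complex.reCLM.contDiff.comp (h 0))).add
    ((Complex.imCLM.contDiff.comp (h 0)).mul (Complex.imCLM.contDiff.comp (h 0)))).add
    (((Complex.reCLM.contDiff.comp (h 1)).mul (Complex.reCLM.contDiff.comp (h 1))).add
    ((Complex.imCLM.contDiff.comp (h 1)).mul (Complex.imCLM.contDiff.comp (h 1))))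

lemma contDiffOn_lb {k : WithTop ℕ∞} : ContDiffOn ℝ k lb ball2 := by
  refine ((contDiff_const.sub contDiff_nsq).contDiffOn.log fun z hz => ?_).neg
  have hz' : nsq z < 1 := hz
  simp only [ne_eq]; intro h; linarith

lemma xc_nonneg (W : (Fin 2 → ℂ) → ℝ) (p : Fin 3 → ℂ) : 0 ≤ xc W p :=
  mul_nonneg (normSq_nonneg _) (Real.exp_pos _).le

variable {W : (Fin 2 → ℂ) → ℝ}

lemma contDiffOn_xc (hW : ContDiffOn ℝ ∞ W ball2) :
    ContDiffOn ℝ ∞ (xc W) {p | zc p ∈ ball2} := by
  have h2 : ContDiff ℝ ∞ fun p : Fin 3 → ℂ => p 2 := contDiff_apply ℝ ℂ 2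
  refine ContDiffOn.mul ?_ ((hW.comp contDiff_zc.contDiffOn fun p hp => hp).exp)
  simp only [normSq_apply]
  exact (((Complex.reCLM.contDiff.comp h2).mul (Complex.reCLM.contDiff.comp h2)).add
    ((Complex.imCLM.contDiff.comp h2).mul (Complex.imCLM.contDiff.comp h2))).contDiffOn

lemma isOpen_dom (hW : ContDiffOn ℝ ∞ W ball2) : IsOpen (dom W) :=
  (contDiffOn_xc hW).continuousOn.isOpen_inter_preimage (isOpen_ball2.preimage continuous_zc)
    isOpen_Iio

lemma wdb_ofReal {n : ℕ} {u : (Fin n → ℂ) → ℝ} {z : Fin n → ℂ} (hu : DifferentiableAt ℝ u z)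
    (i : Fin n) : wdb i (fun q => (u q : ℂ)) z = conj (wd i (fun q => (u q : ℂ)) z) := by
  have h := wdb_conj (differentiableAt_ofReal hu) i
  simp only [conj_ofReal] at h
  exact h

section derivatives

variable {p : Fin 3 → ℂ}

lemma diffAt_W (hW : ContDiffOn ℝ ∞ W ball2) (hp : zc p ∈ ball2) :
    DifferentiableAt ℝ W (zc p) :=
  (hW.contDiffAt (isOpen_ball2.mem_nhds hp)).differentiableAt (by simp)

lemma diffAt_xc (hW : ContDiffOn ℝ ∞ W ball2) (hp : zc p ∈ ball2) :
    DifferentiableAt ℝ (xc W) p :=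
  ((contDiffOn_xc hW).contDiffAt ((isOpen_ball2.preimage continuous_zc).mem_nhds hp)).differentiableAt
    (by simp)

lemma diffAt_coord (i : Fin 3) : DifferentiableAt ℂ (fun q : Fin 3 → ℂ => q i) p :=
  (ContinuousLinearMap.proj (R := ℂ) (φ := fun _ : Fin 3 => ℂ) i).differentiableAt

lemma wd_coord (i j : Fin 3) : wd i (fun q : Fin 3 → ℂ => q j) p = if i = j then 1 else 0 := by
  rw [wd_hol (diffAt_coord j), show (fun q : Fin 3 → ℂ => q j) = ⇑(ContinuousLinearMap.proj (R := ℂ)
    (φ := fun _ : Fin 3 => ℂ) j) from rfl, ContinuousLinearMap.fderiv]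
  simp [Pi.single_apply, eq_comm]

/-- Both first derivatives of `x = |w|² e^W`. -/
lemma d_xc (hW : ContDiffOn ℝ ∞ W ball2) (hp : zc p ∈ ball2) :
    (∀ a : Fin 2, wd a.castSucc (fun q => (xc W q : ℂ)) p = (xc W p : ℂ) * d1 W a (zc p)) ∧
      wd 2 (fun q => (xc W q : ℂ)) p = (Real.exp (W (zc p)) : ℂ) * conj (p 2) := by
  have hWd := diffAt_W hW hp
  have hu : DifferentiableAt ℝ (fun q : Fin 3 → ℂ => W (zc q)) p := hWd.comp p differentiableAt_zc
  have he : DifferentiableAt ℝ (fun q : Fin 3 → ℂ => (Real.exp (W (zc q)) : ℂ)) p :=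
    differentiableAt_ofReal hu.exp
  have hc := (diffAt_coord (p := p) 2).restrictScalars ℝ
  have hee : ∀ i, wd i (fun q => (Real.exp (W (zc q)) : ℂ)) p
      = (Real.exp (W (zc p)) : ℂ) * wd i (fun q => (W (zc q) : ℂ)) p := fun i =>
    wd_comp (u := fun q => W (zc q)) (P := Real.exp) hu (Real.hasDerivAt_exp _) i
  have key : ∀ i, wd i (fun q => (xc W q : ℂ)) p
      = (wd i (fun q : Fin 3 → ℂ => q 2) p * conj (p 2)) * (Real.exp (W (zc p)) : ℂ)
        + (p 2 * conj (p 2)) * ((Real.exp (W (zc p)) : ℂ) * wd i (fun q => (W (zc q) : ℂ)) p) := by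
    intro i
    simp only [xc, ofReal_mul, ← mul_conj]
    rw [wd_mul (hc.fun_mul (differentiableAt_conj hc)) he, wd_mul hc (differentiableAt_conj hc),
      wd_conj hc, wdb_hol (diffAt_coord 2), hee, map_zero]
    ring
  refine ⟨fun a => ?_, ?_⟩
  · rw [key, wd_zc (f := fun z => (W z : ℂ)) (differentiableAt_ofReal hWd), wd_coord,
      if_neg (by fin_cases a <;> decide)]
    simp only [xc, d1, ofReal_mul, ← mul_conj]
    ring
  · rw [key, wd_zc_two (f := fun z => (W z : ℂ)) (differentiableAt_ofReal hWd), wd_coord, if_pos rfl]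
    ring

/-- The first antiholomorphic derivative of the potential. -/
lemma wdb_pot (hW : ContDiffOn ℝ ∞ W ball2) (A : ℝ) (hp : p ∈ dom W) :
    (∀ b : Fin 2, wdb b.castSucc
        (fun q' => ((A * lb (zc q') - Real.log (1 - xc W q') : ℝ) : ℂ)) p
      = (A : ℂ) * wdb b (fun z => (lb z : ℂ)) (zc p)
        + ((xc W p / (1 - xc W p) : ℝ) : ℂ) * wdb b (fun z => (W z : ℂ)) (zc p)) ∧
    wdb 2 (fun q' => ((A * lb (zc q') - Real.log (1 - xc W q') : ℝ) : ℂ)) p
      = (((1 - xc W p)⁻¹ * Real.exp (W (zc p)) : ℝ) : ℂ) * p 2 := by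
  obtain ⟨hp1, hp2⟩ := hp
  have hzb : zc p ∈ ball2 := hp1
  have hx := diffAt_xc hW hzb
  have hl : DifferentiableAt ℝ lb (zc p) :=
    ((contDiffOn_lb (k := ∞)).contDiffAt (isOpen_ball2.mem_nhds hzb)).differentiableAt (by simp)
  have hl' : DifferentiableAt ℝ (fun q : Fin 3 → ℂ => (lb (zc q) : ℂ)) p :=
    differentiableAt_ofReal (u := fun q => lb (zc q)) (hl.comp p differentiableAt_zc)
  have hP : HasDerivAt (fun x : ℝ => -Real.log (1 - x)) (1 - xc W p)⁻¹ (xc W p) := by
    have := (((hasDerivAt_id (xc W p)).const_sub 1).log (sub_ne_zero.2 hp2.ne')).neg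
    simpa [div_eq_mul_inv, Pi.neg_def] using this
  have hg : DifferentiableAt ℝ (fun q : Fin 3 → ℂ => ((-Real.log (1 - xc W q) : ℝ) : ℂ)) p :=
    differentiableAt_ofReal (u := fun q => -Real.log (1 - xc W q)) (hP.differentiableAt.comp p hx)
  have hxb : ∀ i, wdb i (fun q => (xc W q : ℂ)) p = conj (wd i (fun q => (xc W q : ℂ)) p) :=
    wdb_ofReal hx
  have hsplit : (fun q' : Fin 3 → ℂ => ((A * lb (zc q') - Real.log (1 - xc W q') : ℝ) : ℂ))
      = fun q' => (A : ℂ) * (lb (zc q') : ℂ) + ((-Real.log (1 - xc W q') : ℝ) : ℂ) := by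
    funext q'; push_cast; ring
  have hmain : ∀ i, wdb i (fun q' => ((A * lb (zc q') - Real.log (1 - xc W q') : ℝ) : ℂ)) p
      = (A : ℂ) * wdb i (fun q' => (lb (zc q') : ℂ)) p
        + ((1 - xc W p)⁻¹ : ℝ) * conj (wd i (fun q => (xc W q : ℂ)) p) := fun i => by
    rw [hsplit, wdb_add ((differentiableAt_const _).fun_mul hl') hg,
      wdb_mul (differentiableAt_const _) hl', wdb_const, wdb_comp hx hP, hxb]
    ring
  refine ⟨fun b => ?_, ?_⟩
  · rw [hmain, wdb_zc (f := fun z => (lb z : ℂ)) (differentiableAt_ofReal hl), (d_xc hW hzb).1 b,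
      map_mul, conj_ofReal, wdb_ofReal (diffAt_W hW hzb)]
    simp only [d1, div_eq_mul_inv]
    push_cast
    ring
  · rw [hmain, wdb_zc_two (f := fun z => (lb z : ℂ)) (differentiableAt_ofReal hl), (d_xc hW hzb).2,
      map_mul, conj_ofReal, conj_conj]
    push_cast
    ring

end derivatives

/-- The entries of the metric. -/
lemma met_castSucc (A : ℝ) (W : (Fin 2 → ℂ) → ℝ) (p : Fin 3 → ℂ) (a b : Fin 2) :
    met A W p a.castSucc b.castSucc = (A : ℂ) * omb a b (zc p)
      + ((xc W p / (1 - xc W p) : ℝ) : ℂ) * lev W a b (zc p)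
      + ((Real.exp (W (zc p)) / (1 - xc W p) ^ 2 : ℝ) : ℂ) * (normSq (p 2) : ℂ)
        * d1 W a (zc p) * conj (d1 W b (zc p)) := by
  fin_cases a <;> fin_cases b <;> rfl

lemma met_castSucc_two (A : ℝ) (W : (Fin 2 → ℂ) → ℝ) (p : Fin 3 → ℂ) (a : Fin 2) :
    met A W p a.castSucc 2
      = ((Real.exp (W (zc p)) / (1 - xc W p) ^ 2 : ℝ) : ℂ) * p 2 * d1 W a (zc p) := by
  fin_cases a <;> rfl

lemma met_two_castSucc (A : ℝ) (W : (Fin 2 → ℂ) → ℝ) (p : Fin 3 → ℂ) (b : Fin 2) :
    met A W p 2 b.castSucc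
      = conj (((Real.exp (W (zc p)) / (1 - xc W p) ^ 2 : ℝ) : ℂ) * p 2 * d1 W b (zc p)) := by
  fin_cases b <;> rfl

lemma met_two_two (A : ℝ) (W : (Fin 2 → ℂ) → ℝ) (p : Fin 3 → ℂ) :
    met A W p 2 2 = ((Real.exp (W (zc p)) / (1 - xc W p) ^ 2 : ℝ) : ℂ) := rfl

/-- **The metric is the complex Hessian of its potential.** -/
theorem metPot : MetPotStmt := by
  intro A W hW p hp i j
  obtain ⟨hp1, hp2⟩ := hp
  have hzb : zc p ∈ ball2 := hp1
  have hx := diffAt_xc hW hzb
  have hx1 : (1 : ℝ) - xc W p ≠ 0 := sub_ne_zero.2 hp2.ne'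
  have hu : DifferentiableAt ℝ (fun q : Fin 3 → ℂ => W (zc q)) p :=
    (diffAt_W hW hzb).comp p differentiableAt_zc
  have hW2 : ContDiffAt ℝ 2 W (zc p) :=
    (hW.contDiffAt (isOpen_ball2.mem_nhds hzb)).of_le (WithTop.coe_le_coe.mpr le_top)
  have hl2 : ContDiffAt ℝ 2 lb (zc p) := contDiffOn_lb.contDiffAt (isOpen_ball2.mem_nhds hzb)
  have hc := (diffAt_coord (p := p) 2).restrictScalars ℝ
  obtain ⟨hxa, hx2⟩ := d_xc hW hzb
  have hinv : HasDerivAt (fun x : ℝ => (1 - x)⁻¹) (1 / (1 - xc W p) ^ 2) (xc W p) := by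
    simpa [Pi.inv_def] using ((hasDerivAt_id (xc W p)).const_sub 1).inv hx1
  have htau : HasDerivAt (fun x : ℝ => x / (1 - x)) (1 / (1 - xc W p) ^ 2) (xc W p) := by
    refine ((hasDerivAt_id (xc W p)).fun_div ((hasDerivAt_id (xc W p)).const_sub 1) hx1).congr_deriv ?_
    simp
  have hnear : ∀ᶠ q in 𝓝 p, q ∈ dom W := (isOpen_dom hW).mem_nhds ⟨hp1, hp2⟩
  -- the four kinds of entries
  have dW : ∀ b : Fin 2, DifferentiableAt ℝ (wdb b (fun z => (W z : ℂ))) (zc p) :=
    fun b => differentiableAt_wdb (contDiffAt_ofReal hW2) b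
  have dl : ∀ b : Fin 2, DifferentiableAt ℝ (wdb b (fun z => (lb z : ℂ))) (zc p) :=
    fun b => differentiableAt_wdb (contDiffAt_ofReal hl2) b
  have hbase : ∀ (i : Fin 3) (b : Fin 2),
      wd i (fun q => wdb b.castSucc
        (fun q' => ((A * lb (zc q') - Real.log (1 - xc W q') : ℝ) : ℂ)) q) p
      = (A : ℂ) * wd i (fun q => wdb b (fun z => (lb z : ℂ)) (zc q)) p
        + ((1 / (1 - xc W p) ^ 2 : ℝ) : ℂ) * wd i (fun q => (xc W q : ℂ)) p
          * conj (d1 W b (zc p))
        + ((xc W p / (1 - xc W p) : ℝ) : ℂ)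
          * wd i (fun q => wdb b (fun z => (W z : ℂ)) (zc q)) p := by
    intro i b
    have h1 : (fun q => wdb b.castSucc
        (fun q' => ((A * lb (zc q') - Real.log (1 - xc W q') : ℝ) : ℂ)) q)
        =ᶠ[𝓝 p] fun q => (A : ℂ) * wdb b (fun z => (lb z : ℂ)) (zc q)
          + ((xc W q / (1 - xc W q) : ℝ) : ℂ) * wdb b (fun z => (W z : ℂ)) (zc q) :=
      hnear.mono fun q hq => (wdb_pot hW A hq).1 b
    have d1' : DifferentiableAt ℝ (fun q => wdb b (fun z => (lb z : ℂ)) (zc q)) p :=
      (dl b).comp p differentiableAt_zc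
    have d2' : DifferentiableAt ℝ (fun q => wdb b (fun z => (W z : ℂ)) (zc q)) p :=
      (dW b).comp p differentiableAt_zc
    have d3' : DifferentiableAt ℝ (fun q => ((xc W q / (1 - xc W q) : ℝ) : ℂ)) p :=
      differentiableAt_ofReal (u := fun q => xc W q / (1 - xc W q))
        (htau.differentiableAt.comp p hx)
    rw [wd_congr h1, wd_add ((differentiableAt_const _).fun_mul d1') (d3'.fun_mul d2'),
      wd_mul (differentiableAt_const _) d1', wd_const, wd_mul d3' d2',
      wd_comp (P := fun x => x / (1 - x)) hx htau, wdb_ofReal (diffAt_W hW hzb)]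
    simp only [d1]
    ring
  have htwo : ∀ i : Fin 3,
      wd i (fun q => wdb 2
        (fun q' => ((A * lb (zc q') - Real.log (1 - xc W q') : ℝ) : ℂ)) q) p
      = (((1 / (1 - xc W p) ^ 2 : ℝ) : ℂ) * wd i (fun q => (xc W q : ℂ)) p
          * (Real.exp (W (zc p)) : ℂ)
        + (((1 - xc W p)⁻¹ : ℝ) : ℂ) * ((Real.exp (W (zc p)) : ℂ)
          * wd i (fun q => (W (zc q) : ℂ)) p)) * p 2
        + (((1 - xc W p)⁻¹ * Real.exp (W (zc p)) : ℝ) : ℂ) * (if i = 2 then 1 else 0) := by
    intro i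
    have h1 : (fun q => wdb 2
        (fun q' => ((A * lb (zc q') - Real.log (1 - xc W q') : ℝ) : ℂ)) q)
        =ᶠ[𝓝 p] fun q => (((1 - xc W q)⁻¹ : ℝ) : ℂ) * (Real.exp (W (zc q)) : ℂ) * q 2 :=
      hnear.mono fun q hq => by
          simp only [(wdb_pot hW A hq).2]; push_cast; ring
    have d3' : DifferentiableAt ℝ (fun q => (((1 - xc W q)⁻¹ : ℝ) : ℂ)) p :=
      differentiableAt_ofReal (u := fun q => (1 - xc W q)⁻¹) (hinv.differentiableAt.comp p hx)
    have d4 : DifferentiableAt ℝ (fun q : Fin 3 → ℂ => (Real.exp (W (zc q)) : ℂ)) p :=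
      differentiableAt_ofReal hu.exp
    rw [wd_congr h1, wd_mul (d3'.fun_mul d4) hc, wd_mul d3' d4, wd_comp hx hinv,
      wd_comp (u := fun q => W (zc q)) (P := Real.exp) hu (Real.hasDerivAt_exp _), wd_coord]
    push_cast
    ring
  induction j using Fin.lastCases with
  | cast b =>
    induction i using Fin.lastCases with
    | cast a =>
      rw [met_castSucc, hbase, wd_zc (f := wdb b (fun z => (lb z : ℂ))) (dl b),
        wd_zc (f := wdb b (fun z => (W z : ℂ))) (dW b), hxa]
      have : wd a (wdb b (fun z => (lb z : ℂ))) (zc p) = omb a b (zc p) := lev_lb hzb a b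
      rw [this]
      simp only [xc, lev]
      push_cast
      ring
    | last =>
      rw [show (Fin.last 2 : Fin 3) = 2 from rfl, met_two_castSucc, hbase,
        wd_zc_two (f := wdb b (fun z => (lb z : ℂ))) (dl b),
        wd_zc_two (f := wdb b (fun z => (W z : ℂ))) (dW b), hx2, map_mul, map_mul, conj_ofReal]
      push_cast
      ring
  | last =>
    rw [show (Fin.last 2 : Fin 3) = 2 from rfl, htwo]
    have hne : (1 : ℂ) - (xc W p : ℂ) ≠ 0 := by exact_mod_cast hx1
    induction i using Fin.lastCases with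
    | cast a =>
      rw [met_castSucc_two, hxa, wd_zc (f := fun z => (W z : ℂ))
        (differentiableAt_ofReal (diffAt_W hW hzb)), if_neg (by fin_cases a <;> decide)]
      simp only [d1]
      push_cast
      field_simp
      ring
    | last =>
      rw [show (Fin.last 2 : Fin 3) = 2 from rfl, met_two_two, hx2, wd_zc_two
        (f := fun z => (W z : ℂ)) (differentiableAt_ofReal (diffAt_W hW hzb)), if_pos rfl]
      push_cast
      field_simp
      simp only [xc, ofReal_mul, ofReal_exp, ← mul_conj]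
      ring

lemma conj_lev {W : (Fin 2 → ℂ) → ℝ} {z : Fin 2 → ℂ} (hW : ContDiffOn ℝ ∞ W ball2)
    (hz : z ∈ ball2) (a b : Fin 2) : conj (lev W a b z) = lev W b a z := by
  have h : ContDiffOn ℝ 2 W ball2 := hW.of_le (WithTop.coe_le_coe.mpr le_top)
  unfold lev
  rw [wd_wdb isOpen_ball2 h hz, wd_wdb isOpen_ball2 h hz]
  rw [hess_comm isOpen_ball2 h hz (Pi.single b 1) (Pi.single a 1),
    hess_comm isOpen_ball2 h hz (Pi.single b I) (Pi.single a I),
    hess_comm isOpen_ball2 h hz (Pi.single b 1) (Pi.single a I),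
    hess_comm isOpen_ball2 h hz (Pi.single b I) (Pi.single a 1)]
  simp only [map_div₀, map_add, map_mul, conj_ofReal, conj_I, map_ofNat]
  push_cast
  ring

lemma posDef_met {A : ℝ} {W : (Fin 2 → ℂ) → ℝ} (hA : 0 < A) (hW : ContDiffOn ℝ ∞ W ball2)
    (hpsh : ∀ z ∈ ball2, ∀ v, 0 ≤ levQ W z v) {p : Fin 3 → ℂ} (hp : p ∈ dom W) :
    (met A W p).PosDef := by
  have hzb : zc p ∈ ball2 := hp.1
  have hd : 0 < 1 - nsq (zc p) := sub_pos.2 hp.1
  have hx : 0 < 1 - xc W p := sub_pos.2 hp.2
  have homb : ∀ a b, conj (omb a b (zc p)) = omb b a (zc p) := fun a b => by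
    rcases eq_or_ne a b with rfl | hab
    · simp only [omb, if_true, map_add, map_div₀, map_one, conj_ofReal, map_mul, conj_conj]
      ring
    · simp only [omb, if_neg hab, if_neg hab.symm, zero_div, map_add, map_zero, map_div₀,
        conj_ofReal, map_mul, conj_conj]
      ring
  have hherm : (met A W p).IsHermitian := by
    refine Matrix.IsHermitian.ext fun i j => ?_
    rw [RCLike.star_def]
    induction i using Fin.lastCases with
    | cast a =>
      induction j using Fin.lastCases with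
      | cast b =>
        simp only [met_castSucc, map_add, map_mul, conj_ofReal, conj_conj, homb,
          conj_lev hW hzb]
        ring
      | last => simp only [show (Fin.last 2 : Fin 3) = 2 from rfl, met_castSucc_two,
          met_two_castSucc, conj_conj]
    | last =>
      induction j using Fin.lastCases with
      | cast b => simp only [show (Fin.last 2 : Fin 3) = 2 from rfl, met_castSucc_two,
          met_two_castSucc]
      | last => simp only [show (Fin.last 2 : Fin 3) = 2 from rfl, met_two_two, conj_ofReal]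
  rw [posDef_iff_dotProduct_mulVec]
  refine ⟨hherm, fun x hx0 => ?_⟩
  set X : Fin 3 → ℂ := fun i => conj (x i) with hX
  have hreal : (star x ⬝ᵥ (met A W p *ᵥ x)).im = 0 := by
    have := hherm.im_star_dotProduct_mulVec_self x
    simpa using this
  rw [Complex.lt_def]
  refine ⟨?_, by simp [hreal]⟩
  set τ : ℝ := xc W p / (1 - xc W p) with hτ
  set q : ℝ := Real.exp (W (zc p)) / (1 - xc W p) ^ 2 with hq
  have hτ0 : 0 ≤ τ := div_nonneg (xc_nonneg W p) hx.le
  have hq0 : 0 < q := div_pos (Real.exp_pos _) (pow_pos hx 2)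
  set v : Fin 2 → ℂ := zc X with hv
  have key : (star x ⬝ᵥ (met A W p *ᵥ x)).re
      = A * (nsq v / (1 - nsq (zc p)) + normSq (ip v (zc p)) / (1 - nsq (zc p)) ^ 2)
        + τ * levQ W (zc p) v
        + q * normSq (X 2 + p 2 * (d1 W 0 (zc p) * X 0 + d1 W 1 (zc p) * X 1)) := by
    have e : star x ⬝ᵥ (met A W p *ᵥ x)
        = ∑ i, ∑ j, met A W p i j * X i * conj (X j) := by
      simp only [dotProduct, mulVec, Finset.mul_sum, Pi.star_apply, RCLike.star_def, hX, conj_conj]
      exact Finset.sum_congr rfl fun i _ => Finset.sum_congr rfl fun j _ => by ring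
    rw [e]
    exact CompleteAux.rMet_met p X
  rw [key, zero_re]
  have h2 : 0 ≤ normSq (ip v (zc p)) / (1 - nsq (zc p)) ^ 2 :=
    div_nonneg (normSq_nonneg _) (sq_nonneg _)
  have h3 : 0 ≤ τ * levQ W (zc p) v := mul_nonneg hτ0 (hpsh _ hzb v)
  rcases eq_or_ne v 0 with hv0 | hv0
  · have hX2 : X 2 ≠ 0 := fun h => hx0 <| by
      funext i
      have a0 : X 0 = 0 := congrFun hv0 0
      have a1 : X 1 = 0 := congrFun hv0 1
      fin_cases i <;> simp_all
    have h4 : 0 < q * normSq (X 2 + p 2 * (d1 W 0 (zc p) * X 0 + d1 W 1 (zc p) * X 1)) := by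
      refine mul_pos hq0 (normSq_pos.2 ?_)
      simpa [show X 0 = 0 from congrFun hv0 0, show X 1 = 0 from congrFun hv0 1] using hX2
    have h1 : 0 ≤ nsq v / (1 - nsq (zc p)) :=
      div_nonneg (add_nonneg (normSq_nonneg _) (normSq_nonneg _)) hd.le
    nlinarith [mul_nonneg hA.le (add_nonneg h1 h2)]
  · have h1 : 0 < nsq v / (1 - nsq (zc p)) := by
      refine div_pos ?_ hd
      rcases ne_or_eq (v 0) 0 with h | h
      · exact add_pos_of_pos_of_nonneg (normSq_pos.2 h) (normSq_nonneg _)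
      · refine add_pos_of_nonneg_of_pos (normSq_nonneg _) (normSq_pos.2 fun h' => hv0 ?_)
        funext i; fin_cases i <;> assumption
    nlinarith [mul_pos hA (add_pos_of_pos_of_nonneg h1 h2),
      mul_nonneg hq0.le (normSq_nonneg (X 2 + p 2 * (d1 W 0 (zc p) * X 0 + d1 W 1 (zc p) * X 1)))]

section smooth

variable {n : ℕ} {S : Set (Fin n → ℂ)} {f : (Fin n → ℂ) → ℂ}

lemma contDiffOn_wd (hS : IsOpen S) (hf : ContDiffOn ℝ ∞ f S) (i : Fin n) :
    ContDiffOn ℝ ∞ (wd i f) S := by
  have h := hf.fderiv_of_isOpen hS (m := ∞) (by simp)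
  exact (((h.clm_apply contDiffOn_const).sub (contDiffOn_const.mul (h.clm_apply contDiffOn_const))).div_const 2)

lemma contDiffOn_wdb (hS : IsOpen S) (hf : ContDiffOn ℝ ∞ f S) (i : Fin n) :
    ContDiffOn ℝ ∞ (wdb i f) S := by
  have h := hf.fderiv_of_isOpen hS (m := ∞) (by simp)
  exact (((h.clm_apply contDiffOn_const).add (contDiffOn_const.mul (h.clm_apply contDiffOn_const))).div_const 2)

/-- Holomorphic derivatives commute. -/
lemma wd_comm {p : Fin n → ℂ} (hf : ContDiffAt ℝ 2 f p) (i j : Fin n) :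
    wd i (wd j f) p = wd j (wd i f) p := by
  have hd : DifferentiableAt ℝ (fderiv ℝ f) p :=
    (hf.fderiv_right (m := 1) (by norm_num)).differentiableAt (by norm_num)
  have hsym := hf.isSymmSndFDerivAt (by simp)
  have h1 : ∀ v : Fin n → ℂ, DifferentiableAt ℝ (fun q => fderiv ℝ f q v) p :=
    fun v => hd.clm_apply (differentiableAt_const _)
  have key : ∀ (k : Fin n) (u : Fin n → ℂ), fderiv ℝ (wd k f) p u
      = (fderiv ℝ (fderiv ℝ f) p u (Pi.single k 1)
          - I * fderiv ℝ (fderiv ℝ f) p u (Pi.single k I)) / 2 := by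
    intro k u
    have ha : ∀ v : Fin n → ℂ, HasFDerivAt (fun q => fderiv ℝ f q v)
        ((fderiv ℝ (fderiv ℝ f) p).flip v) p := fun v => by
      have h := hd.hasFDerivAt.clm_apply (hasFDerivAt_const v p)
      refine h.congr_fderiv ?_
      simp
    have hW : HasFDerivAt (wd k f)
        ((2 : ℂ)⁻¹ • ((fderiv ℝ (fderiv ℝ f) p).flip (Pi.single k 1)
          - I • (fderiv ℝ (fderiv ℝ f) p).flip (Pi.single k I))) p := by
      have := ((ha (Pi.single k 1)).sub ((ha (Pi.single k I)).const_mul I)).const_mul (2 : ℂ)⁻¹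
      have hfun : wd k f = fun q => (2 : ℂ)⁻¹ *
          (fderiv ℝ f q (Pi.single k 1) - I * fderiv ℝ f q (Pi.single k I)) :=
        funext fun q => div_eq_inv_mul _ _
      rw [hfun]
      exact this
    rw [hW.fderiv]
    simp [div_eq_inv_mul]
  rw [show wd i (wd j f) p = (fderiv ℝ (wd j f) p (Pi.single i 1)
      - I * fderiv ℝ (wd j f) p (Pi.single i I)) / 2 from rfl,
    show wd j (wd i f) p = (fderiv ℝ (wd i f) p (Pi.single j 1)
      - I * fderiv ℝ (wd i f) p (Pi.single j I)) / 2 from rfl,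
    key, key, key, key, hsym (Pi.single i 1) (Pi.single j 1), hsym (Pi.single i 1) (Pi.single j I),
    hsym (Pi.single i I) (Pi.single j 1), hsym (Pi.single i I) (Pi.single j I)]
  ring

end smooth

/-- The homeomorphism onto a product, straightening the weight. -/
lemma contractible_dom {W : (Fin 2 → ℂ) → ℝ} (hW : ContDiffOn ℝ ∞ W ball2) :
    IsConnected (dom W) ∧ ContractibleSpace (dom W) := by
  set K : Set (Fin 3 → ℂ) := {p | nsq (zc p) < 1 ∧ ‖p 2‖ < 1} with hK
  have hKconv : Convex ℝ K := by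
    intro p hp q hq a b ha hb hab
    have hn : ∀ z : Fin 2 → ℂ, nsq z < 1 ↔ ‖WithLp.toLp 2 z‖ < 1 := fun z => by
      rw [← sq_lt_one_iff₀ (norm_nonneg (WithLp.toLp 2 z)), EuclideanSpace.norm_sq_eq, nsq,
        Fin.sum_univ_two]
      simp [Complex.sq_norm]
    refine ⟨?_, ?_⟩
    · rw [hn]
      have e : zc (a • p + b • q) = a • zc p + b • zc q := by
        rw [← zcL_apply, map_add, map_smul, map_smul, zcL_apply, zcL_apply]
      have h := convex_ball (0 : EuclideanSpace ℂ (Fin 2)) 1 (x := WithLp.toLp 2 (zc p))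
        (by simpa using (hn _).1 hp.1) (y := WithLp.toLp 2 (zc q)) (by simpa using (hn _).1 hq.1)
        ha hb hab
      rw [mem_ball_zero_iff] at h
      rw [e]
      exact h
    · have h := convex_ball (0 : ℂ) 1 (x := p 2) (by simpa using hp.2) (y := q 2)
        (by simpa using hq.2) ha hb hab
      simpa [mem_ball_zero_iff] using h
  have hKne : K.Nonempty := ⟨0, by simp [hK, nsq, zc]⟩
  have hexp : ∀ (s : ℝ) (p : Fin 3 → ℂ),
      zc (![p 0, p 1, p 2 * (Real.exp s : ℂ)]) = zc p := fun s p => rfl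
  have hWc : ContinuousOn (fun p : Fin 3 → ℂ => W (zc p)) {p | zc p ∈ ball2} :=
    hW.continuousOn.comp continuous_zc.continuousOn fun p hp => hp
  have hcont : ∀ s : ℝ, ContinuousOn
      (fun p : Fin 3 → ℂ => ![p 0, p 1, p 2 * (Real.exp (s * W (zc p)) : ℂ)])
      {p | zc p ∈ ball2} := by
    intro s
    refine continuousOn_pi.2 fun i => ?_
    fin_cases i
    · exact (continuous_apply 0).continuousOn
    · exact (continuous_apply 1).continuousOn
    · exact (continuous_apply 2).continuousOn.mul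
        (Complex.continuous_ofReal.comp_continuousOn
          (Real.continuous_exp.comp_continuousOn (continuousOn_const.mul hWc)))
  have hnorm : ∀ (s : ℝ) (p : Fin 3 → ℂ), ‖p 2 * (Real.exp s : ℂ)‖ ^ 2
      = normSq (p 2) * Real.exp (2 * s) := fun s p => by
    rw [norm_mul, mul_pow, Complex.sq_norm, Complex.norm_real, Real.norm_eq_abs, sq_abs,
      ← Real.exp_nat_mul]
    norm_num
  let e : dom W ≃ₜ K :=
    { toFun := fun p => ⟨![p.1 0, p.1 1, p.1 2 * (Real.exp (1 / 2 * W (zc p.1)) : ℂ)],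
        p.2.1, by
          show ‖p.1 2 * _‖ < 1
          rw [← sq_lt_one_iff₀ (norm_nonneg _), hnorm]
          refine lt_of_eq_of_lt ?_ p.2.2
          unfold xc; ring_nf⟩
      invFun := fun p => ⟨![p.1 0, p.1 1, p.1 2 * (Real.exp (-(1 / 2) * W (zc p.1)) : ℂ)],
        p.2.1, by
          have h : ‖p.1 2‖ ^ 2 < 1 := (sq_lt_one_iff₀ (norm_nonneg _)).2 p.2.2
          rw [Complex.sq_norm] at h
          show normSq (p.1 2 * _) * Real.exp (W (zc p.1)) < 1
          rw [← Complex.sq_norm, hnorm, mul_assoc, ← Real.exp_add]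
          refine lt_of_eq_of_lt ?_ h
          ring_nf; simp⟩
      left_inv := fun p => by
        apply Subtype.ext
        funext i
        fin_cases i
        · rfl
        · rfl
        · show p.1 2 * _ * _ = p.1 2
          rw [hexp, mul_assoc, ← ofReal_mul, ← Real.exp_add]
          simp
      right_inv := fun p => by
        apply Subtype.ext
        funext i
        fin_cases i
        · rfl
        · rfl
        · show p.1 2 * _ * _ = p.1 2
          rw [hexp, mul_assoc, ← ofReal_mul, ← Real.exp_add]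
          simp
      continuous_toFun := Continuous.subtype_mk
        ((hcont (1 / 2)).comp_continuous continuous_subtype_val fun p => p.2.1) _
      continuous_invFun := Continuous.subtype_mk
        ((hcont (-(1 / 2))).comp_continuous continuous_subtype_val fun p => p.2.1) _ }
  have : ContractibleSpace K := hKconv.contractibleSpace hKne
  refine ⟨?_, e.contractibleSpace⟩
  have : ConnectedSpace K := isConnected_iff_connectedSpace.1 (hKconv.isConnected hKne)
  have hc : ConnectedSpace (dom W) := e.symm.surjective.connectedSpace e.symm.continuous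
  exact isConnected_iff_connectedSpace.2 hc

/-- **The example is Kähler, on a contractible domain.** -/
theorem kahler : KahlerStmt := by
  intro A W hA hW hpsh
  obtain ⟨hconn, hcontr⟩ := contractible_dom hW
  have hU := isOpen_dom hW
  refine ⟨hU, hconn, SimplyConnectedSpace.ofContractible _, ?_, fun p hp => ⟨posDef_met hA hW hpsh hp, ?_⟩⟩
  · -- smoothness
    set F : (Fin 3 → ℂ) → ℂ := fun q' => ((A * lb (zc q') - Real.log (1 - xc W q') : ℝ) : ℂ)
    have hF : ContDiffOn ℝ ∞ F (dom W) := by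
      refine Complex.ofRealCLM.contDiff.comp_contDiffOn ((contDiffOn_const.mul
        (contDiffOn_lb.comp contDiff_zc.contDiffOn fun q hq => hq.1)).sub ?_)
      exact (contDiffOn_const.sub ((contDiffOn_xc hW).mono fun q hq => hq.1)).log
        fun q hq => (sub_pos.2 hq.2).ne'
    intro i j
    exact (contDiffOn_wd hU (contDiffOn_wdb hU hF j) i).congr fun q hq => metPot A W hW q hq i j
  · -- closedness
    intro i j k
    set F : (Fin 3 → ℂ) → ℂ := fun q' => ((A * lb (zc q') - Real.log (1 - xc W q') : ℝ) : ℂ)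
    have hF : ContDiffOn ℝ ∞ F (dom W) := by
      refine Complex.ofRealCLM.contDiff.comp_contDiffOn ((contDiffOn_const.mul
        (contDiffOn_lb.comp contDiff_zc.contDiffOn fun q hq => hq.1)).sub ?_)
      exact (contDiffOn_const.sub ((contDiffOn_xc hW).mono fun q hq => hq.1)).log
        fun q hq => (sub_pos.2 hq.2).ne'
    have hev : ∀ l : Fin 3, (fun q => met A W q l k) =ᶠ[𝓝 p] wd l (wdb k F) := fun l =>
      Filter.eventuallyEq_of_mem (hU.mem_nhds hp) fun q hq => metPot A W hW q hq l k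
    rw [wd_congr (hev j), wd_congr (hev i)]
    exact wd_comm (((contDiffOn_wdb hU hF k).contDiffAt (hU.mem_nhds hp)).of_le
      (WithTop.coe_le_coe.mpr le_top)) i j

end Vale.Agent.P250.Full
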