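import Vale.Agent.P250.Full.Nets

/-!
Packing in a thin shell: a layer of cells sums, and nets have full density.
-/

namespace Vale.Agent.P250.Full

open Complex MeasureTheory Set
open scoped ComplexConjugate Real

theorem quasi {z w v : Fin 2 → ℂ} (hz : nsq z ≤ 1) (hw : nsq w ≤ 1) (hv : nsq v ≤ 1) {a b : ℝ}
    (ha : ‖1 - ip z w‖ ≤ a) (hb : ‖1 - ip w v‖ ≤ b) : ‖1 - ip z v‖ ≤ 2 * a + 2 * b := by
  have h := triangle z w v hz hw hv
  rw [Real.sqrt_le_left (by positivity)] at h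
  nlinarith [Real.sq_sqrt (norm_nonneg (1 - ip z w)), Real.sq_sqrt (norm_nonneg (1 - ip w v)),
    sq_nonneg (Real.sqrt ‖1 - ip z w‖ - Real.sqrt ‖1 - ip w v‖)]

theorem volume_ball_complex (c : ℂ) {r : ℝ} (hr : 0 ≤ r) :
    volume (Metric.ball c r) = ENNReal.ofReal (π * r ^ 2) := by
  rw [Complex.volume_ball, ← ENNReal.ofReal_pow hr, mul_comm π,
    ENNReal.ofReal_mul (by positivity)]
  congr 1
  simp [← NNReal.coe_real_pi]

theorem isOpen_sliceSet (R' R : ℝ) (e : Fin 2 → ℂ) {E : Set ℂ} (hE : IsOpen E) :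
    IsOpen (sliceSet R' R e E) :=
  ((isOpen_lt continuous_const continuous_nsq).inter (isOpen_lt continuous_nsq continuous_const)).inter
    (hE.preimage (continuous_ip_left e))

/-- The inner radius of the shell used for packing at scale `t`. -/
noncomputable def inn (t : ℝ) : ℝ := Real.sqrt (1 - t)

theorem inn_spec {t : ℝ} (ht : 0 < t) (ht1 : t < 1) :
    0 < inn t ∧ inn t < 1 ∧ 1 - t ≤ inn t ∧ 1 - inn t ^ 2 = t := by
  have h : inn t ^ 2 = 1 - t := Real.sq_sqrt (by linarith)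
  have h0 : 0 < inn t := Real.sqrt_pos.2 (by linarith)
  exact ⟨h0, by nlinarith, by nlinarith, by linarith⟩

theorem volume_slice_le (hV : ShellVolumeStmt) {t : ℝ} (ht : 0 < t) (ht1 : t < 1) {e : Fin 2 → ℂ}
    (he : e ∈ sph) (c : ℂ) {r : ℝ} (hr : 0 ≤ r) :
    volume (sliceSet (inn t) 1 e (Metric.ball c r)) ≤ ENNReal.ofReal (π * t * (π * r ^ 2)) := by
  obtain ⟨h0, h1, -, h3⟩ := inn_spec ht ht1
  refine (hV _ _ h0 h1 e he _ measurableSet_ball).1.trans (le_of_eq ?_)
  rw [one_pow, h3, volume_ball_complex c hr, ← ENNReal.ofReal_mul (by positivity)]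

theorem volume_slice_eq (hV : ShellVolumeStmt) {t : ℝ} (ht : 0 < t) (ht1 : t < 1) {e : Fin 2 → ℂ}
    (he : e ∈ sph) (c : ℂ) {r : ℝ} (hr : 0 ≤ r) (hc : ‖c‖ + r ≤ 1 - t) :
    volume (sliceSet (inn t) 1 e (Metric.ball c r)) = ENNReal.ofReal (π * t * (π * r ^ 2)) := by
  obtain ⟨h0, h1, h2, h3⟩ := inn_spec ht ht1
  rw [(hV _ _ h0 h1 e he _ measurableSet_ball).2 (Metric.ball_subset_ball' (by simp; linarith)),
    one_pow, h3, volume_ball_complex c hr, ← ENNReal.ofReal_mul (by positivity)]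

theorem nsq_of_slice {R' : ℝ} {e : Fin 2 → ℂ} {E : Set ℂ} {z : Fin 2 → ℂ}
    (hz : z ∈ sliceSet R' 1 e E) : nsq z ≤ 1 := by
  have := hz.1.2
  linarith

theorem one_sub_le_of_mem_ball {c : ℝ} {r : ℝ} {s : ℂ} (hc : c ≤ 1)
    (hs : s ∈ Metric.ball (c : ℂ) r) : ‖1 - s‖ ≤ 1 - c + r := by
  rw [Metric.mem_ball, dist_eq_norm] at hs
  have e : 1 - s = ((1 - c : ℝ) : ℂ) - (s - (c : ℂ)) := by push_cast; ring
  rw [e]
  refine (norm_sub_le _ _).trans (add_le_add ?_ hs.le)
  rw [Complex.norm_real, Real.norm_eq_abs, abs_of_nonneg (by linarith)]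

/-- At most `10⁴ (λ/t)²` separated points lie within `λ` of a point. -/
theorem packing (hV : ShellVolumeStmt) {t lam : ℝ} (ht : 0 < t) (ht1 : t ≤ 1 / 1000)
    (htl : t ≤ lam) {z : Fin 2 → ℂ} (hz : nsq z ≤ 1) (T : Finset (Fin 2 → ℂ))
    (hT : ∀ e ∈ T, e ∈ sph) (hsep : ∀ e ∈ T, ∀ e' ∈ T, e ≠ e' → 1000 * t ≤ ‖1 - ip e e'‖)
    (hnear : ∀ e ∈ T, ‖1 - ip z e‖ ≤ 2 * lam) :
    (T.card : ℝ) * t ^ 2 ≤ 10000 * lam ^ 2 := by
  classical
  rcases T.eq_empty_or_nonempty with rfl | ⟨e₀, he₀⟩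
  · simp; positivity
  have ht' : t < 1 := by linarith
  let S : (Fin 2 → ℂ) → Set (Fin 2 → ℂ) := fun e =>
    sliceSet (inn t) 1 e (Metric.ball ((1 - 2 * t : ℝ) : ℂ) t)
  have close : ∀ e, ∀ y ∈ S e, ‖1 - ip y e‖ ≤ 3 * t := fun e y hy =>
    (one_sub_le_of_mem_ball (by linarith) hy.2).trans (by linarith)
  have sub : ∀ e ∈ T, S e ⊆ sliceSet (inn t) 1 e₀ (Metric.ball 1 (30 * lam)) := by
    intro e he y hy
    refine ⟨hy.1, ?_⟩
    have h1 : ‖1 - ip e e₀‖ ≤ 2 * (2 * lam) + 2 * (2 * lam) :=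
      quasi (hT e he).le hz (hT e₀ he₀).le (by rw [norm_one_sub_ip_comm]; exact hnear e he)
        (hnear e₀ he₀)
    have h2 := quasi (nsq_of_slice hy) (hT e he).le (hT e₀ he₀).le (close e y hy) h1
    rw [Metric.mem_ball, dist_eq_norm, norm_sub_rev]
    linarith
  have disj : (T : Set (Fin 2 → ℂ)).PairwiseDisjoint S := by
    intro e he e' he' hne
    refine Set.disjoint_left.2 fun y hy hy' => ?_
    have h1 := quasi (hT e he).le (nsq_of_slice hy) (hT e' he').le (a := 3 * t)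
      (by rw [norm_one_sub_ip_comm]; exact close e y hy) (close e' y hy')
    have h2 := hsep e he e' he' hne
    linarith
  have hvol : ∀ e ∈ T, volume (S e) = ENNReal.ofReal (π * t * (π * t ^ 2)) := fun e he =>
    volume_slice_eq hV ht ht' (hT e he) _ ht.le (by
      rw [Complex.norm_real, Real.norm_eq_abs, abs_of_nonneg (by linarith)]; linarith)
  have h := (measure_mono (μ := volume) (Set.iUnion₂_subset sub)).trans
    (volume_slice_le hV ht ht' (hT e₀ he₀) 1 (show (0 : ℝ) ≤ 30 * lam by linarith))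
  rw [measure_biUnion_finset disj fun e _ => (isOpen_sliceSet _ _ _ Metric.isOpen_ball).measurableSet,
    Finset.sum_congr rfl hvol, Finset.sum_const, nsmul_eq_mul, ← ENNReal.ofReal_natCast,
    ← ENNReal.ofReal_mul (by positivity), ENNReal.ofReal_le_ofReal_iff (by positivity)] at h
  have hpi : 0 < π * t * π := by positivity
  have h' : (T.card : ℝ) * t ^ 2 ≤ (30 * lam) ^ 2 :=
    le_of_mul_le_mul_left (by linarith) hpi
  nlinarith

/-- A layer of cells sums. -/
theorem layerSum (hV : ShellVolumeStmt) : LayerSumStmt := by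
  classical
  refine ⟨655360000, by norm_num, fun t ht ht1 z hz => ?_⟩
  obtain ⟨hsph, hsep, -⟩ := isNet_net t ht
  have hz1 : nsq z < 1 := hz
  set a := av t with ha
  set dl := max t (1 - nsq z) with hdl
  have hdl1 : t ≤ dl := le_max_left _ _
  have hdl2 : 1 - nsq z ≤ dl := le_max_right _ _
  have hdl0 : 0 < dl := ht.trans_le hdl1
  have h1t : (0 : ℝ) < 1 + t := by linarith
  have ha_eq : a * (1 + t) = 1 - t := by rw [ha, av, div_mul_cancel₀ _ h1t.ne']
  have ha0 : 0 ≤ a := by nlinarith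
  have ha1 : t ≤ 1 - a := by nlinarith
  have ha2 : 1 - a ^ 2 ≤ 4 * t := by nlinarith
  let d : (Fin 2 → ℂ) → ℝ := fun e => ‖1 - (a : ℂ) * ip z e‖
  have hs : ∀ e ∈ net t, ‖ip z e‖ ≤ 1 ∧ dl / 2 ≤ d e ∧ ‖1 - ip z e‖ ≤ 2 * d e := by
    intro e he
    have hle := norm_ip_le z e hz1.le (hsph e he).le
    have hlow : 1 - a * ‖ip z e‖ ≤ d e := by
      have := norm_sub_norm_le (1 : ℂ) ((a : ℂ) * ip z e)
      simpa [d, abs_of_nonneg ha0] using this
    have h1 : 1 - a ≤ d e := by nlinarith [norm_nonneg (ip z e)]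
    have hcs : ‖ip z e‖ ^ 2 ≤ nsq z := by
      have h : ‖ip z e‖ ≤ ‖z 0‖ * ‖e 0‖ + ‖z 1‖ * ‖e 1‖ :=
        (norm_add_le _ _).trans (le_of_eq (by simp))
      have he1 : nsq e = 1 := hsph e he
      rw [nsq_eq_norm_sq] at he1 ⊢
      nlinarith [sq_nonneg (‖z 0‖ * ‖e 1‖ - ‖z 1‖ * ‖e 0‖), norm_nonneg (ip z e)]
    refine ⟨hle, ?_, ?_⟩
    · rcases max_cases t (1 - nsq z) with ⟨h, -⟩ | ⟨h, -⟩ <;> rw [hdl, h]
      · linarith
      · nlinarith [norm_nonneg (ip z e), sq_nonneg (1 - ‖ip z e‖)]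
    · have e1 : 1 - ip z e = (1 - (a : ℂ) * ip z e) - ((1 - a : ℝ) : ℂ) * ip z e := by
        push_cast; ring
      rw [e1]
      refine (norm_sub_le _ _).trans ?_
      rw [norm_mul, Complex.norm_real, Real.norm_eq_abs, abs_of_nonneg (by linarith : 0 ≤ 1 - a)]
      have : (1 - a) * ‖ip z e‖ ≤ 1 - a := mul_le_of_le_one_right (by linarith) hle
      linarith
  have hv : ∀ e ∈ net t, ‖vc t (ip z e)‖ ≤ 4 * t / d e := by
    intro e he
    rw [vc, norm_div, ← ha]
    refine div_le_div_of_nonneg_right ?_ (norm_nonneg _)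
    rw [show (1 : ℂ) - (a : ℂ) ^ 2 = ((1 - a ^ 2 : ℝ) : ℂ) by push_cast; ring, Complex.norm_real,
      Real.norm_eq_abs, abs_of_nonneg (by nlinarith)]
    exact ha2
  have hk : ∀ e ∈ net t, ∃ k : ℕ, 2 ^ k * (dl / 2) ≤ d e ∧ d e < 2 ^ (k + 1) * (dl / 2) := by
    intro e he
    obtain ⟨k, k1, k2⟩ := exists_nat_pow_near ((one_le_div (by linarith)).2 (hs e he).2.1)
      (show (1 : ℝ) < 2 by norm_num)
    exact ⟨k, (le_div_iff₀ (by linarith)).1 k1, (div_lt_iff₀ (by linarith)).1 k2⟩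
  choose! k hk1 hk2 using hk
  obtain ⟨M, hM⟩ : ∃ M, ∀ e ∈ net t, k e ∈ Finset.range M :=
    ⟨(net t).sup k + 1, fun e he => Finset.mem_range.2 (Nat.lt_succ_of_le (Finset.le_sup he))⟩
  have fib : ∀ j ∈ Finset.range M, ∑ e ∈ net t with k e = j, ‖vc t (ip z e)‖ ^ 5
      ≤ 327680000 * (t / dl) ^ 3 * (1 / 8 : ℝ) ^ j := by
    intro j _
    set lam := 2 ^ (j + 1) * (dl / 2) with hlam
    have hp : (1 : ℝ) ≤ 2 ^ j := one_le_pow₀ (by norm_num)
    have hlam' : lam = 2 ^ j * dl := by rw [hlam, pow_succ]; ring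
    have htl : t ≤ lam := by rw [hlam']; nlinarith
    have hcard := packing hV ht ht1 htl hz1.le ((net t).filter fun e => k e = j)
      (fun e he => hsph e (Finset.mem_filter.1 he).1)
      (fun e he e' he' => hsep e (Finset.mem_filter.1 he).1 e' (Finset.mem_filter.1 he').1)
      (fun e he => by
        obtain ⟨he1, rfl⟩ := Finset.mem_filter.1 he
        linarith [(hs e he1).2.2, hk2 e he1])
    have hterm : ∀ e ∈ (net t).filter (fun e => k e = j),
        ‖vc t (ip z e)‖ ^ 5 ≤ (4 * t / (2 ^ j * (dl / 2))) ^ 5 := by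
      intro e he
      obtain ⟨he1, rfl⟩ := Finset.mem_filter.1 he
      exact pow_le_pow_left₀ (norm_nonneg _)
        ((hv e he1).trans (div_le_div_of_nonneg_left (by positivity) (by positivity) (hk1 e he1))) 5
    refine (Finset.sum_le_sum hterm).trans ?_
    rw [Finset.sum_const, nsmul_eq_mul]
    rw [hlam'] at hcard
    have h8 : (1 / 8 : ℝ) ^ j = 1 / (2 ^ j) ^ 3 := by
      rw [div_pow, one_pow, ← pow_mul, mul_comm j, pow_mul]; norm_num
    rw [h8]
    have hfac : ((((net t).filter fun e => k e = j).card : ℕ) : ℝ) * (4 * t / (2 ^ j * (dl / 2))) ^ 5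
        = ((((net t).filter fun e => k e = j).card : ℕ) : ℝ) * t ^ 2
          * (32768 * t ^ 3 / (2 ^ j * dl) ^ 5) := by
      field_simp; ring
    rw [hfac]
    refine (mul_le_mul_of_nonneg_right hcard (by positivity)).trans (le_of_eq ?_)
    field_simp; ring
  have geo : ∑ j ∈ Finset.range M, (1 / 8 : ℝ) ^ j ≤ 2 := by
    rw [geom_sum_eq (by norm_num)]
    have : (0 : ℝ) ≤ (1 / 8 : ℝ) ^ M := by positivity
    rw [div_le_iff_of_neg (by norm_num)]
    linarith
  have main : ∑ e ∈ net t, ‖vc t (ip z e)‖ ^ 5 ≤ 655360000 * (t / dl) ^ 3 := by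
    rw [← Finset.sum_fiberwise_of_maps_to hM]
    refine (Finset.sum_le_sum fib).trans ?_
    rw [← Finset.mul_sum]
    have : 0 ≤ (t / dl) ^ 3 := by positivity
    nlinarith
  refine ⟨main.trans ?_, main.trans ?_⟩
  · exact mul_le_of_le_one_right (by norm_num) (pow_le_one₀ (by positivity) ((div_le_one hdl0).2 hdl1))
  · refine mul_le_mul_of_nonneg_left (pow_le_pow_left₀ (by positivity) ?_ 3) (by norm_num)
    exact div_le_div_of_nonneg_left ht.le (by linarith) hdl2

/-- Nets have full density near a slice point. -/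
theorem count (hV : ShellVolumeStmt) : CountStmt := by
  classical
  refine ⟨1 / (256 * 2100 ^ 2), 10000000, by positivity, by positivity,
    fun t r ht hr hK hr4 x hx => ?_⟩
  obtain ⟨hsph, -, hcov⟩ := isNet_net t ht
  set δ := 1 - r with hδ
  have ht' : t < 1 := by linarith
  set T := (net t).filter fun e => ‖ip e x - (r : ℂ)‖ ≤ δ / 4 with hT
  have sub : sliceSet (inn t) 1 x (Metric.ball (r : ℂ) (δ / 16))
      ⊆ ⋃ e ∈ T, sliceSet (inn t) 1 e (Metric.ball 1 (2100 * t)) := by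
    intro z hz
    obtain ⟨-, -, -, h3⟩ := inn_spec ht ht'
    have hzl : 1 - t < nsq z := by have := hz.1.1; linarith
    have hzu : nsq z < 1 := by simpa using hz.1.2
    set n := Real.sqrt (nsq z) with hn
    have hn2 : n ^ 2 = nsq z := Real.sq_sqrt (by linarith)
    have hn0 : 0 < n := Real.sqrt_pos.2 (by linarith)
    have hn1 : n ≤ 1 := by nlinarith
    let y : Fin 2 → ℂ := ((n⁻¹ : ℝ) : ℂ) • z
    have hy : y ∈ sph := by
      show nsq y = 1
      simp only [y, nsq, Pi.smul_apply, smul_eq_mul, map_mul, Complex.normSq_ofReal]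
      rw [← mul_add]
      change n⁻¹ * n⁻¹ * nsq z = 1
      rw [← hn2]; field_simp
    have hzy : ‖1 - ip z y‖ ≤ t := by
      have e : ip z y = ((n : ℝ) : ℂ) := by
        have : ip z y = ((n⁻¹ : ℝ) : ℂ) * ip z z := by simp [y, ip]; ring
        rw [this, ip_self, ← hn2, ← Complex.ofReal_mul]
        congr 1
        field_simp
      rw [e, ← Complex.ofReal_one, ← Complex.ofReal_sub, Complex.norm_real, Real.norm_eq_abs,
        abs_of_nonneg (by linarith)]
      nlinarith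
    obtain ⟨e, he, hye⟩ := hcov y hy
    have hA : ‖1 - ip z e‖ ≤ 2002 * t :=
      (quasi hzu.le hy.le (hsph e he).le hzy hye.le).trans (by linarith)
    have hB : ‖1 - ip z x‖ ≤ 2 * δ :=
      (one_sub_le_of_mem_ball hr.le hz.2).trans (by linarith)
    have hzs : ‖ip z x - (r : ℂ)‖ ≤ δ / 16 := by
      have := hz.2
      rw [Metric.mem_ball, dist_eq_norm] at this
      exact this.le
    refine Set.mem_iUnion₂.2 ⟨e, Finset.mem_filter.2 ⟨he, ?_⟩, hz.1, ?_⟩
    · have key : ‖ip e x - ip z x‖ ≤ ‖1 - ip z e‖ + t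
          + 2 * (Real.sqrt ‖1 - ip z e‖ * Real.sqrt ‖1 - ip z x‖) := by
        have dec : ip e x - ip z x = ((ip e z - 1) + ((1 - nsq z : ℝ) : ℂ))
            + ((e 0 - z 0) * conj (x 0 - z 0) + (e 1 - z 1) * conj (x 1 - z 1)) := by
          rw [Complex.ofReal_sub, Complex.ofReal_one, ← ip_self z]
          simp [ip, map_sub]; ring
        have sq : ∀ u : Fin 2 → ℂ, nsq u = 1 →
            ‖u 0 - z 0‖ ^ 2 + ‖u 1 - z 1‖ ^ 2 ≤ 2 * ‖1 - ip z u‖ := by
          intro u hu
          have e1 : ‖u 0 - z 0‖ ^ 2 + ‖u 1 - z 1‖ ^ 2 = nsq u + nsq z - 2 * (ip z u).re := by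
            simp [nsq, Complex.sq_norm, Complex.normSq_apply, ip]; ring
          have h2 : (1 - ip z u).re ≤ ‖1 - ip z u‖ := Complex.re_le_norm _
          simp at h2
          linarith
        have P := sq e (hsph e he)
        have Q := sq x hx
        set p0 := ‖e 0 - z 0‖
        set p1 := ‖e 1 - z 1‖
        set q0 := ‖x 0 - z 0‖
        set q1 := ‖x 1 - z 1‖
        have cs : (p0 * q0 + p1 * q1) ^ 2
            ≤ (2 * (Real.sqrt ‖1 - ip z e‖ * Real.sqrt ‖1 - ip z x‖)) ^ 2 := by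
          have : (p0 * q0 + p1 * q1) ^ 2 ≤ (p0 ^ 2 + p1 ^ 2) * (q0 ^ 2 + q1 ^ 2) := by
            nlinarith [sq_nonneg (p0 * q1 - p1 * q0)]
          refine this.trans ((mul_le_mul P Q (by positivity) (by positivity)).trans (le_of_eq ?_))
          rw [mul_pow, mul_pow, Real.sq_sqrt (norm_nonneg _), Real.sq_sqrt (norm_nonneg _)]
          ring
        have cs' := abs_le_of_sq_le_sq cs (by positivity)
        rw [dec]
        refine (norm_add_le _ _).trans (add_le_add ((norm_add_le _ _).trans (add_le_add ?_ ?_)) ?_)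
        · rw [norm_sub_rev, norm_one_sub_ip_comm]
        · rw [Complex.norm_real, Real.norm_eq_abs, abs_of_nonneg (by linarith)]; linarith
        · refine (norm_add_le _ _).trans ?_
          rw [norm_mul, norm_mul, Complex.norm_conj, Complex.norm_conj]
          exact (le_abs_self _).trans cs'
      have hsq : Real.sqrt ‖1 - ip z e‖ * Real.sqrt ‖1 - ip z x‖ ≤ δ / 32 := by
        rw [← Real.sqrt_mul (norm_nonneg _)]
        rw [Real.sqrt_le_left (by linarith)]
        refine (mul_le_mul hA hB (norm_nonneg _) (by linarith)).trans ?_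
        nlinarith
      have := norm_sub_le_norm_sub_add_norm_sub (ip e x) (ip z x) (r : ℂ)
      linarith
    · rw [Metric.mem_ball, dist_eq_norm, norm_sub_rev]
      linarith
  have h := (measure_mono (μ := volume) sub).trans (measure_biUnion_finset_le T _)
  rw [volume_slice_eq hV ht ht' hx _ (by linarith) (by
    rw [Complex.norm_real, Real.norm_eq_abs, abs_of_nonneg (by linarith)]; linarith)] at h
  have h' := h.trans (Finset.sum_le_sum fun e he =>
    volume_slice_le hV ht ht' (hsph e (Finset.mem_filter.1 he).1) 1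
      (show (0 : ℝ) ≤ 2100 * t by positivity))
  rw [Finset.sum_const, nsmul_eq_mul, ← ENNReal.ofReal_natCast,
    ← ENNReal.ofReal_mul (by positivity), ENNReal.ofReal_le_ofReal_iff (by positivity)] at h'
  have hpi : 0 < π * t * π := by positivity
  have h2 : (δ / 16) ^ 2 ≤ (T.card : ℝ) * (2100 * t) ^ 2 :=
    le_of_mul_le_mul_left (by linarith) hpi
  rw [one_div_mul_eq_div, div_le_iff₀ (by positivity)]
  linarith

end Vale.Agent.P250.Full
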