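import Vale.Agent.P250.Full.Spec

/-!
One-variable estimates of the P250 example: the profile and a single corrected cell.
-/

namespace Vale.Agent.P250.Full

open Complex MeasureTheory Set Filter Topology
open scoped ComplexConjugate ContDiff Real

namespace OneVar

/-! ### The profile -/

theorem stp_eq_one {ρ v : ℝ} (hρ : 0 < ρ) (hv : 3 * ρ ^ 2 / 4 ≤ v) : stp ρ v = 1 := by
  refine Real.smoothTransition.one_of_one_le ?_
  rw [le_div_iff₀ (by positivity)]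
  linarith

theorem stp_eq_zero {ρ v : ℝ} (hρ : 0 < ρ) (hv : v ≤ ρ ^ 2 / 4) : stp ρ v = 0 :=
  Real.smoothTransition.zero_of_nonpos
    (div_nonpos_of_nonpos_of_nonneg (by linarith) (by positivity))

theorem stp_nonneg (ρ v : ℝ) : 0 ≤ stp ρ v := Real.smoothTransition.nonneg _

theorem stp_le_one (ρ v : ℝ) : stp ρ v ≤ 1 := Real.smoothTransition.le_one _

theorem stp_contDiff (ρ : ℝ) {n : ℕ∞} : ContDiff ℝ n (stp ρ) :=
  Real.smoothTransition.contDiff.comp ((contDiff_id.sub contDiff_const).div_const _)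

theorem stp_div_contDiff {ρ : ℝ} (hρ : 0 < ρ) {n : ℕ∞} :
    ContDiff ℝ n fun v => stp ρ v / v := by
  refine contDiff_iff_contDiffAt.2 fun v => ?_
  rcases eq_or_ne v 0 with rfl | hv
  · refine (contDiffAt_const (c := (0 : ℝ))).congr_of_eventuallyEq ?_
    filter_upwards [eventually_lt_nhds (show (0 : ℝ) < ρ ^ 2 / 4 by positivity)] with w hw
    simp [stp_eq_zero hρ hw.le]
  · exact (stp_contDiff ρ).contDiffAt.div contDiffAt_id hv

theorem prof_hasDerivAt {ρ : ℝ} (hρ : 0 < ρ) (x : ℝ) :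
    HasDerivAt (Full.prof ρ) (stp ρ x / x) x := by
  have hc : Continuous fun v => stp ρ v / v := (stp_div_contDiff hρ (n := 0)).continuous
  have h := intervalIntegral.integral_hasDerivAt_left (hc.intervalIntegrable x 1)
    hc.aestronglyMeasurable.stronglyMeasurableAtFilter hc.continuousAt
  have h' : HasDerivAt (fun x => -∫ v in x..1, stp ρ v / v) (stp ρ x / x) x :=
    h.fun_neg.congr_deriv (neg_neg _)
  exact h'

theorem prof_deriv {ρ : ℝ} (hρ : 0 < ρ) : deriv (Full.prof ρ) = fun x => stp ρ x / x :=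
  funext fun x => (prof_hasDerivAt hρ x).deriv

theorem prof_contDiff {ρ : ℝ} (hρ : 0 < ρ) : ContDiff ℝ ∞ (Full.prof ρ) :=
  contDiff_infty_iff_deriv.2 ⟨fun x => (prof_hasDerivAt hρ x).differentiableAt,
    by rw [prof_deriv hρ]; exact stp_div_contDiff hρ⟩

theorem stp_div_nonneg {ρ : ℝ} (hρ : 0 < ρ) (x : ℝ) : 0 ≤ stp ρ x / x := by
  rcases le_total x (ρ ^ 2 / 4) with h | h
  · simp [stp_eq_zero hρ h]
  · exact div_nonneg (stp_nonneg ρ x) ((by positivity : (0 : ℝ) ≤ ρ ^ 2 / 4).trans h)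

theorem stp_div_le {ρ : ℝ} (hρ : 0 < ρ) (x : ℝ) : stp ρ x / x ≤ 4 / ρ ^ 2 := by
  rcases le_total x (ρ ^ 2 / 4) with h | h
  · simp [stp_eq_zero hρ h]
    positivity
  · refine (div_le_div₀ zero_le_one (stp_le_one ρ x) (by positivity) h).trans (le_of_eq ?_)
    field_simp

theorem prof_mono {ρ : ℝ} (hρ : 0 < ρ) : Monotone (Full.prof ρ) :=
  monotone_of_hasDerivAt_nonneg (fun x => prof_hasDerivAt hρ x) fun x => stp_div_nonneg hρ x

theorem prof_lipschitz {ρ : ℝ} (hρ : 0 < ρ) (x y : ℝ) :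
    |Full.prof ρ x - Full.prof ρ y| ≤ 4 / ρ ^ 2 * |x - y| := by
  have h := (convex_univ (𝕜 := ℝ)).norm_image_sub_le_of_norm_hasDerivWithin_le
    (C := 4 / ρ ^ 2) (fun z _ => (prof_hasDerivAt hρ z).hasDerivWithinAt)
    (fun z _ => by
      rw [Real.norm_eq_abs, abs_of_nonneg (stp_div_nonneg hρ z)]
      exact stp_div_le hρ z) (mem_univ y) (mem_univ x)
  simpa only [Real.norm_eq_abs] using h

theorem prof_eq_log {ρ x : ℝ} (hρ : 0 < ρ) (hρ' : ρ ≤ 1) (hx : 3 * ρ ^ 2 / 4 ≤ x) :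
    Full.prof ρ x = Real.log x := by
  have hx0 : 0 < x := lt_of_lt_of_le (by positivity) hx
  rw [Full.prof, intervalIntegral.integral_congr (g := fun v => v⁻¹), integral_inv_of_pos hx0 one_pos,
    one_div, Real.log_inv, neg_neg]
  intro v hv
  have hv' : 3 * ρ ^ 2 / 4 ≤ v := by
    refine le_trans ?_ hv.1
    exact le_min hx (by nlinarith)
  simp [stp_eq_one hρ hv']

theorem prof_nonpos {ρ x : ℝ} (hρ : 0 < ρ) (hx1 : x ≤ 1) : Full.prof ρ x ≤ 0 := by
  refine (prof_mono hρ hx1).trans (le_of_eq ?_)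
  simp [Full.prof]

theorem prof_le_log {ρ x : ℝ} (hρ : 0 < ρ) (hρ' : ρ ≤ 1) (hx : x ≤ ρ ^ 2 / 4) :
    Full.prof ρ x ≤ Real.log (3 * ρ ^ 2 / 4) := by
  rw [← prof_eq_log hρ hρ' le_rfl]
  exact prof_mono hρ (by nlinarith [sq_nonneg ρ])

/-! ### The cell map in the small variable -/

/-- The first four terms of `-log (1 - v)`. -/
noncomputable def head4 (v : ℂ) : ℂ := v + v ^ 2 / 2 + v ^ 3 / 3 + v ^ 4 / 4

theorem head4_eq (v : ℂ) : ∑ k ∈ Finset.range 4, v ^ (k + 1) / (k + 1) = head4 v := by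
  simp only [Finset.sum_range_succ, Finset.sum_range_zero, head4]
  push_cast
  ring

theorem head4_hasDerivAt (v : ℂ) : HasDerivAt head4 (1 + v + v ^ 2 + v ^ 3) v := by
  have h := ((((hasDerivAt_id' v).fun_add ((hasDerivAt_pow 2 v).div_const 2)).fun_add
    ((hasDerivAt_pow 3 v).div_const 3)).fun_add ((hasDerivAt_pow 4 v).div_const 4))
  refine h.congr_deriv ?_
  push_cast
  ring

theorem norm_head4_deriv_le {v : ℂ} (hv : ‖v‖ ≤ 2) : ‖1 + v + v ^ 2 + v ^ 3‖ ≤ 15 := by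
  refine (norm_add₃_le.trans (add_le_add le_rfl le_rfl)).trans ?_
  have h1 := norm_add_le (1 : ℂ) v
  have h2 : ‖v ^ 2‖ ≤ 2 ^ 2 := by rw [norm_pow]; gcongr
  have h3 : ‖v ^ 3‖ ≤ 2 ^ 3 := by rw [norm_pow]; gcongr
  rw [norm_one] at h1
  linarith

theorem norm_head4_le {v : ℂ} (hv : ‖v‖ ≤ 2) : ‖head4 v‖ ≤ 30 := by
  have h := (convex_closedBall (0 : ℂ) 2).norm_image_sub_le_of_norm_hasDerivWithin_le
    (fun z _ => (head4_hasDerivAt z).hasDerivWithinAt)
    (fun z hz => norm_head4_deriv_le (mem_closedBall_zero_iff.1 hz))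
    (Metric.mem_closedBall_self (by norm_num)) (mem_closedBall_zero_iff.2 hv)
  have h0 : head4 0 = 0 := by simp [head4]
  rw [h0, sub_zero, sub_zero] at h
  nlinarith

/-- `log (1 - v)` with four terms removed. -/
noncomputable def rem5 (v : ℂ) : ℂ := Complex.log (1 - v) + head4 v

theorem rem5_hasDerivAt {v : ℂ} (hv : ‖v‖ < 1) : HasDerivAt rem5 (-(v ^ 4) / (1 - v)) v := by
  have hs : 1 - v ∈ slitPlane := by
    refine Or.inl ?_
    rw [sub_re, one_re]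
    linarith [(le_abs_self v.re).trans (Complex.abs_re_le_norm v)]
  have hne : 1 - v ≠ 0 := slitPlane_ne_zero hs
  have h := (((hasDerivAt_id' v).const_sub (1 : ℂ)).clog hs).fun_add (head4_hasDerivAt v)
  refine h.congr_deriv ?_
  field_simp
  ring

theorem rem5_lipschitz {M : ℝ} (hM : M ≤ 1 / 8) {v v' : ℂ} (hv : ‖v‖ ≤ M) (hv' : ‖v'‖ ≤ M) :
    ‖rem5 v' - rem5 v‖ ≤ 2 * M ^ 4 * ‖v' - v‖ := by
  refine (convex_closedBall (0 : ℂ) M).norm_image_sub_le_of_norm_hasDerivWithin_le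
    (f' := fun z => -(z ^ 4) / (1 - z))
    (fun z hz => ?_) (fun z hz => ?_)
    (mem_closedBall_zero_iff.2 hv) (mem_closedBall_zero_iff.2 hv')
  · exact (rem5_hasDerivAt (lt_of_le_of_lt ((mem_closedBall_zero_iff.1 hz).trans hM)
      (by norm_num))).hasDerivWithinAt
  · have hz' := mem_closedBall_zero_iff.1 hz
    have h1 : 1 / 2 ≤ ‖1 - z‖ := by
      have := norm_sub_norm_le (1 : ℂ) z
      rw [norm_one] at this
      linarith
    rw [norm_div, norm_neg, norm_pow, div_le_iff₀ (by linarith)]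
    have h2 : ‖z‖ ^ 4 ≤ M ^ 4 := by gcongr
    have h3 : 0 ≤ M ^ 4 := by positivity
    nlinarith

theorem rem5_bound {v : ℂ} (hv : ‖v‖ ≤ 1 / 8) : ‖rem5 v‖ ≤ 2 * ‖v‖ ^ 5 := by
  have h := rem5_lipschitz hv (v := 0) (v' := v) (by simp) le_rfl
  have h0 : rem5 0 = 0 := by simp [rem5, head4]
  rw [h0, sub_zero, sub_zero] at h
  calc ‖rem5 v‖ ≤ 2 * ‖v‖ ^ 4 * ‖v‖ := h
    _ = 2 * ‖v‖ ^ 5 := by ring

theorem av_bounds {t : ℝ} (ht : 0 < t) (ht' : t ≤ 1 / 1000) :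
    1 / 2 ≤ av t ∧ t ≤ 1 - av t ∧ av t < 1 := by
  have h : (0 : ℝ) < 1 + t := by linarith
  have e : 1 - av t = 2 * t / (1 + t) := by rw [av]; field_simp; ring
  refine ⟨?_, ?_, ?_⟩
  · rw [av, le_div_iff₀ h]; linarith
  · rw [e, le_div_iff₀ h]; nlinarith
  · rw [av, div_lt_one h]; linarith

theorem den_bound {a : ℝ} (ha : 0 ≤ a) {s : ℂ} (hs : ‖s‖ < 1) :
    1 - a ≤ ‖1 - (a : ℂ) * s‖ := by
  have := norm_sub_norm_le (1 : ℂ) ((a : ℂ) * s)
  rw [norm_one, norm_mul, Complex.norm_of_nonneg ha] at this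
  nlinarith

theorem cell_geom {t : ℝ} (ht : 0 < t) (ht' : t ≤ 1 / 1000) {s : ℂ} (hs : ‖s‖ < 1) :
    1 - (av t : ℂ) * s ≠ 0 ∧ ‖vc t s‖ ≤ 2 ∧ bc t s = (1 - vc t s) / (av t : ℂ) ∧
      normSq (bc t s) ≤ 1 := by
  obtain ⟨ha, ha2, ha1⟩ := av_bounds ht ht'
  have hd := den_bound (by linarith : 0 ≤ av t) hs
  have hne : 1 - (av t : ℂ) * s ≠ 0 := norm_pos_iff.1 (by linarith)
  have haC : (av t : ℂ) ≠ 0 := Complex.ofReal_ne_zero.2 (by linarith)
  refine ⟨hne, ?_, ?_, ?_⟩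
  · rw [vc, norm_div, show (1 : ℂ) - (av t : ℂ) ^ 2 = ((1 - av t ^ 2 : ℝ) : ℂ) by push_cast; ring,
      Complex.norm_of_nonneg (by nlinarith), div_le_iff₀ (norm_pos_iff.2 hne)]
    nlinarith
  · rw [bc, vc]
    generalize hd' : 1 - (av t : ℂ) * s = d at hne
    field_simp
    subst hd'
    ring
  · rw [bc, Complex.normSq_div, div_le_one (normSq_pos.2 hne)]
    have e : normSq (1 - (av t : ℂ) * s) - normSq ((av t : ℂ) - s)
        = (1 - av t ^ 2) * (1 - ‖s‖ ^ 2) := by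
      rw [← Complex.normSq_eq_norm_sq]
      simp only [normSq_apply, sub_re, sub_im, one_re, one_im, mul_re, mul_im, ofReal_re, ofReal_im]
      ring
    nlinarith [mul_nonneg (show 0 ≤ 1 - av t ^ 2 by nlinarith)
      (show 0 ≤ 1 - ‖s‖ ^ 2 by nlinarith [norm_nonneg s])]

theorem cell1_eq {ρ t : ℝ} (s : ℂ) :
    cell1 ρ t s = Full.prof ρ (normSq (bc t s)) + 2 * (head4 (vc t s)).re + 2 * Real.log (av t) := by
  rw [cell1, head4_eq]

/-- Off the strip a cell is the real part of `rem5`. -/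
theorem cell1_small {ρ t : ℝ} (hρ : 0 < ρ) (hρ' : ρ ≤ 1 / 10) (ht : 0 < t) (ht' : t ≤ 1 / 1000)
    {s : ℂ} (hs : ‖s‖ < 1) (hv : ‖vc t s‖ ≤ 1 / 8) :
    cell1 ρ t s = 2 * (rem5 (vc t s)).re := by
  obtain ⟨ha, -, ha1⟩ := av_bounds ht ht'
  obtain ⟨-, -, hb, -⟩ := cell_geom ht ht' hs
  have h78 : 7 / 8 ≤ ‖1 - vc t s‖ := by
    have := norm_sub_norm_le (1 : ℂ) (vc t s)
    rw [norm_one] at this
    linarith
  have hbn : ‖bc t s‖ = ‖1 - vc t s‖ / av t := by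
    rw [hb, norm_div, Complex.norm_of_nonneg (by linarith : 0 ≤ av t)]
  have hb78 : 7 / 8 ≤ ‖bc t s‖ := by
    rw [hbn, le_div_iff₀ (by linarith)]; nlinarith
  rw [cell1_eq, prof_eq_log hρ (by linarith) (by rw [Complex.normSq_eq_norm_sq]; nlinarith), rem5,
    add_re, Complex.log_re, Complex.normSq_eq_norm_sq, hbn, Real.log_pow,
    Real.log_div (by linarith) (by linarith)]
  push_cast
  ring

/-- Two nearby values of a cell, compared in the small variable. -/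
theorem cell1_diff {ρ t : ℝ} (hρ : 0 < ρ) (hρ' : ρ ≤ 1 / 10) (ht : 0 < t) (ht' : t ≤ 1 / 1000)
    {s s' : ℂ} (hs : ‖s‖ < 1) (hs' : ‖s'‖ < 1) {M : ℝ} (hM : ‖vc t s‖ ≤ M) (hM' : ‖vc t s'‖ ≤ M) :
    |cell1 ρ t s' - cell1 ρ t s| ≤ 4096 * (16 / ρ ^ 2 + 30) * M ^ 4 * ‖vc t s' - vc t s‖ := by
  have hK : (16 : ℝ) / ρ ^ 2 + 30 ≥ 30 := by
    have : 0 ≤ 16 / ρ ^ 2 := by positivity
    linarith
  have hM4 : 0 ≤ M ^ 4 := by positivity
  have hn : 0 ≤ ‖vc t s' - vc t s‖ := norm_nonneg _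
  rcases le_or_gt M (1 / 8) with h | h
  · rw [cell1_small hρ hρ' ht ht' hs' (hM'.trans h), cell1_small hρ hρ' ht ht' hs (hM.trans h),
      ← mul_sub, ← sub_re, abs_mul, abs_two]
    refine (mul_le_mul_of_nonneg_left ((Complex.abs_re_le_norm _).trans (rem5_lipschitz h hM hM'))
      (by norm_num)).trans ?_
    have : 0 ≤ M ^ 4 * ‖vc t s' - vc t s‖ := mul_nonneg hM4 hn
    nlinarith
  obtain ⟨ha, -, ha1⟩ := av_bounds ht ht'
  obtain ⟨-, hv2, hb, hb1⟩ := cell_geom ht ht' hs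
  obtain ⟨-, hv2', hb', hb1'⟩ := cell_geom ht ht' hs'
  have hbd : ‖bc t s' - bc t s‖ ≤ 2 * ‖vc t s' - vc t s‖ := by
    rw [hb', hb, ← sub_div, sub_sub_sub_cancel_left, norm_div, norm_sub_rev,
      Complex.norm_of_nonneg (by linarith : 0 ≤ av t), div_le_iff₀ (by linarith)]
    nlinarith
  have hle : ∀ z : ℂ, normSq z ≤ 1 → ‖z‖ ≤ 1 := fun z hz => by
    rw [Complex.normSq_eq_norm_sq] at hz
    nlinarith [norm_nonneg z]
  have hx : |normSq (bc t s') - normSq (bc t s)| ≤ 4 * ‖vc t s' - vc t s‖ := by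
    have e : normSq (bc t s') - normSq (bc t s)
        = (‖bc t s'‖ - ‖bc t s‖) * (‖bc t s'‖ + ‖bc t s‖) := by
      rw [Complex.normSq_eq_norm_sq, Complex.normSq_eq_norm_sq]; ring
    rw [e, abs_mul, abs_of_nonneg (add_nonneg (norm_nonneg _) (norm_nonneg _))]
    refine (mul_le_mul ((abs_norm_sub_norm_le _ _).trans hbd)
      (add_le_add (hle _ hb1') (hle _ hb1)) (by positivity) (by positivity)).trans ?_
    linarith
  have hp := (prof_lipschitz hρ _ _).trans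
    (mul_le_mul_of_nonneg_left hx (by positivity : (0 : ℝ) ≤ 4 / ρ ^ 2))
  have hh := (convex_closedBall (0 : ℂ) 2).norm_image_sub_le_of_norm_hasDerivWithin_le
    (fun z _ => (head4_hasDerivAt z).hasDerivWithinAt)
    (fun z hz => norm_head4_deriv_le (mem_closedBall_zero_iff.1 hz))
    (mem_closedBall_zero_iff.2 hv2) (mem_closedBall_zero_iff.2 hv2')
  have hre := (Complex.abs_re_le_norm (head4 (vc t s') - head4 (vc t s))).trans hh
  rw [sub_re] at hre
  have h1 : 1 ≤ 4096 * M ^ 4 := by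
    have : (1 / 8 : ℝ) ^ 4 ≤ M ^ 4 := by gcongr
    linarith
  rw [cell1_eq, cell1_eq]
  calc |Full.prof ρ (normSq (bc t s')) + 2 * (head4 (vc t s')).re + 2 * Real.log (av t)
        - (Full.prof ρ (normSq (bc t s)) + 2 * (head4 (vc t s)).re + 2 * Real.log (av t))|
      ≤ |Full.prof ρ (normSq (bc t s')) - Full.prof ρ (normSq (bc t s))|
        + |2 * ((head4 (vc t s')).re - (head4 (vc t s)).re)| := by
        refine le_trans (le_of_eq ?_) (abs_add_le _ _)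
        ring_nf
    _ ≤ 4 / ρ ^ 2 * (4 * ‖vc t s' - vc t s‖) + 2 * (15 * ‖vc t s' - vc t s‖) := by
        rw [abs_mul, abs_two]
        exact add_le_add hp (mul_le_mul_of_nonneg_left hre (by norm_num))
    _ = 1 * ((16 / ρ ^ 2 + 30) * ‖vc t s' - vc t s‖) := by ring
    _ ≤ 4096 * M ^ 4 * ((16 / ρ ^ 2 + 30) * ‖vc t s' - vc t s‖) :=
        mul_le_mul_of_nonneg_right h1 (mul_nonneg (by linarith) hn)
    _ = _ := by ring

/-- The small variable at a nearby point. -/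
theorem vc_near {t : ℝ} (ht : 0 < t) (ht' : t ≤ 1 / 1000) {s s' : ℂ} (hs : ‖s‖ < 1)
    (hs' : ‖s'‖ < 1) (hd : ‖s - s'‖ ≤ ‖1 - (av t : ℂ) * s‖ / 2) :
    ‖vc t s'‖ ≤ 2 * ‖vc t s‖ ∧
      ‖vc t s' - vc t s‖ ≤ 2 * ‖vc t s‖ * ‖s - s'‖ / ‖1 - (av t : ℂ) * s‖ := by
  obtain ⟨ha, -, ha1⟩ := av_bounds ht ht'
  obtain ⟨hne, -⟩ := cell_geom ht ht' hs
  obtain ⟨hne', -⟩ := cell_geom ht ht' hs'
  set w := 1 - (av t : ℂ) * s with hw
  set w' := 1 - (av t : ℂ) * s' with hw'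
  have hw0 : 0 < ‖w‖ := norm_pos_iff.2 hne
  have hww : ‖w' - w‖ ≤ ‖s - s'‖ := by
    rw [show w' - w = (av t : ℂ) * (s - s') by rw [hw, hw']; ring, norm_mul,
      Complex.norm_of_nonneg (by linarith : 0 ≤ av t)]
    exact mul_le_of_le_one_left (norm_nonneg _) ha1.le
  have hhalf : ‖w‖ / 2 ≤ ‖w'‖ := by
    linarith [norm_sub_norm_le w w', norm_sub_rev w w']
  have hrat : ‖vc t s'‖ = ‖vc t s‖ * (‖w‖ / ‖w'‖) := by
    rw [vc, vc, norm_div, norm_div, ← hw, ← hw']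
    field_simp
  have h2 : ‖w‖ / ‖w'‖ ≤ 2 := by rw [div_le_iff₀ (by linarith)]; linarith
  constructor
  · rw [hrat]; nlinarith [norm_nonneg (vc t s)]
  · have e : vc t s' - vc t s = vc t s * ((w - w') / w') := by
      rw [vc, vc, ← hw, ← hw']
      field_simp
    rw [e, norm_mul, norm_div, norm_sub_rev, mul_div_assoc, mul_comm (2 : ℝ), mul_assoc]
    refine mul_le_mul_of_nonneg_left ?_ (norm_nonneg _)
    calc ‖w' - w‖ / ‖w'‖ ≤ ‖s - s'‖ / (‖w‖ / 2) :=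
          div_le_div₀ (norm_nonneg _) hww (by linarith) hhalf
      _ = 2 * (‖s - s'‖ / ‖w‖) := by field_simp

end OneVar

open OneVar

theorem prof_spec : ProfStmt := fun _ρ hρ hρ' =>
  ⟨prof_contDiff hρ, fun _x hx => prof_eq_log hρ (by linarith) hx,
    fun _x _ hx1 => prof_nonpos hρ hx1, fun _x _ hx => prof_le_log hρ (by linarith) hx⟩

theorem cell_spec : CellStmt := by
  constructor
  · refine ⟨3000000, by norm_num, fun ρ t hρ hρ' ht ht' s hs => ?_⟩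
    obtain ⟨ha, ha2, ha1⟩ := av_bounds ht ht'
    obtain ⟨hne, hv2, -, hb1⟩ := cell_geom ht ht' hs
    have h5 : 0 ≤ ‖vc t s‖ ^ 5 := by positivity
    have hsmall : ‖vc t s‖ ≤ 1 / 8 → |cell1 ρ t s| ≤ 3000000 * ‖vc t s‖ ^ 5 := by
      intro h
      rw [cell1_small hρ hρ' ht ht' hs h, abs_mul, abs_two]
      linarith [(Complex.abs_re_le_norm _).trans (rem5_bound h)]
    have hcr : cell1 ρ t s ≤ Full.prof ρ (normSq (bc t s)) + 60 := by
      rw [cell1_eq]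
      linarith [((le_abs_self _).trans (Complex.abs_re_le_norm _)).trans (norm_head4_le hv2),
        Real.log_nonpos (by linarith) ha1.le]
    refine ⟨?_, hsmall, fun hd => ?_⟩
    · rcases le_or_gt ‖vc t s‖ (1 / 8) with h | h
      · exact (le_abs_self _).trans (hsmall h)
      · have h85 : (1 / 8 : ℝ) ^ 5 ≤ ‖vc t s‖ ^ 5 := by gcongr
        linarith [prof_nonpos hρ hb1]
    · have hden := den_bound (by linarith : 0 ≤ av t) hs
      have hb : ‖bc t s‖ ≤ ρ / 4 := by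
        rw [bc, norm_div, norm_sub_rev, div_le_iff₀ (by linarith)]
        nlinarith
      have hp := prof_le_log (x := normSq (bc t s)) hρ (by linarith) (by
        rw [Complex.normSq_eq_norm_sq]; nlinarith [norm_nonneg (bc t s)])
      have hl : Real.log (3 * ρ ^ 2 / 4) ≤ 2 * Real.log ρ := by
        rw [show 3 * ρ ^ 2 / 4 = 3 / 4 * ρ ^ 2 by ring, Real.log_mul (by norm_num) (by positivity),
          Real.log_pow]
        push_cast
        linarith [Real.log_nonpos (by norm_num : (0 : ℝ) ≤ 3 / 4) (by norm_num)]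
      linarith
  · intro ρ hρ hρ'
    refine ⟨32 * (4096 * (16 / ρ ^ 2 + 30)), by positivity, fun t ht ht' s s' hs hs' hd => ?_⟩
    obtain ⟨h1, h2⟩ := vc_near ht ht' hs hs' hd
    have h := cell1_diff hρ hρ' ht ht' hs hs' (M := 2 * ‖vc t s‖)
      (by linarith [norm_nonneg (vc t s)]) h1
    refine h.trans ((mul_le_mul_of_nonneg_left h2 (by positivity)).trans (le_of_eq ?_))
    ring

end Vale.Agent.P250.Full
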