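import Vale.Agent.P250.Full.Shells.Frame
import Vale.Agent.P250.Full.Shells.Mean
import Vale.Agent.P250.Full.Sphere.Green

/-!
Slice volumes and slice mean values in shells.
-/

namespace Vale.Agent.P250.Full

open Complex MeasureTheory Set Shells
open scoped ComplexConjugate ContDiff Real ENNReal

/-- Slice volumes in a shell. -/
theorem shellVolume : ShellVolumeStmt := by
  intro R' R h' hR e he E hE
  have hmeas : MeasurableSet (frame e ⁻¹' sliceSet R' R e E) :=
    (continuous_frame e).measurable (measurableSet_sliceSet hE e)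
  have hvol : volume (sliceSet R' R e E) = ∫⁻ s in E, volume (fib R' R s) := by
    rw [← (measurePreserving_frame he).measure_preimage
        (measurableSet_sliceSet hE e).nullMeasurableSet,
      Measure.volume_eq_prod, Measure.prod_apply hmeas, ← lintegral_indicator hE]
    refine lintegral_congr fun s => ?_
    rw [preimage_sliceSet he]
    by_cases hs : s ∈ E
    · rw [indicator_of_mem hs]
      exact congrArg volume (Set.ext fun w => and_iff_right hs)
    · rw [indicator_of_notMem hs, show Prod.mk s ⁻¹' {p : ℂ × ℂ | p.1 ∈ E ∧ p.2 ∈ fib R' R p.1}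
          = ∅ from eq_empty_of_forall_notMem fun w hw => hs hw.1, measure_empty]
  have hR2 : 0 < R ^ 2 - R' ^ 2 := by nlinarith
  have hin : ∀ s : ℂ, ‖s‖ ≤ R' →
      volume (fib R' R s) = ENNReal.ofReal (π * (R ^ 2 - R' ^ 2)) := fun s hs => by
    have hs2 := pow_le_pow_left₀ (norm_nonneg s) hs 2
    rw [show fib R' R s = {w : ℂ | R' ^ 2 - ‖s‖ ^ 2 < ‖w‖ ^ 2 ∧ ‖w‖ ^ 2 < R ^ 2 - ‖s‖ ^ 2} by
        ext w; simp only [fib, mem_ofPred_eq, sub_lt_iff_lt_add', lt_sub_iff_add_lt'],
      volume_annulus (by linarith) (by linarith)]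
    congr 1
    ring
  constructor
  · rw [hvol, ← setLIntegral_const]
    refine setLIntegral_mono' hE fun s _ => ?_
    rcases le_or_gt ‖s‖ R' with hs | hs
    · exact (hin s hs).le
    · refine (measure_mono (t := Metric.ball (0 : ℂ) (Real.sqrt (R ^ 2 - R' ^ 2)))
        fun w hw => ?_).trans (volume_disc hR2.le).le
      rw [mem_ball_zero_iff, Real.lt_sqrt (norm_nonneg w)]
      have := hw.2
      nlinarith [norm_nonneg s]
  · intro hsub
    rw [hvol, ← setLIntegral_const]
    exact setLIntegral_congr_fun hE fun s hs => hin s (mem_ball_zero_iff.1 (hsub hs)).le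

/-- The uniform measure on the part of a shell over a slice disc represents the centre. -/
theorem shellMean : ShellMeanStmt := by
  intro R' R r c h' hR hr hc e he V f hV hKV hf hph
  set E := Metric.ball c r with hEd
  have hmp := measurePreserving_frame he
  have hemb := measurableEmbedding_frame he
  have hmeas : MeasurableSet (frame e ⁻¹' sliceSet R' R e E) :=
    hemb.measurable (measurableSet_sliceSet measurableSet_ball e)
  have hcomp : IsCompact (cball2 R) := by
    refine Metric.isCompact_of_isClosed_isBounded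
      (isClosed_le (by unfold nsq; fun_prop) continuous_const)
      ((Metric.isBounded_closedBall (x := (0 : Fin 2 → ℂ)) (r := R)).subset fun z hz => ?_)
    rw [mem_closedBall_zero_iff, pi_norm_le_iff_of_nonneg (by linarith)]
    intro i
    refine (abs_le_of_sq_le_sq' ?_ (by linarith)).2
    have h2 : ‖z 0‖ ^ 2 + ‖z 1‖ ^ 2 ≤ R ^ 2 := by
      have h3 : nsq z ≤ R ^ 2 := hz
      simpa [nsq, normSq_eq_norm_sq] using h3
    fin_cases i <;> simp <;> nlinarith [sq_nonneg ‖z 0‖, sq_nonneg ‖z 1‖]
  have hint : IntegrableOn f (sliceSet R' R e E) :=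
    ((hf.continuousOn.mono hKV).integrableOn_compact hcomp).mono_set fun z hz => le_of_lt hz.1.2
  have hintP : Integrable ((frame e ⁻¹' sliceSet R' R e E).indicator (f ∘ frame e))
      (volume.prod volume) := by
    rw [← Measure.volume_eq_prod]
    exact (integrable_indicator_iff hmeas).2 ((hmp.integrableOn_comp_preimage hemb).2 hint)
  have hmem : ∀ s ∈ E, ‖s‖ < R' := fun s hs => by
    rw [hEd, mem_ball_iff_norm] at hs
    linarith [norm_le_norm_add_norm_sub' s c]
  have hfib : ∀ s ∈ E, ∫ w in fib R' R s, f (frame e (s, w))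
      = π * (R ^ 2 - R' ^ 2) * f (s • e) := fun s hs => by
    have hs2 := pow_lt_pow_left₀ (hmem s hs) (norm_nonneg s) two_ne_zero
    have hH : InnerProductSpace.HarmonicOnNhd (fun w : ℂ => f (s • e + w • perp e))
        (Metric.closedBall 0 (Real.sqrt (R ^ 2 - ‖s‖ ^ 2))) := fun w hw => by
      rw [mem_closedBall_zero_iff] at hw
      refine harmonicAt_line hV hf (s • e) (perp e) (fun z hz => hph z hz _) (hKV ?_)
      show nsq _ ≤ R ^ 2
      rw [nsq_frame he]
      have h1 := pow_le_pow_left₀ (norm_nonneg _) hw 2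
      rw [Real.sq_sqrt (by nlinarith)] at h1
      linarith
    rw [show fib R' R s = {w : ℂ | R' ^ 2 - ‖s‖ ^ 2 < ‖w‖ ^ 2 ∧ ‖w‖ ^ 2 < R ^ 2 - ‖s‖ ^ 2} by
      ext w; simp only [fib, mem_ofPred_eq, sub_lt_iff_lt_add', lt_sub_iff_add_lt']]
    simp only [frame]
    rw [integral_annulus (by linarith) (by nlinarith) hH]
    simp only [zero_smul, add_zero]
    ring
  rw [← hmp.setIntegral_preimage_emb hemb, ← integral_indicator hmeas, Measure.volume_eq_prod,
    show (fun p => (frame e ⁻¹' sliceSet R' R e E).indicator (fun x => f (frame e x)) p)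
      = (frame e ⁻¹' sliceSet R' R e E).indicator (f ∘ frame e) from rfl, integral_prod _ hintP]
  have hinner : (fun s => ∫ w, (frame e ⁻¹' sliceSet R' R e E).indicator (f ∘ frame e) (s, w))
      = E.indicator fun s => π * (R ^ 2 - R' ^ 2) * f (s • e) := by
    funext s
    rw [preimage_sliceSet he]
    by_cases hs : s ∈ E
    · rw [indicator_of_mem hs, ← hfib s hs, ← integral_indicator
        (s := fib R' R s) (by unfold fib; measurability)]
      refine integral_congr_ae (Filter.Eventually.of_forall fun w => ?_)
      by_cases hw : w ∈ fib R' R s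
      · simp only
        rw [indicator_of_mem hw, indicator_of_mem (show (s, w) ∈ {p : ℂ × ℂ | p.1 ∈ E ∧ p.2 ∈ fib R' R p.1} from ⟨hs, hw⟩)]
        rfl
      · simp only [indicator_of_notMem hw]
        exact indicator_of_notMem (fun h => hw h.2) _
    · rw [indicator_of_notMem hs]
      exact integral_eq_zero_of_ae (Filter.Eventually.of_forall fun w =>
        indicator_of_notMem (fun h => hs h.1) _)
  rw [hinner, integral_indicator measurableSet_ball, integral_const_mul]
  have hH : InnerProductSpace.HarmonicOnNhd (fun t : ℂ => f (c • e + t • e))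
      (Metric.closedBall 0 r) := fun t ht => by
    rw [mem_closedBall_zero_iff] at ht
    refine harmonicAt_line hV hf (c • e) e (fun z hz => hph z hz _) (hKV ?_)
    show nsq _ ≤ R ^ 2
    rw [← add_smul, show (c + t) • e = (c + t) • e + (0 : ℂ) • perp e by simp, nsq_frame he,
      norm_zero]
    have h1 := pow_le_pow_left₀ (norm_nonneg (c + t))
      ((norm_add_le c t).trans (by linarith : ‖c‖ + ‖t‖ ≤ R)) 2
    linarith
  have hout : ∫ s in E, f (s • e) = π * r ^ 2 * f (c • e) := by
    have h1 := (measurePreserving_add_left (volume : Measure ℂ) c).setIntegral_preimage_emb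
      (measurableEmbedding_addLeft c) (fun s => f (s • e)) E
    rw [show (fun x => c + x) ⁻¹' E = Metric.ball 0 r by
      ext x; simp [hEd]] at h1
    rw [← h1]
    simp only [add_smul]
    rw [integral_disc hr.le hH]
    simp
  rw [hout]
  ring

end Vale.Agent.P250.Full
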