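import Vale.Agent.P250.Full.Geometry
import Vale.Agent.P250.Full.Weight.Phi
import Vale.Agent.P250.Full.Shells
import Vale.Agent.P250.Full.NetsSum
import Vale.Agent.P250.Full.OneVar
import Vale.Agent.P250.Full.Model
import Vale.Agent.P250.Full.Complete
import Vale.Agent.P250.Full.Jacobian

/-!
Assembly of the negative answer.
-/

namespace Vale.Agent.P250.Full

open Complex
open scoped ComplexConjugate

theorem layerSum_holds : LayerSumStmt := layerSum shellVolume

theorem count_holds : CountStmt := count shellVolume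

theorem phi_holds : PhiStmt := Weight.phi_spec layerSum_holds

/-- The weight is plurisubharmonic. -/
theorem levQ_Phi_nonneg {ρ D N : ℝ} (h1 : 0 < ρ) (h2 : ρ ≤ 1 / 10) (hD : 7 ≤ D) (hN : 0 ≤ N) :
    ∀ z ∈ ball2, ∀ v, 0 ≤ levQ (Phi ρ D N) z v := by
  intro z hz v
  obtain ⟨hsm, hlev⟩ := phi_holds ρ D h1 h2 hD
  obtain ⟨M, hM⟩ := Geometry.exists_layer hD (sub_pos.2 (show nsq z < 1 from hz))
  have hd : 0 < 1 - nsq z := sub_pos.2 hz
  have hlb : ContDiffAt ℝ 2 lb z :=
    ((contDiffAt_const.sub Geometry.contDiff_nsq.contDiffAt).log hd.ne').neg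
  have hphi : ContDiffAt ℝ 2 (phi ρ D) z :=
    (hsm.contDiffAt (Geometry.isOpen_ball2.mem_nhds hz)).of_le (WithTop.coe_le_coe.2 le_top)
  have hgam : 0 ≤ ∑ n ∈ Finset.range M, ∑ e ∈ net (tl D (n + 1)),
      levQ (gam ρ (tl D (n + 1)) e) z v :=
    Finset.sum_nonneg fun n _ => Finset.sum_nonneg fun e he => by
      obtain ⟨C, -, h⟩ := Weight.layer ρ h1 h2
      exact (h _ (Geometry.tl_pos D _) (Geometry.tl_le hD n) z hz v).1 e
        ((isNet_net _ (Geometry.tl_pos D _)).1 e he)
  have hball : 0 ≤ levQ lb z v := by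
    have key : levQ lb z v = nsq v / (1 - nsq z) + normSq (ip v z) / (1 - nsq z) ^ 2 := by
      simp only [levQ, Calc.lev_lb hz, omb, Fin.sum_univ_two]
      simp [nsq, ip, normSq_apply, div_ofReal_re, div_ofReal_im, ← ofReal_pow]
      ring
    rw [key]
    exact add_nonneg (div_nonneg (Geometry.nsq_nonneg v) hd.le)
      (div_nonneg (normSq_nonneg _) (sq_nonneg _))
  have key : levQ (Phi ρ D N) z v = levQ lb z v + N *
      ∑ n ∈ Finset.range M, ∑ e ∈ net (tl D (n + 1)), levQ (gam ρ (tl D (n + 1)) e) z v := by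
    show levQ (fun q => lb q + N * phi ρ D q) z v = _
    simp only [levQ, Calc.lev_add hlb (contDiffAt_const.mul hphi), Calc.lev_const_mul hphi,
      hlev z hz M hM.le, Fin.sum_univ_two, add_mul, add_re, mul_assoc, re_ofReal_mul,
      Finset.sum_mul, re_sum, Finset.sum_add_distrib]
    ring
  rw [key]
  exact add_nonneg hball (mul_nonneg hN hgam)

/-- The negative answer, from the obstruction and the pinching. -/
theorem disproof_of (hS : StepStmt) (hPinch : PinchStmt) : Disproof := by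
  obtain ⟨ρ, D, N, h1, h2, hD, hN, hno⟩ := obstruction_of hS phi_holds
  have hBG : BoundedGeometry (Phi ρ D N) :=
    Geometry.geometry phi_holds prof_spec Weight.layer ρ D N h1 h2 hD hN
  have hpsh := levQ_Phi_nonneg h1 h2 hD hN
  obtain ⟨A, hA, hpinch⟩ := hPinch _ hBG
  obtain ⟨ho, hc, hsc, hK⟩ := kahler A _ (lt_of_lt_of_le one_pos hA) hBG.1 hpsh
  exact ⟨dom (Phi ρ D N), met A (Phi ρ D N), ho, hc, hsc, hK,
    complete kahler A _ hA hBG.1 hpsh, hpinch A le_rfl, hno⟩

end Vale.Agent.P250.Full
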