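import Vale.Agent.P250.Full.PinchAlg

/-!
The curvature tensor and the metric at a normalised point `(0, w)`, as explicit arrays.
-/

namespace Vale.Agent.P250.Full.Pinch

open Complex Finset
open scoped ComplexConjugate

/-- `none` for the fibre index, `some a` for a base index. -/
def part : Fin 3 → Option (Fin 2) := Fin.lastCases none some

/-- `τ = x / (1 - x)` at `(0, w)`. -/
noncomputable def tauc (w : ℂ) : ℝ := normSq w / (1 - normSq w)

/-- `1 / (1 - x)` at `(0, w)`. -/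
noncomputable def scal (w : ℂ) : ℝ := 1 / (1 - normSq w)

/-- The diagonal metric coefficients at `(0, w)`. -/
noncomputable def gdiag (A : ℝ) (θ : Fin 2 → ℝ) (w : ℂ) : Fin 3 → ℝ :=
  Fin.lastCases (scal w ^ 2) fun a => A + tauc w * θ a

/-- The base block. -/
noncomputable def baseT (A : ℝ) (θ : Fin 2 → ℝ) (T : Fin 2 → Fin 2 → Fin 2 → ℂ)
    (F : Fin 2 → Fin 2 → Fin 2 → Fin 2 → ℂ) (w : ℂ) (a b k l : Fin 2) : ℂ :=
  (A : ℂ) * ((if a = b ∧ k = l then 1 else 0) + (if a = l ∧ k = b then 1 else 0))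
    + ((tauc w * (1 + tauc w) : ℝ) : ℂ)
        * ((if a = b ∧ k = l then ((θ a * θ k : ℝ) : ℂ) else 0)
          + (if a = l ∧ k = b then ((θ a * θ k : ℝ) : ℂ) else 0))
    + (tauc w : ℂ) * F a b k l
    - ((tauc w ^ 2 : ℝ) : ℂ)
        * ∑ r, T a r k * conj (T b r l) / ((A + tauc w * θ r : ℝ) : ℂ)

/-- The block with one conjugate fibre index. -/
noncomputable def cubT (A : ℝ) (θ : Fin 2 → ℝ) (T : Fin 2 → Fin 2 → Fin 2 → ℂ) (w : ℂ)
    (a b k : Fin 2) : ℂ :=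
  ((scal w ^ 2 : ℝ) : ℂ) * w * (A : ℂ) * T a b k / ((A + tauc w * θ b : ℝ) : ℂ)

/-- The mixed block. -/
noncomputable def mixT (A : ℝ) (θ : Fin 2 → ℝ) (w : ℂ) (a b : Fin 2) : ℂ :=
  if a = b then
    ((scal w ^ 2 * ((1 + 2 * tauc w) * θ a
      - tauc w * (1 + tauc w) * θ a ^ 2 / (A + tauc w * θ a)) : ℝ) : ℂ)
  else 0

/-- The tensor `∂_k ∂̄_l g_ij - ∑ ∂_k g_ir g^rs ∂̄_l g_sj` at a normalised point. -/
noncomputable def tens (A : ℝ) (θ : Fin 2 → ℝ) (T : Fin 2 → Fin 2 → Fin 2 → ℂ)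
    (F : Fin 2 → Fin 2 → Fin 2 → Fin 2 → ℂ) (w : ℂ) (i j k l : Fin 3) : ℂ :=
  match part i, part j, part k, part l with
  | some a, some b, some c, some d => baseT A θ T F w a b c d
  | some a, some b, some c, none => cubT A θ T w a b c
  | some a, none, some c, some d => cubT A θ T w a d c
  | none, some b, some c, some d => conj (cubT A θ T w b c d)
  | some a, some b, none, some d => conj (cubT A θ T w b a d)
  | some a, some b, none, none => mixT A θ w a b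
  | none, none, some c, some d => mixT A θ w c d
  | some a, none, none, some d => mixT A θ w a d
  | none, some b, some c, none => mixT A θ w c b
  | none, none, none, none => ((2 * scal w ^ 4 : ℝ) : ℂ)
  | _, _, _, _ => 0

/-- The entry of `X ∧ conj Y`. -/
noncomputable def wedge (X Y : Fin 3 → ℂ) (i j : Fin 3) : ℂ := X i * conj (Y j) - Y i * conj (X j)

/-- The sectional numerator given by the tensor. -/
noncomputable def curvForm (A : ℝ) (θ : Fin 2 → ℝ) (T : Fin 2 → Fin 2 → Fin 2 → ℂ)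
    (F : Fin 2 → Fin 2 → Fin 2 → Fin 2 → ℂ) (w : ℂ) (X Y : Fin 3 → ℂ) : ℝ :=
  (∑ i, ∑ j, ∑ k, ∑ l, tens A θ T F w i j k l * wedge X Y i j * wedge X Y k l).re / 2

/-- The squared area for a diagonal metric. -/
noncomputable def diagArea (g : Fin 3 → ℝ) (X Y : Fin 3 → ℂ) : ℝ :=
  (∑ i, g i * normSq (X i)) * (∑ i, g i * normSq (Y i))
    - (∑ i, (g i : ℂ) * X i * conj (Y i)).re ^ 2

/-- The normalised pinching statement consumed by the reduction. -/
def CoreStmt : Prop :=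
  ∀ Θ K : ℝ, 1 ≤ Θ → 0 ≤ K → ∃ A₀ : ℝ, 1 ≤ A₀ ∧ ∀ A : ℝ, A₀ ≤ A → ∃ a b : ℝ, 0 < a ∧ a ≤ b ∧
    ∀ (θ : Fin 2 → ℝ) (T : Fin 2 → Fin 2 → Fin 2 → ℂ) (F : Fin 2 → Fin 2 → Fin 2 → Fin 2 → ℂ)
      (w : ℂ), (∀ i, 1 ≤ θ i ∧ θ i ≤ Θ) → (∀ i j k, ‖T i j k‖ ≤ K) →
      (∀ i j k l, ‖F i j k l‖ ≤ K) → normSq w < 1 → ∀ X Y : Fin 3 → ℂ,
        -b * diagArea (gdiag A θ w) X Y ≤ curvForm A θ T F w X Y ∧
          curvForm A θ T F w X Y ≤ -a * diagArea (gdiag A θ w) X Y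

end Vale.Agent.P250.Full.Pinch
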