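import Vale.Agent.P250.Full.PinchTensorDefs

/-!
Pinching at a normalised point: the explicit tensor against the area form.
-/

namespace Vale.Agent.P250.Full.Pinch

open Complex Finset
open scoped ComplexConjugate

theorem sum_three_split {M : Type*} [AddCommMonoid M] (f : Fin 3 → M) :
    ∑ i, f i = (∑ a : Fin 2, f a.castSucc) + f (Fin.last 2) :=
  Fin.sum_univ_castSucc f

@[simp] theorem part_castSucc (a : Fin 2) : part a.castSucc = some a :=
  Fin.lastCases_castSucc (motive := fun _ => Option (Fin 2)) a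

@[simp] theorem part_last : part (Fin.last 2) = none :=
  Fin.lastCases_last (motive := fun _ => Option (Fin 2))

section Point

variable (A : ℝ) (θ : Fin 2 → ℝ) (T : Fin 2 → Fin 2 → Fin 2 → ℂ)
  (F : Fin 2 → Fin 2 → Fin 2 → Fin 2 → ℂ) (w : ℂ) (X Y : Fin 3 → ℂ)

/-- The square root of a base metric coefficient. -/
noncomputable def root (a : Fin 2) : ℝ := Real.sqrt (A + tauc w * θ a)

/-- A vector in the orthonormal frame. -/
noncomputable def unitv : Fin 3 → ℂ :=
  Fin.lastCases ((scal w : ℂ) * X (Fin.last 2)) fun a => (root A θ w a : ℂ) * X a.castSucc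

/-- The normalised base block of `-i (X ∧ conj Y)`. -/
noncomputable def hh (a b : Fin 2) : ℂ :=
  -I * wedge (unitv A θ w X) (unitv A θ w Y) a.castSucc b.castSucc

/-- The normalised side block. -/
noncomputable def kk (a : Fin 2) : ℂ :=
  -I * wedge (unitv A θ w X) (unitv A θ w Y) a.castSucc (Fin.last 2)

/-- The normalised fibre entry. -/
noncomputable def ff : ℝ :=
  (-I * wedge (unitv A θ w X) (unitv A θ w Y) (Fin.last 2) (Fin.last 2)).re

theorem unitv_castSucc (a : Fin 2) :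
    unitv A θ w X a.castSucc = (root A θ w a : ℂ) * X a.castSucc :=
  Fin.lastCases_castSucc (motive := fun _ => ℂ) a

theorem unitv_last : unitv A θ w X (Fin.last 2) = (scal w : ℂ) * X (Fin.last 2) :=
  Fin.lastCases_last (motive := fun _ => ℂ)

theorem wedge_herm (U V : Fin 3 → ℂ) (i j : Fin 3) :
    -I * wedge U V j i = conj (-I * wedge U V i j) := by
  simp only [wedge, map_mul, map_sub, map_neg, conj_I, conj_conj]
  ring

theorem hh_signature : Signature (hh A θ w X Y) := by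
  refine ⟨fun a b => wedge_herm _ _ _ _, ?_⟩
  set p := unitv A θ w X (Fin.castSucc 0)
  set p' := unitv A θ w X (Fin.castSucc 1)
  set q := unitv A θ w Y (Fin.castSucc 0)
  set q' := unitv A θ w Y (Fin.castSucc 1)
  have key : normSq (hh A θ w X Y 0 1) - (hh A θ w X Y 0 0).re * (hh A θ w X Y 1 1).re
      = normSq (p * q' - p' * q) := by
    simp only [hh, wedge, normSq_apply, mul_re, mul_im, sub_re, sub_im, neg_re, neg_im, conj_re,
      conj_im, I_re, I_im, p, p', q, q']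
    ring
  linarith [normSq_nonneg (p * q' - p' * q)]

variable {A θ w}

theorem wedge_base (hr : ∀ a, root A θ w a ≠ 0) (a b : Fin 2) :
    wedge X Y a.castSucc b.castSucc =
      I * hh A θ w X Y a b / ((root A θ w a * root A θ w b : ℝ) : ℂ) := by
  rw [eq_div_iff (by exact_mod_cast mul_ne_zero (hr a) (hr b))]
  simp only [hh, wedge, unitv_castSucc, map_mul, conj_ofReal, ofReal_mul]
  linear_combination ((root A θ w a : ℂ) * (root A θ w b : ℂ) *
    (X a.castSucc * conj (Y b.castSucc) - Y a.castSucc * conj (X b.castSucc))) * I_sq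

theorem wedge_side (hr : ∀ a, root A θ w a ≠ 0) (hs : scal w ≠ 0) (a : Fin 2) :
    wedge X Y a.castSucc (Fin.last 2) =
      I * kk A θ w X Y a / ((root A θ w a * scal w : ℝ) : ℂ) := by
  rw [eq_div_iff (by exact_mod_cast mul_ne_zero (hr a) hs)]
  simp only [kk, wedge, unitv_castSucc, unitv_last, map_mul, conj_ofReal, ofReal_mul]
  linear_combination ((root A θ w a : ℂ) * (scal w : ℂ) *
    (X a.castSucc * conj (Y (Fin.last 2)) - Y a.castSucc * conj (X (Fin.last 2)))) * I_sq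

theorem wedge_side' (hr : ∀ a, root A θ w a ≠ 0) (hs : scal w ≠ 0) (a : Fin 2) :
    wedge X Y (Fin.last 2) a.castSucc =
      I * conj (kk A θ w X Y a) / ((root A θ w a * scal w : ℝ) : ℂ) := by
  rw [eq_div_iff (by exact_mod_cast mul_ne_zero (hr a) hs)]
  simp only [kk, wedge, unitv_castSucc, unitv_last, map_mul, map_sub, map_neg, conj_ofReal,
    conj_conj, conj_I, ofReal_mul]
  linear_combination ((root A θ w a : ℂ) * (scal w : ℂ) *
    (X (Fin.last 2) * conj (Y a.castSucc) - Y (Fin.last 2) * conj (X a.castSucc))) * I_sq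

theorem wedge_fibre (hs : scal w ≠ 0) :
    wedge X Y (Fin.last 2) (Fin.last 2) = I * (ff A θ w X Y : ℂ) / ((scal w ^ 2 : ℝ) : ℂ) := by
  have hre : (ff A θ w X Y : ℂ) =
      -I * wedge (unitv A θ w X) (unitv A θ w Y) (Fin.last 2) (Fin.last 2) :=
    conj_eq_iff_re.1 (wedge_herm _ _ _ _).symm
  rw [hre, eq_div_iff (by exact_mod_cast pow_ne_zero 2 hs)]
  simp only [wedge, unitv_last, map_mul, conj_ofReal, ofReal_pow]
  linear_combination ((scal w : ℂ) ^ 2 *
    (X (Fin.last 2) * conj (Y (Fin.last 2)) - Y (Fin.last 2) * conj (X (Fin.last 2)))) * I_sq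

variable (A θ w)

/-- The part of the base block bounded by the jets. -/
noncomputable def restB : ℂ :=
  ∑ a : Fin 2, ∑ b : Fin 2, ∑ k : Fin 2, ∑ l : Fin 2,
    ((tauc w : ℂ) * F a b k l - ((tauc w ^ 2 : ℝ) : ℂ)
        * ∑ r, T a r k * conj (T b r l) / ((A + tauc w * θ r : ℝ) : ℂ))
      * wedge X Y a.castSucc b.castSucc * wedge X Y k.castSucc l.castSucc

/-- The four cubic blocks. -/
noncomputable def restC : ℂ :=
  (∑ a : Fin 2, ∑ b : Fin 2, ∑ k : Fin 2, cubT A θ T w a b k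
      * wedge X Y a.castSucc b.castSucc * wedge X Y k.castSucc (Fin.last 2))
    + (∑ a : Fin 2, ∑ k : Fin 2, ∑ l : Fin 2, cubT A θ T w a l k
      * wedge X Y a.castSucc (Fin.last 2) * wedge X Y k.castSucc l.castSucc)
    + (∑ a : Fin 2, ∑ b : Fin 2, ∑ l : Fin 2, conj (cubT A θ T w b a l)
      * wedge X Y a.castSucc b.castSucc * wedge X Y (Fin.last 2) l.castSucc)
    + (∑ b : Fin 2, ∑ k : Fin 2, ∑ l : Fin 2, conj (cubT A θ T w b k l)
      * wedge X Y (Fin.last 2) b.castSucc * wedge X Y k.castSucc l.castSucc)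

theorem sum_tens :
    (∑ i, ∑ j, ∑ k, ∑ l, tens A θ T F w i j k l * wedge X Y i j * wedge X Y k l) =
      (∑ a : Fin 2, ∑ b : Fin 2, ∑ k : Fin 2, ∑ l : Fin 2, baseT A θ T F w a b k l
        * wedge X Y a.castSucc b.castSucc * wedge X Y k.castSucc l.castSucc)
      + restC A θ T w X Y
      + ((∑ a : Fin 2, ∑ b : Fin 2, mixT A θ w a b * wedge X Y a.castSucc b.castSucc
            * wedge X Y (Fin.last 2) (Fin.last 2))
        + (∑ a : Fin 2, ∑ b : Fin 2, mixT A θ w a b * wedge X Y (Fin.last 2) (Fin.last 2)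
            * wedge X Y a.castSucc b.castSucc)
        + (∑ a : Fin 2, ∑ b : Fin 2, mixT A θ w a b * wedge X Y a.castSucc (Fin.last 2)
            * wedge X Y (Fin.last 2) b.castSucc)
        + (∑ b : Fin 2, ∑ a : Fin 2, mixT A θ w a b * wedge X Y (Fin.last 2) b.castSucc
            * wedge X Y a.castSucc (Fin.last 2))
        + ((2 * scal w ^ 4 : ℝ) : ℂ) * wedge X Y (Fin.last 2) (Fin.last 2)
            * wedge X Y (Fin.last 2) (Fin.last 2)) := by
  simp only [sum_three_split, tens, part_castSucc, part_last, restC, sum_add_distrib,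
    zero_mul, sum_const_zero, add_zero, zero_add]
  ring

theorem sum_delta (c : Fin 2 → Fin 2 → ℂ) (P : Fin 2 → Fin 2 → ℂ) :
    (∑ a, ∑ b, ∑ k, ∑ l, (if a = b ∧ k = l then c a k else 0) * P a b * P k l) =
        ∑ a, ∑ k, c a k * P a a * P k k ∧
      (∑ a, ∑ b, ∑ k, ∑ l, (if a = l ∧ k = b then c a k else 0) * P a b * P k l) =
        ∑ a, ∑ k, c a k * P a k * P k a := by
  constructor <;> simp [Fin.sum_univ_two]

theorem mix_eq (hA : 0 < A) (hτ : 0 ≤ tauc w) (hθ : ∀ a, 0 ≤ θ a) (hs : scal w ≠ 0) (a : Fin 2) :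
    scal w ^ 2 * ((1 + 2 * tauc w) * θ a
      - tauc w * (1 + tauc w) * θ a ^ 2 / (A + tauc w * θ a))
      = mix A (tauc w) θ a * (A + tauc w * θ a) * scal w ^ 2 := by
  have : 0 < A + tauc w * θ a := by linarith [mul_nonneg hτ (hθ a)]
  simp only [mix, muc, kap]
  field_simp
  ring

/-- The real part of the contraction is minus the form. -/
theorem re_sum_tens (hA : 0 < A) (hτ : 0 ≤ tauc w) (hθ : ∀ a, 0 ≤ θ a) (hs : scal w ≠ 0) :
    (∑ i, ∑ j, ∑ k, ∑ l, tens A θ T F w i j k l * wedge X Y i j * wedge X Y k l).re =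
      -(mainForm A (tauc w) θ (hh A θ w X Y) (kk A θ w X Y) (ff A θ w X Y)
        + -(restB A θ T F w X Y).re + -(restC A θ T w X Y).re) := by
  have hG : ∀ a, 0 < A + tauc w * θ a := fun a => by linarith [mul_nonneg hτ (hθ a)]
  have hr : ∀ a, root A θ w a ≠ 0 := fun a => (Real.sqrt_pos.2 (hG a)).ne'
  have hrr : ∀ a, root A θ w a * root A θ w a = A + tauc w * θ a := fun a =>
    Real.mul_self_sqrt (hG a).le
  obtain ⟨hherm, -⟩ := hh_signature A θ w X Y
  have hdd : ∀ a, hh A θ w X Y a a = ((hh A θ w X Y a a).re : ℂ) := fun a =>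
    (conj_eq_iff_re.1 (hherm a a).symm).symm
  have hP : ∀ a, wedge X Y a.castSucc a.castSucc =
      I * (((hh A θ w X Y a a).re / (A + tauc w * θ a) : ℝ) : ℂ) := by
    intro a
    rw [wedge_base X Y hr, hrr]
    conv_lhs => rw [hdd a]
    push_cast
    ring
  have hPP : ∀ a k, wedge X Y a.castSucc k.castSucc * wedge X Y k.castSucc a.castSucc =
      ((-(normSq (hh A θ w X Y a k) / ((A + tauc w * θ a) * (A + tauc w * θ k))) : ℝ) : ℂ) := by
    intro a k
    rw [wedge_base X Y hr, wedge_base X Y hr, ← hrr a, ← hrr k, hherm a k, div_mul_div_comm,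
      show I * hh A θ w X Y a k * (I * conj (hh A θ w X Y a k)) =
        (I * I) * (hh A θ w X Y a k * conj (hh A θ w X Y a k)) by ring, mul_conj, I_mul_I]
    push_cast
    ring
  have hW : wedge X Y (Fin.last 2) (Fin.last 2) = I * ((ff A θ w X Y / scal w ^ 2 : ℝ) : ℂ) := by
    rw [wedge_fibre X Y hs]
    push_cast
    ring
  have hK : ∀ a, wedge X Y a.castSucc (Fin.last 2) * wedge X Y (Fin.last 2) a.castSucc =
      ((-(normSq (kk A θ w X Y a) / ((A + tauc w * θ a) * scal w ^ 2)) : ℝ) : ℂ) := by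
    intro a
    rw [wedge_side X Y hr hs, wedge_side' X Y hr hs, ← hrr a, div_mul_div_comm,
      show I * kk A θ w X Y a * (I * conj (kk A θ w X Y a)) =
        (I * I) * (kk A θ w X Y a * conj (kk A θ w X Y a)) by ring, mul_conj, I_mul_I]
    push_cast
    ring
  have hbase : (∑ a : Fin 2, ∑ b : Fin 2, ∑ k : Fin 2, ∑ l : Fin 2, baseT A θ T F w a b k l
        * wedge X Y a.castSucc b.castSucc * wedge X Y k.castSucc l.castSucc) =
      ((-((wtr (kap A (tauc w) θ) (hh A θ w X Y) ^ 2 + wsq (kap A (tauc w) θ) (hh A θ w X Y)) / A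
          + tauc w * (1 + tauc w) * (wtr (muc A (tauc w) θ) (hh A θ w X Y) ^ 2
            + wsq (muc A (tauc w) θ) (hh A θ w X Y))) : ℝ) : ℂ)
        + restB A θ T F w X Y := by
    have d1 := sum_delta (fun _ _ => (A : ℂ)) (fun a b => wedge X Y a.castSucc b.castSucc)
    have d2 := sum_delta
      (fun a k => ((tauc w * (1 + tauc w) : ℝ) : ℂ) * ((θ a * θ k : ℝ) : ℂ))
      (fun a b => wedge X Y a.castSucc b.castSucc)
    have hsplit : ∀ a b k l : Fin 2, baseT A θ T F w a b k l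
        * wedge X Y a.castSucc b.castSucc * wedge X Y k.castSucc l.castSucc =
      (if a = b ∧ k = l then (A : ℂ) else 0)
          * wedge X Y a.castSucc b.castSucc * wedge X Y k.castSucc l.castSucc
        + (if a = l ∧ k = b then (A : ℂ) else 0)
          * wedge X Y a.castSucc b.castSucc * wedge X Y k.castSucc l.castSucc
        + (if a = b ∧ k = l then ((tauc w * (1 + tauc w) : ℝ) : ℂ) * ((θ a * θ k : ℝ) : ℂ) else 0)
          * wedge X Y a.castSucc b.castSucc * wedge X Y k.castSucc l.castSucc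
        + (if a = l ∧ k = b then ((tauc w * (1 + tauc w) : ℝ) : ℂ) * ((θ a * θ k : ℝ) : ℂ) else 0)
          * wedge X Y a.castSucc b.castSucc * wedge X Y k.castSucc l.castSucc
        + ((tauc w : ℂ) * F a b k l - ((tauc w ^ 2 : ℝ) : ℂ)
            * ∑ r, T a r k * conj (T b r l) / ((A + tauc w * θ r : ℝ) : ℂ))
          * wedge X Y a.castSucc b.castSucc * wedge X Y k.castSucc l.castSucc := by
      intro a b k l
      simp only [baseT]
      split_ifs <;> ring
    have hI : ∀ x y : ℝ, I * (x : ℂ) * (I * (y : ℂ)) = ((-(x * y) : ℝ) : ℂ) := fun x y => by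
      push_cast
      linear_combination ((x : ℂ) * (y : ℂ)) * I_sq
    have e1 : ∀ a k, (A : ℂ) * (wedge X Y a.castSucc a.castSucc * wedge X Y k.castSucc k.castSucc) =
        ((-(kap A (tauc w) θ a * (hh A θ w X Y a a).re
          * (kap A (tauc w) θ k * (hh A θ w X Y k k).re) / A) : ℝ) : ℂ) := fun a k => by
      rw [hP, hP, hI, ← ofReal_mul]
      simp only [kap]
      field_simp
    have e2 : ∀ a k, (A : ℂ) * (wedge X Y a.castSucc k.castSucc * wedge X Y k.castSucc a.castSucc) =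
        ((-(kap A (tauc w) θ a * kap A (tauc w) θ k * normSq (hh A θ w X Y a k) / A) : ℝ) : ℂ) :=
      fun a k => by
      rw [hPP, ← ofReal_mul]
      simp only [kap]
      field_simp
    have e3 : ∀ a k, ((tauc w * (1 + tauc w) : ℝ) : ℂ) * (((θ a * θ k : ℝ) : ℂ)
        * (wedge X Y a.castSucc a.castSucc * wedge X Y k.castSucc k.castSucc)) =
        ((-(tauc w * (1 + tauc w) * (muc A (tauc w) θ a * (hh A θ w X Y a a).re
          * (muc A (tauc w) θ k * (hh A θ w X Y k k).re))) : ℝ) : ℂ) := fun a k => by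
      rw [hP, hP, hI, ← ofReal_mul, ← ofReal_mul]
      simp only [muc]
      congr 1
      ring
    have e4 : ∀ a k, ((tauc w * (1 + tauc w) : ℝ) : ℂ) * (((θ a * θ k : ℝ) : ℂ)
        * (wedge X Y a.castSucc k.castSucc * wedge X Y k.castSucc a.castSucc)) =
        ((-(tauc w * (1 + tauc w) * (muc A (tauc w) θ a * muc A (tauc w) θ k
          * normSq (hh A θ w X Y a k))) : ℝ) : ℂ) := fun a k => by
      rw [hPP, ← ofReal_mul, ← ofReal_mul]
      simp only [muc, div_eq_mul_inv, mul_inv]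
      congr 1
      ring
    simp only [hsplit, sum_add_distrib, d1.1, d1.2, d2.1, d2.2]
    rw [restB]
    congr 1
    simp only [mul_assoc, e1, e2, e3, e4, ← ofReal_sum, ← ofReal_add, ofReal_inj]
    simp only [wtr, wsq, Fin.sum_univ_two]
    ring
  have hmix : ((∑ a : Fin 2, ∑ b : Fin 2, mixT A θ w a b * wedge X Y a.castSucc b.castSucc
            * wedge X Y (Fin.last 2) (Fin.last 2))
        + (∑ a : Fin 2, ∑ b : Fin 2, mixT A θ w a b * wedge X Y (Fin.last 2) (Fin.last 2)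
            * wedge X Y a.castSucc b.castSucc)
        + (∑ a : Fin 2, ∑ b : Fin 2, mixT A θ w a b * wedge X Y a.castSucc (Fin.last 2)
            * wedge X Y (Fin.last 2) b.castSucc)
        + (∑ b : Fin 2, ∑ a : Fin 2, mixT A θ w a b * wedge X Y (Fin.last 2) b.castSucc
            * wedge X Y a.castSucc (Fin.last 2))
        + ((2 * scal w ^ 4 : ℝ) : ℂ) * wedge X Y (Fin.last 2) (Fin.last 2)
            * wedge X Y (Fin.last 2) (Fin.last 2)) =
      ((-(2 * ff A θ w X Y ^ 2 + 2 * ff A θ w X Y * wtr (mix A (tauc w) θ) (hh A θ w X Y)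
        + 2 * ∑ a, mix A (tauc w) θ a * normSq (kk A θ w X Y a)) : ℝ) : ℂ) := by
    have hKc : ∀ a, wedge X Y (Fin.last 2) a.castSucc * wedge X Y a.castSucc (Fin.last 2) =
        ((-(normSq (kk A θ w X Y a) / ((A + tauc w * θ a) * scal w ^ 2)) : ℝ) : ℂ) := fun a => by
      rw [mul_comm, hK]
    have hI : ∀ x y : ℝ, I * (x : ℂ) * (I * (y : ℂ)) = ((-(x * y) : ℝ) : ℂ) := fun x y => by
      push_cast
      linear_combination ((x : ℂ) * (y : ℂ)) * I_sq
    have m1 : ∀ a, ((mix A (tauc w) θ a * (A + tauc w * θ a) * scal w ^ 2 : ℝ) : ℂ)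
        * (wedge X Y a.castSucc a.castSucc * wedge X Y (Fin.last 2) (Fin.last 2)) =
        ((-(mix A (tauc w) θ a * (hh A θ w X Y a a).re * ff A θ w X Y) : ℝ) : ℂ) := fun a => by
      rw [hP, hW, hI, ← ofReal_mul]
      have := (hG a).ne'
      congr 1
      field_simp
    have m1' : ∀ a, ((mix A (tauc w) θ a * (A + tauc w * θ a) * scal w ^ 2 : ℝ) : ℂ)
        * (wedge X Y (Fin.last 2) (Fin.last 2) * wedge X Y a.castSucc a.castSucc) =
        ((-(mix A (tauc w) θ a * (hh A θ w X Y a a).re * ff A θ w X Y) : ℝ) : ℂ) := fun a => by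
      rw [mul_comm (wedge X Y (Fin.last 2) (Fin.last 2)), m1]
    have m2 : ∀ a, ((mix A (tauc w) θ a * (A + tauc w * θ a) * scal w ^ 2 : ℝ) : ℂ)
        * (wedge X Y a.castSucc (Fin.last 2) * wedge X Y (Fin.last 2) a.castSucc) =
        ((-(mix A (tauc w) θ a * normSq (kk A θ w X Y a)) : ℝ) : ℂ) := fun a => by
      rw [hK, ← ofReal_mul]
      have := (hG a).ne'
      congr 1
      field_simp
    have m2' : ∀ a, ((mix A (tauc w) θ a * (A + tauc w * θ a) * scal w ^ 2 : ℝ) : ℂ)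
        * (wedge X Y (Fin.last 2) a.castSucc * wedge X Y a.castSucc (Fin.last 2)) =
        ((-(mix A (tauc w) θ a * normSq (kk A θ w X Y a)) : ℝ) : ℂ) := fun a => by
      rw [mul_comm (wedge X Y (Fin.last 2) a.castSucc), m2]
    have m3 : ((2 * scal w ^ 4 : ℝ) : ℂ)
        * (wedge X Y (Fin.last 2) (Fin.last 2) * wedge X Y (Fin.last 2) (Fin.last 2)) =
        ((-(2 * ff A θ w X Y ^ 2) : ℝ) : ℂ) := by
      rw [hW, hI, ← ofReal_mul]
      congr 1
      field_simp
    simp only [mixT, ite_mul, zero_mul, sum_ite_eq, sum_ite_eq', mem_univ, if_true,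
      mix_eq A θ w hA hτ hθ hs]
    simp only [← mul_assoc] at m1 m1' m2 m2' m3
    simp only [m1, m1', m2, m2', m3, ← ofReal_sum, ← ofReal_add, ofReal_inj]
    simp only [wtr, Fin.sum_univ_two]
    ring
  rw [sum_tens, hbase, hmix]
  simp only [add_re, ofReal_re, mainForm]
  ring

end Point

section Bounds

variable {Θ K A : ℝ} {θ : Fin 2 → ℝ} {T : Fin 2 → Fin 2 → Fin 2 → ℂ}
  {F : Fin 2 → Fin 2 → Fin 2 → Fin 2 → ℂ} {w : ℂ} {X Y : Fin 3 → ℂ}

theorem point_facts (hA : 0 < A) (hθ : ∀ a, 1 ≤ θ a) (hw : normSq w < 1) :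
    0 ≤ tauc w ∧ scal w = 1 + tauc w ∧ 0 < scal w ∧
      (∀ a, A + tauc w ≤ A + tauc w * θ a) ∧
      (∀ a, 0 < root A θ w a ∧ Real.sqrt (A + tauc w) ≤ root A θ w a) := by
  have h1 : 0 < 1 - normSq w := by linarith
  have hτ : 0 ≤ tauc w := div_nonneg (normSq_nonneg _) h1.le
  have hle : ∀ a, A + tauc w ≤ A + tauc w * θ a := fun a => by
    linarith [mul_le_mul_of_nonneg_left (hθ a) hτ]
  refine ⟨hτ, ?_, by unfold scal; positivity, hle, fun a => ⟨?_, Real.sqrt_le_sqrt (hle a)⟩⟩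
  · unfold scal tauc
    field_simp
    ring
  · exact Real.sqrt_pos.2 (by linarith [hle a])

theorem norm_base_le (hA : 0 < A) (hθ : ∀ a, 1 ≤ θ a) (hw : normSq w < 1) (a b : Fin 2) :
    ‖wedge X Y a.castSucc b.castSucc‖ ≤ ‖hh A θ w X Y a b‖ / (A + tauc w) := by
  obtain ⟨hτ, -, -, -, hr⟩ := point_facts hA hθ hw
  rw [wedge_base X Y (fun i => (hr i).1.ne'), norm_div, norm_mul, norm_I, one_mul, norm_real,
    Real.norm_eq_abs, abs_of_pos (mul_pos (hr a).1 (hr b).1)]
  refine div_le_div_of_nonneg_left (norm_nonneg _) (by linarith) ?_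
  rw [← Real.mul_self_sqrt (show 0 ≤ A + tauc w by linarith)]
  exact mul_le_mul (hr a).2 (hr b).2 (Real.sqrt_nonneg _) (hr a).1.le

theorem norm_side_le (hA : 0 < A) (hθ : ∀ a, 1 ≤ θ a) (hw : normSq w < 1) (a : Fin 2) :
    ‖wedge X Y a.castSucc (Fin.last 2)‖ ≤
        ‖kk A θ w X Y a‖ / (Real.sqrt (A + tauc w) * scal w) ∧
      ‖wedge X Y (Fin.last 2) a.castSucc‖ ≤
        ‖kk A θ w X Y a‖ / (Real.sqrt (A + tauc w) * scal w) := by
  obtain ⟨hτ, -, hs, -, hr⟩ := point_facts hA hθ hw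
  rw [wedge_side X Y (fun i => (hr i).1.ne') hs.ne', wedge_side' X Y (fun i => (hr i).1.ne') hs.ne']
  simp only [norm_div, norm_mul, norm_I, one_mul, RCLike.norm_conj, norm_real, Real.norm_eq_abs,
    abs_of_pos (hr a).1, abs_of_pos hs, and_self]
  exact div_le_div_of_nonneg_left (norm_nonneg _)
    (mul_pos (Real.sqrt_pos.2 (by linarith)) hs) (mul_le_mul_of_nonneg_right (hr a).2 hs.le)

theorem restB_le (hA : 1 ≤ A) (hK : 0 ≤ K) (hθ : ∀ a, 1 ≤ θ a) (hw : normSq w < 1)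
    (hT : ∀ i j k, ‖T i j k‖ ≤ K) (hF : ∀ i j k l, ‖F i j k l‖ ≤ K) :
    |(restB A θ T F w X Y).re| ≤ 4 * (K + 2 * K ^ 2) *
      (1 / A ^ 2 + tauc w / (A + tauc w) / A) * hsz (hh A θ w X Y) := by
  have hA0 : 0 < A := by linarith
  obtain ⟨hτ, -, -, hle, -⟩ := point_facts hA0 hθ hw
  set τ := tauc w with hτdef
  set Γ := A + τ with hΓ
  have hΓ0 : 0 < Γ := by linarith
  set h := hh A θ w X Y
  set S : ℝ := ∑ a, ∑ b, ‖h a b‖ with hS
  have hcoef : ∀ a b k l, ‖(τ : ℂ) * F a b k l - ((τ ^ 2 : ℝ) : ℂ)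
      * ∑ r, T a r k * conj (T b r l) / ((A + τ * θ r : ℝ) : ℂ)‖ ≤ τ * (K + 2 * K ^ 2) := by
    intro a b k l
    refine (norm_sub_le _ _).trans ?_
    have hsum : ‖∑ r, T a r k * conj (T b r l) / ((A + τ * θ r : ℝ) : ℂ)‖ ≤ 2 * K ^ 2 / Γ := by
      refine (norm_sum_le _ _).trans ((sum_le_sum (g := fun _ => K ^ 2 / Γ) fun r _ => ?_).trans ?_)
      · rw [norm_div, norm_mul, RCLike.norm_conj, norm_real, Real.norm_eq_abs,
          abs_of_pos (by linarith [hle r]), sq]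
        exact div_le_div₀ (by positivity) (mul_le_mul (hT _ _ _) (hT _ _ _) (norm_nonneg _) hK)
          hΓ0 (hle r)
      · rw [Fin.sum_univ_two]; exact le_of_eq (by ring)
    simp only [norm_mul, norm_real, Real.norm_eq_abs, abs_of_nonneg hτ,
      abs_of_nonneg (sq_nonneg τ)]
    calc τ * ‖F a b k l‖ + τ ^ 2 * ‖∑ r, T a r k * conj (T b r l) / ((A + τ * θ r : ℝ) : ℂ)‖
        ≤ τ * K + τ ^ 2 * (2 * K ^ 2 / Γ) :=
          add_le_add (mul_le_mul_of_nonneg_left (hF a b k l) hτ)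
            (mul_le_mul_of_nonneg_left hsum (sq_nonneg τ))
      _ = τ * K + τ * (2 * K ^ 2) * (τ / Γ) := by ring
      _ ≤ τ * K + τ * (2 * K ^ 2) * 1 := by
          have : τ / Γ ≤ 1 := (div_le_one hΓ0).2 (by linarith)
          exact add_le_add le_rfl (mul_le_mul_of_nonneg_left this (by positivity))
      _ = τ * (K + 2 * K ^ 2) := by ring
  have hstep : ‖restB A θ T F w X Y‖ ≤ τ * (K + 2 * K ^ 2) * (S / Γ) ^ 2 := by
    rw [restB]
    refine (norm_sum_le _ _).trans ?_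
    refine (sum_le_sum fun a _ => (norm_sum_le _ _).trans (sum_le_sum fun b _ =>
      (norm_sum_le _ _).trans (sum_le_sum fun k _ => (norm_sum_le _ _).trans (sum_le_sum fun l _ =>
        show _ ≤ τ * (K + 2 * K ^ 2) * (‖h a b‖ / Γ) * (‖h k l‖ / Γ) from ?_)))).trans ?_
    · simp only [norm_mul]
      exact mul_le_mul (mul_le_mul (by simpa only [norm_mul] using hcoef a b k l)
        (norm_base_le hA0 hθ hw a b) (norm_nonneg _) (by positivity))
        (norm_base_le hA0 hθ hw k l) (norm_nonneg _) (by positivity)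
    · simp only [← mul_sum, ← sum_mul, ← Finset.sum_div, ← hS]
      exact le_of_eq (by ring)
  have hS2 : S ^ 2 ≤ 4 * hsz h := by
    simp only [hS, hsz, Fin.sum_univ_two, normSq_eq_norm_sq]
    linarith [sq_nonneg (‖h 0 0‖ - ‖h 0 1‖), sq_nonneg (‖h 0 0‖ - ‖h 1 0‖),
      sq_nonneg (‖h 0 0‖ - ‖h 1 1‖), sq_nonneg (‖h 0 1‖ - ‖h 1 0‖),
      sq_nonneg (‖h 0 1‖ - ‖h 1 1‖), sq_nonneg (‖h 1 0‖ - ‖h 1 1‖)]
  refine (abs_re_le_norm _).trans (hstep.trans ?_)
  have hH := hsz_nonneg h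
  calc τ * (K + 2 * K ^ 2) * (S / Γ) ^ 2 = (K + 2 * K ^ 2) * (τ / (Γ * Γ)) * S ^ 2 := by ring
    _ ≤ (K + 2 * K ^ 2) * (τ / Γ / A) * (4 * hsz h) := by
        refine mul_le_mul (mul_le_mul_of_nonneg_left ?_ (by positivity)) hS2 (sq_nonneg S)
          (by positivity)
        rw [div_div]
        exact div_le_div_of_nonneg_left hτ (by positivity)
          (mul_le_mul_of_nonneg_left (by linarith) hΓ0.le)
    _ ≤ 4 * (K + 2 * K ^ 2) * (1 / A ^ 2 + τ / Γ / A) * hsz h := by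
        have : 0 ≤ (K + 2 * K ^ 2) * (1 / A ^ 2) * hsz h := by positivity
        linarith

theorem restC_le (hA : 1 ≤ A) (hK : 0 ≤ K) (hθ : ∀ a, 1 ≤ θ a) (hw : normSq w < 1)
    (hT : ∀ i j k, ‖T i j k‖ ≤ K) :
    ∃ b : ℝ, 0 ≤ b ∧ b ^ 2 ≤ tauc w * (1 + tauc w) * A ^ 2 / (A + tauc w) ^ 5 ∧
      |(restC A θ T w X Y).re| ≤ 4 * K * b *
        ((∑ a, ∑ c, ‖hh A θ w X Y a c‖) * ∑ a, ‖kk A θ w X Y a‖) := by
  have hA0 : 0 < A := by linarith
  obtain ⟨hτ, hsτ, hs, hle, -⟩ := point_facts hA0 hθ hw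
  set τ := tauc w with hτdef
  set Γ := A + τ with hΓ
  have hΓ0 : 0 < Γ := by linarith
  have hq : Real.sqrt Γ ^ 2 = Γ := Real.sq_sqrt hΓ0.le
  have hq0 : 0 < Real.sqrt Γ := Real.sqrt_pos.2 hΓ0
  refine ⟨scal w * ‖w‖ * A / (Γ ^ 2 * Real.sqrt Γ), by positivity, ?_, ?_⟩
  · have h1 : scal w ^ 2 * normSq w = τ * (1 + τ) := by
      rw [← hsτ, hτdef]
      unfold tauc scal
      ring
    rw [div_pow, mul_pow, mul_pow, mul_pow, hq, ← normSq_eq_norm_sq, h1]
    exact le_of_eq (by ring)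
  set h := hh A θ w X Y
  set k := kk A θ w X Y
  set cb : ℝ := scal w ^ 2 * ‖w‖ * A * K / Γ with hcb
  have hcub : ∀ a b c, ‖cubT A θ T w a b c‖ ≤ cb := by
    intro a b c
    simp only [cubT, norm_div, norm_mul, norm_real, Real.norm_eq_abs, abs_of_pos hA0,
      abs_of_nonneg (sq_nonneg (scal w)), hcb, ← hτdef,
      abs_of_pos (show 0 < A + τ * θ b by linarith [hle b])]
    exact div_le_div₀ (by positivity)
      (mul_le_mul_of_nonneg_left (hT a b c) (by positivity)) hΓ0 (hle b)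
  have hcb0 : 0 ≤ cb := by positivity
  have hb : ∀ a c, ‖wedge X Y a.castSucc c.castSucc‖ ≤ ‖h a c‖ / Γ := norm_base_le hA0 hθ hw
  have hk := fun a => norm_side_le (X := X) (Y := Y) hA0 hθ hw a
  set e : ℝ := Real.sqrt Γ * scal w with he
  have he0 : 0 < e := by positivity
  set S : ℝ := ∑ a, ∑ c, ‖h a c‖ with hS
  set U : ℝ := ∑ a, ‖k a‖ with hU
  have hb0 : ∀ a c, 0 ≤ cb * (‖h a c‖ / Γ) := fun a c => by positivity
  have hk0 : ∀ a, 0 ≤ cb * (‖k a‖ / e) := fun a => by positivity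
  have s1 : ‖∑ a : Fin 2, ∑ b : Fin 2, ∑ c : Fin 2, cubT A θ T w a b c
      * wedge X Y a.castSucc b.castSucc * wedge X Y c.castSucc (Fin.last 2)‖
      ≤ cb * (S / Γ) * (U / e) := by
    refine (norm_sum_le _ _).trans ((sum_le_sum fun a _ => (norm_sum_le _ _).trans
      (sum_le_sum fun b _ => (norm_sum_le _ _).trans (sum_le_sum fun c _ =>
        show _ ≤ cb * (‖h a b‖ / Γ) * (‖k c‖ / e) from ?_))).trans (le_of_eq ?_))
    · simp only [norm_mul]
      exact mul_le_mul (mul_le_mul (hcub _ _ _) (hb a b) (norm_nonneg _) hcb0) (hk c).1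
        (norm_nonneg _) (hb0 a b)
    · simp only [← mul_sum, ← sum_mul, ← Finset.sum_div, ← hS, ← hU]
  have s2 : ‖∑ a : Fin 2, ∑ b : Fin 2, ∑ c : Fin 2, cubT A θ T w a c b
      * wedge X Y a.castSucc (Fin.last 2) * wedge X Y b.castSucc c.castSucc‖
      ≤ cb * (U / e) * (S / Γ) := by
    refine (norm_sum_le _ _).trans ((sum_le_sum fun a _ => (norm_sum_le _ _).trans
      (sum_le_sum fun b _ => (norm_sum_le _ _).trans (sum_le_sum fun c _ =>
        show _ ≤ cb * (‖k a‖ / e) * (‖h b c‖ / Γ) from ?_))).trans (le_of_eq ?_))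
    · simp only [norm_mul]
      exact mul_le_mul (mul_le_mul (hcub _ _ _) (hk a).1 (norm_nonneg _) hcb0) (hb b c)
        (norm_nonneg _) (hk0 a)
    · simp only [← mul_sum, ← sum_mul, ← Finset.sum_div, ← hS, ← hU]
  have s3 : ‖∑ a : Fin 2, ∑ b : Fin 2, ∑ c : Fin 2, conj (cubT A θ T w b a c)
      * wedge X Y a.castSucc b.castSucc * wedge X Y (Fin.last 2) c.castSucc‖
      ≤ cb * (S / Γ) * (U / e) := by
    refine (norm_sum_le _ _).trans ((sum_le_sum fun a _ => (norm_sum_le _ _).trans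
      (sum_le_sum fun b _ => (norm_sum_le _ _).trans (sum_le_sum fun c _ =>
        show _ ≤ cb * (‖h a b‖ / Γ) * (‖k c‖ / e) from ?_))).trans (le_of_eq ?_))
    · simp only [norm_mul, RCLike.norm_conj]
      exact mul_le_mul (mul_le_mul (hcub _ _ _) (hb a b) (norm_nonneg _) hcb0) (hk c).2
        (norm_nonneg _) (hb0 a b)
    · simp only [← mul_sum, ← sum_mul, ← Finset.sum_div, ← hS, ← hU]
  have s4 : ‖∑ a : Fin 2, ∑ b : Fin 2, ∑ c : Fin 2, conj (cubT A θ T w a b c)
      * wedge X Y (Fin.last 2) a.castSucc * wedge X Y b.castSucc c.castSucc‖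
      ≤ cb * (U / e) * (S / Γ) := by
    refine (norm_sum_le _ _).trans ((sum_le_sum fun a _ => (norm_sum_le _ _).trans
      (sum_le_sum fun b _ => (norm_sum_le _ _).trans (sum_le_sum fun c _ =>
        show _ ≤ cb * (‖k a‖ / e) * (‖h b c‖ / Γ) from ?_))).trans (le_of_eq ?_))
    · simp only [norm_mul, RCLike.norm_conj]
      exact mul_le_mul (mul_le_mul (hcub _ _ _) (hk a).2 (norm_nonneg _) hcb0) (hb b c)
        (norm_nonneg _) (hk0 a)
    · simp only [← mul_sum, ← sum_mul, ← Finset.sum_div, ← hS, ← hU]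
  have hnorm : ‖restC A θ T w X Y‖ ≤ 4 * (cb * (S / Γ) * (U / e)) := by
    rw [restC]
    refine (norm_add_le _ _).trans ?_
    have := (norm_add_le _ _).trans (add_le_add ((norm_add_le _ _).trans (add_le_add s1 s2)) s3)
    linarith
  refine (abs_re_le_norm _).trans (hnorm.trans (le_of_eq ?_))
  rw [hcb, he]
  field_simp

end Bounds

/-- Upper bound of the form. -/
theorem form_upper {Θ C A τ : ℝ} {θ : Fin 2 → ℝ} (hΘ : 1 ≤ Θ) (hC : 0 ≤ C) (hA : 1 ≤ A)
    (hτ : 0 ≤ τ) (hθ : ∀ a, 1 ≤ θ a ∧ θ a ≤ Θ) {h : Fin 2 → Fin 2 → ℂ} (k : Fin 2 → ℂ)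
    (f E X b : ℝ) (hh : Signature h)
    (hb : b ^ 2 ≤ τ * (1 + τ) * A ^ 2 / (A + τ) ^ 5)
    (hE : |E| ≤ C * (1 / A ^ 2 + τ / (A + τ) / A) * hsz h)
    (hX : |X| ≤ C * b * ((∑ a, ∑ c, ‖h a c‖) * ∑ a, ‖k a‖)) :
    mainForm A τ θ h k f + E + X ≤ (2 + 6 * Θ ^ 2 + 2 * C + 4 * C ^ 2 * Θ ^ 2 + 6 * Θ)
      * (hsz h + f ^ 2 + ∑ a, normSq (k a)) + 3 * f ^ 2 := by
  have hA0 : 0 < A := by linarith
  have hcb := coeff_bounds hΘ hA0 hτ hθ
  have hΓ : 0 < A + τ := by linarith
  have hH0 := hsz_nonneg h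
  set H := hsz h with hH
  have hJ0 : 0 ≤ ∑ a, normSq (k a) := sum_nonneg fun _ _ => normSq_nonneg _
  have hκ1 : ∀ a, kap A τ θ a ≤ 1 := fun a =>
    (hcb a).2.1.trans ((div_le_one hΓ).2 (by linarith))
  have hK : wsq (kap A τ θ) h ≤ H :=
    (wsq_mono (fun a => (hcb a).2.2.2.2.2.1) hκ1).trans
      (le_of_eq (by rw [wsq_const, one_pow, one_mul]))
  have hK2 := wtr_sq_le hh fun a => (hcb a).2.2.2.2.2.1
  have hN : wsq (muc A τ θ) h ≤ (Θ / (A + τ)) ^ 2 * H :=
    (wsq_mono (fun a => (hcb a).2.2.2.2.2.2) fun a => (hcb a).2.2.2.1).trans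
      (le_of_eq (wsq_const _ h))
  have hN2 := wtr_sq_le hh fun a => (hcb a).2.2.2.2.2.2
  have hφ : τ * (1 + τ) * (wtr (muc A τ θ) h ^ 2 + wsq (muc A τ θ) h) ≤ 2 * Θ ^ 2 * H := by
    calc τ * (1 + τ) * (wtr (muc A τ θ) h ^ 2 + wsq (muc A τ θ) h)
        ≤ (A + τ) * (A + τ) * (2 * ((Θ / (A + τ)) ^ 2 * H)) :=
          mul_le_mul (mul_le_mul (by linarith) (by linarith) (by linarith) hΓ.le) (by linarith)
            (add_nonneg (sq_nonneg _) ((sq_nonneg _).trans hN2)) (by positivity)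
      _ = 2 * Θ ^ 2 * H := by field_simp
  have hfirst : (wtr (kap A τ θ) h ^ 2 + wsq (kap A τ θ) h) / A ≤ 2 * H :=
    (div_le_self (add_nonneg (sq_nonneg _) ((sq_nonneg _).trans hK2)) hA).trans (by linarith)
  have hcross : 2 * f * wtr (mix A τ θ) h ≤ f ^ 2 + 4 * Θ ^ 2 * H := by
    linarith [sq_nonneg (f - wtr (mix A τ θ) h), mix_trace_le hΘ hA hτ hθ hh]
  have hmix : ∀ a, mix A τ θ a ≤ 2 * Θ := by
    intro a
    calc mix A τ θ a ≤ Θ / (A + τ) * (2 * (A + τ)) := by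
          refine mul_le_mul (hcb a).2.2.2.1 ?_
            (add_nonneg hτ (mul_nonneg (by linarith) (hcb a).2.2.2.2.2.1)) (by positivity)
          have := mul_le_mul_of_nonneg_left (hκ1 a) (by linarith : (0 : ℝ) ≤ 1 + τ)
          linarith
      _ = 2 * Θ := by field_simp
  have hkk : ∑ a, mix A τ θ a * normSq (k a) ≤ 2 * Θ * ∑ a, normSq (k a) := by
    rw [mul_sum]
    exact sum_le_sum fun a _ => mul_le_mul_of_nonneg_right (hmix a) (normSq_nonneg _)
  have hsm : 1 / A ^ 2 + τ / (A + τ) / A ≤ 2 := by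
    have h1 : 1 / A ^ 2 ≤ 1 := (div_le_one (by positivity)).2 (one_le_pow₀ hA)
    have h2 : τ / (A + τ) / A ≤ 1 :=
      (div_le_self (by positivity) hA).trans ((div_le_one hΓ).2 (by linarith))
    linarith
  have hE' : E ≤ 2 * C * H := by
    refine (le_abs_self E).trans (hE.trans ?_)
    calc C * (1 / A ^ 2 + τ / (A + τ) / A) * H ≤ C * 2 * H :=
          mul_le_mul_of_nonneg_right (mul_le_mul_of_nonneg_left hsm hC) hH0
      _ = 2 * C * H := by ring
  have hX' : X ≤ 2 * Θ * ∑ a, normSq (k a) + 4 * C ^ 2 * Θ ^ 2 * H := by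
    refine (le_abs_self X).trans (hX.trans ((cross_le hA hτ hΘ hb h k).trans (add_le_add ?_ ?_)))
    · exact mul_le_mul_of_nonneg_right ((mlow_le_mix hΘ hA0 hτ hθ 0).trans (hmix 0)) hJ0
    · calc 2 * C ^ 2 * Θ ^ 2 * (1 / A ^ 2 + τ / (A + τ) / A) * H
          ≤ 2 * C ^ 2 * Θ ^ 2 * 2 * H :=
            mul_le_mul_of_nonneg_right (mul_le_mul_of_nonneg_left hsm (by positivity)) hH0
        _ = _ := by ring
  have : 0 ≤ (2 + 6 * Θ ^ 2 + 2 * C + 4 * C ^ 2 * Θ ^ 2) * (f ^ 2 + ∑ a, normSq (k a)) := by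
    positivity
  have : 0 ≤ 6 * Θ * (H + f ^ 2) := by positivity
  simp only [mainForm]
  linarith

theorem wedge_total (U V : Fin 3 → ℂ) :
    let S := ∑ i, ∑ j, normSq (-I * wedge U V i j)
    let D := (∑ i, normSq (U i)) * (∑ i, normSq (V i)) - (∑ i, U i * conj (V i)).re ^ 2
    2 * D ≤ S ∧ S ≤ 4 * D := by
  intro S D
  have hS : S = 2 * D + 2 * (∑ i, U i * conj (V i)).im ^ 2 := by
    simp only [S, D, Fin.sum_univ_three, wedge, normSq_apply, mul_re, mul_im, sub_re, sub_im,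
      add_re, add_im, neg_re, neg_im, conj_re, conj_im, I_re, I_im]
    ring
  have hD : D - (∑ i, U i * conj (V i)).im ^ 2 = normSq (U 0 * V 1 - U 1 * V 0)
      + normSq (U 0 * V 2 - U 2 * V 0) + normSq (U 1 * V 2 - U 2 * V 1) := by
    simp only [D, Fin.sum_univ_three, normSq_apply, mul_re, mul_im, sub_re, sub_im, add_re, add_im,
      conj_re, conj_im]
    ring
  have := sq_nonneg (∑ i, U i * conj (V i)).im
  have := normSq_nonneg (U 0 * V 1 - U 1 * V 0)
  have := normSq_nonneg (U 0 * V 2 - U 2 * V 0)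
  have := normSq_nonneg (U 1 * V 2 - U 2 * V 1)
  constructor <;> linarith

/-- The area against the normalised wedge. -/
theorem area_bounds {A : ℝ} {θ : Fin 2 → ℝ} {w : ℂ} {X Y : Fin 3 → ℂ} (hA : 0 < A)
    (hθ : ∀ a, 1 ≤ θ a) (hw : normSq w < 1) :
    let Q := hsz (hh A θ w X Y) + 2 * (∑ a, normSq (kk A θ w X Y a)) + ff A θ w X Y ^ 2
    2 * diagArea (gdiag A θ w) X Y ≤ Q ∧ Q ≤ 4 * diagArea (gdiag A θ w) X Y := by
  intro Q
  obtain ⟨hτ, -, hs, hle, hr⟩ := point_facts hA hθ hw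
  have hrr : ∀ a, root A θ w a * root A θ w a = A + tauc w * θ a := fun a =>
    Real.mul_self_sqrt (by linarith [hle a])
  have hQ : Q = ∑ i, ∑ j, normSq (-I * wedge (unitv A θ w X) (unitv A θ w Y) i j) := by
    have hc : ∀ a : Fin 2, normSq (-I * wedge (unitv A θ w X) (unitv A θ w Y) (Fin.last 2) a.castSucc)
        = normSq (kk A θ w X Y a) := fun a => by
      rw [wedge_herm _ _ a.castSucc (Fin.last 2), normSq_conj]; rfl
    have hf : normSq (-I * wedge (unitv A θ w X) (unitv A θ w Y) (Fin.last 2) (Fin.last 2))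
        = ff A θ w X Y ^ 2 := by
      rw [← conj_eq_iff_re.1 (wedge_herm _ _ (Fin.last 2) (Fin.last 2)).symm, normSq_ofReal, sq]
      rfl
    simp only [Q, sum_three_split, sum_add_distrib, hc, hf, hsz, hh, kk]
    ring
  have hD : diagArea (gdiag A θ w) X Y = (∑ i, normSq (unitv A θ w X i))
      * (∑ i, normSq (unitv A θ w Y i))
      - (∑ i, unitv A θ w X i * conj (unitv A θ w Y i)).re ^ 2 := by
    have e : ∀ i, ∀ Z : Fin 3 → ℂ, gdiag A θ w i * normSq (Z i) = normSq (unitv A θ w Z i) := by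
      intro i Z
      induction i using Fin.lastCases with
      | last =>
        simp only [gdiag, unitv_last, normSq_mul, normSq_ofReal, Fin.lastCases_last]
        ring
      | cast a =>
        simp only [gdiag, unitv_castSucc, normSq_mul, normSq_ofReal, hrr,
          Fin.lastCases_castSucc]
    have e' : ∀ i, (gdiag A θ w i : ℂ) * X i * conj (Y i)
        = unitv A θ w X i * conj (unitv A θ w Y i) := by
      intro i
      induction i using Fin.lastCases with
      | last =>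
        simp only [gdiag, unitv_last, map_mul, conj_ofReal, Fin.lastCases_last]
        push_cast
        ring
      | cast a =>
        simp only [gdiag, unitv_castSucc, map_mul, conj_ofReal, Fin.lastCases_castSucc, ← hrr a]
        push_cast
        ring
    simp only [diagArea, e, e']
  rw [hQ, hD]
  exact wedge_total _ _

/-- Pinching at a normalised point. -/
theorem core : CoreStmt := by
  intro Θ K hΘ hK
  set C : ℝ := 4 * (K + 2 * K ^ 2) with hC
  have hC0 : 0 ≤ C := by positivity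
  obtain ⟨A₀, hA₀, hlow⟩ := form_lower Θ C hΘ hC0
  refine ⟨A₀, hA₀, fun A hA => ?_⟩
  obtain ⟨c, hc, hform⟩ := hlow A hA
  set B : ℝ := 2 + 6 * Θ ^ 2 + 2 * C + 4 * C ^ 2 * Θ ^ 2 + 6 * Θ + 3 with hB
  have hB0 : 0 ≤ B := by positivity
  refine ⟨c / 2, max (c / 2) (2 * B), by positivity, le_max_left _ _, ?_⟩
  intro θ T F w hθ hT hF hw X Y
  have hA1 : 1 ≤ A := hA₀.trans hA
  have hA0 : 0 < A := by linarith
  have hθ1 : ∀ a, 1 ≤ θ a := fun a => (hθ a).1
  obtain ⟨hτ, -, hs, -, -⟩ := point_facts hA0 hθ1 hw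
  obtain ⟨b, hb0, hb, hX⟩ := restC_le (X := X) (Y := Y) hA1 hK hθ1 hw hT
  have hE := restB_le (X := X) (Y := Y) hA1 hK hθ1 hw hT hF
  rw [← abs_neg] at hE hX
  have hX' : |-(restC A θ T w X Y).re| ≤ C * b *
      ((∑ a, ∑ c, ‖hh A θ w X Y a c‖) * ∑ a, ‖kk A θ w X Y a‖) := by
    refine hX.trans (mul_le_mul_of_nonneg_right (mul_le_mul_of_nonneg_right ?_ hb0) (by positivity))
    linarith [show 0 ≤ 8 * K ^ 2 by positivity]
  have hl := hform (tauc w) θ hτ hθ _ _ (ff A θ w X Y) _ _ b (hh_signature A θ w X Y) hb hE hX'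
  have hu := form_upper hΘ hC0 hA1 hτ hθ _ (ff A θ w X Y) _ _ b (hh_signature A θ w X Y) hb hE hX'
  have hcurv : curvForm A θ T F w X Y = -(mainForm A (tauc w) θ (hh A θ w X Y) (kk A θ w X Y)
      (ff A θ w X Y) + -(restB A θ T F w X Y).re + -(restC A θ T w X Y).re) / 2 := by
    rw [curvForm, re_sum_tens A θ T F w X Y hA0 hτ (fun a => le_trans zero_le_one (hθ1 a)) hs.ne']
  obtain ⟨ha1, ha2⟩ := area_bounds (X := X) (Y := Y) hA0 hθ1 hw
  set H := hsz (hh A θ w X Y)
  set J := ∑ a, normSq (kk A θ w X Y a)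
  set f := ff A θ w X Y
  set D := diagArea (gdiag A θ w) X Y
  set Q := mainForm A (tauc w) θ (hh A θ w X Y) (kk A θ w X Y) f
    + -(restB A θ T F w X Y).re + -(restC A θ T w X Y).re
  have hH0 : 0 ≤ H := hsz_nonneg _
  have hJ0 : 0 ≤ J := sum_nonneg fun _ _ => normSq_nonneg _
  have hD0 : 0 ≤ D := by linarith [sq_nonneg f]
  have h1 : D ≤ H + f ^ 2 + J := by linarith [sq_nonneg f]
  have h2 : H + f ^ 2 + J ≤ 4 * D := by linarith
  have h3 := mul_le_mul_of_nonneg_left h1 hc.le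
  have h4 := mul_le_mul_of_nonneg_left h2 hB0
  have h5 : 2 * B * D ≤ max (c / 2) (2 * B) * D :=
    mul_le_mul_of_nonneg_right (le_max_right _ _) hD0
  have h6 : 3 * f ^ 2 ≤ 3 * (H + f ^ 2 + J) := by linarith
  rw [hcurv]
  constructor <;> linarith

end Vale.Agent.P250.Full.Pinch
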