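import Vale.Agent.P250.Full.Spec

/-!
The quadratic form of the curvature at a normalised point: uniform positivity.

At a point `(0, w)` the weight has Levi eigenvalues `θ a`, `τ = x / (1 - x)`, the metric has
`G a = A + τ θ a`, and `κ = A / G`, `μ = θ / G`. The estimate is uniform in `τ` through
`r = τ / (A + τ)`.
-/

namespace Vale.Agent.P250.Full.Pinch

open Complex Finset
open scoped ComplexConjugate

/-- `κ a = A / G a`. -/
noncomputable def kap (A τ : ℝ) (θ : Fin 2 → ℝ) (a : Fin 2) : ℝ := A / (A + τ * θ a)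

/-- `μ a = θ a / G a`. -/
noncomputable def muc (A τ : ℝ) (θ : Fin 2 → ℝ) (a : Fin 2) : ℝ := θ a / (A + τ * θ a)

/-- The mixed coefficient. -/
noncomputable def mix (A τ : ℝ) (θ : Fin 2 → ℝ) (a : Fin 2) : ℝ :=
  muc A τ θ a * (τ + (1 + τ) * kap A τ θ a)

/-- The weighted trace. -/
noncomputable def wtr (w : Fin 2 → ℝ) (h : Fin 2 → Fin 2 → ℂ) : ℝ := ∑ a, w a * (h a a).re

/-- The weighted square norm. -/
noncomputable def wsq (w : Fin 2 → ℝ) (h : Fin 2 → Fin 2 → ℂ) : ℝ :=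
  ∑ a, ∑ b, w a * w b * normSq (h a b)

/-- The main part of the curvature form. -/
noncomputable def mainForm (A τ : ℝ) (θ : Fin 2 → ℝ) (h : Fin 2 → Fin 2 → ℂ) (k : Fin 2 → ℂ)
    (f : ℝ) : ℝ :=
  (wtr (kap A τ θ) h ^ 2 + wsq (kap A τ θ) h) / A
    + τ * (1 + τ) * (wtr (muc A τ θ) h ^ 2 + wsq (muc A τ θ) h)
    + 2 * f ^ 2 + 2 * f * wtr (mix A τ θ) h + 2 * ∑ a, mix A τ θ a * normSq (k a)

/-- The squared size of the base block. -/
noncomputable def hsz (h : Fin 2 → Fin 2 → ℂ) : ℝ := ∑ a, ∑ b, normSq (h a b)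

/-- The shape of the base block of `i (ξ η* - η ξ*)`. -/
def Signature (h : Fin 2 → Fin 2 → ℂ) : Prop :=
  (∀ a b, h b a = conj (h a b)) ∧ (h 0 0).re * (h 1 1).re ≤ normSq (h 0 1)

theorem hsz_nonneg (h : Fin 2 → Fin 2 → ℂ) : 0 ≤ hsz h :=
  sum_nonneg fun _ _ => sum_nonneg fun _ _ => normSq_nonneg _

theorem wtr_sq_le {h : Fin 2 → Fin 2 → ℂ} (hh : Signature h) {w : Fin 2 → ℝ} (hw : ∀ a, 0 ≤ w a) :
    wtr w h ^ 2 ≤ wsq w h := by
  obtain ⟨hc, hd⟩ := hh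
  have h10 : normSq (h 1 0) = normSq (h 0 1) := by rw [hc 0 1, normSq_conj]
  have hdiag : ∀ a, normSq (h a a) = (h a a).re * (h a a).re := by
    intro a
    have him : (h a a).im = 0 := by
      have := congrArg Complex.im (hc a a)
      rw [conj_im] at this
      linarith
    rw [normSq_apply, him, mul_zero, add_zero]
  simp only [wtr, wsq, Fin.sum_univ_two, h10, hdiag]
  nlinarith [mul_le_mul_of_nonneg_left hd (mul_nonneg (hw 0) (hw 1))]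

theorem wsq_mono {h : Fin 2 → Fin 2 → ℂ} {w v : Fin 2 → ℝ} (hw : ∀ a, 0 ≤ w a)
    (hwv : ∀ a, w a ≤ v a) : wsq w h ≤ wsq v h := by
  refine sum_le_sum fun a _ => sum_le_sum fun b _ => mul_le_mul_of_nonneg_right ?_ (normSq_nonneg _)
  exact mul_le_mul (hwv a) (hwv b) (hw b) ((hw a).trans (hwv a))

theorem wsq_smul (s : ℝ) (w : Fin 2 → ℝ) (h : Fin 2 → Fin 2 → ℂ) :
    wsq (fun a => s * w a) h = s ^ 2 * wsq w h := by
  simp only [wsq, mul_sum]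
  exact sum_congr rfl fun a _ => sum_congr rfl fun b _ => by ring

theorem wsq_const (s : ℝ) (h : Fin 2 → Fin 2 → ℂ) : wsq (fun _ => s) h = s ^ 2 * hsz h := by
  simp only [wsq, hsz, mul_sum]
  exact sum_congr rfl fun a _ => sum_congr rfl fun b _ => by ring

/-- Errors of order `1/A² + r/A` are small against `1/A + r³`. -/
theorem small_error {A r d : ℝ} (hd : 0 < d) (hd1 : d ≤ 1) (hA : 1 / d ^ 3 ≤ A) (hr : 0 ≤ r) :
    1 / A ^ 2 + r / A ≤ 2 * d * (1 / A + r ^ 3) := by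
  have hA0 : 0 < A := lt_of_lt_of_le (by positivity) hA
  have hAd : 1 ≤ d ^ 3 * A := by
    rw [div_le_iff₀ (by positivity)] at hA
    linarith
  have hd31 : d ^ 3 ≤ d := pow_le_of_le_one hd.le hd1 (by norm_num)
  have h1 : 1 / A ^ 2 ≤ d * (1 / A) := by
    rw [← sub_nonneg]
    have : d * (1 / A) - 1 / A ^ 2 = (d * A - 1) / A ^ 2 := by field_simp
    rw [this]
    refine div_nonneg ?_ (sq_nonneg A)
    nlinarith
  have h2 : r / A ≤ d * (1 / A) + d * r ^ 3 := by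
    rcases le_total r d with hrd | hrd
    · have : r / A ≤ d * (1 / A) := by
        rw [mul_one_div]
        exact div_le_div_of_nonneg_right hrd hA0.le
      nlinarith [pow_nonneg hr 3]
    · have : r / A ≤ d * r ^ 3 := by
        rw [div_le_iff₀ hA0]
        calc r = r * 1 := (mul_one r).symm
          _ ≤ r * (d ^ 3 * A) := mul_le_mul_of_nonneg_left hAd hr
          _ = r * d ^ 2 * d * A := by ring
          _ ≤ r * r ^ 2 * d * A := by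
            have := mul_le_mul_of_nonneg_left (pow_le_pow_left₀ hd.le hrd 2) hr
            exact mul_le_mul_of_nonneg_right (mul_le_mul_of_nonneg_right this hd.le) hA0.le
          _ = d * r ^ 3 * A := by ring
      have : 0 ≤ d * (1 / A) := by positivity
      linarith
  have : 0 ≤ d * r ^ 3 := by positivity
  linarith

theorem base_coeff {A r : ℝ} (hA : 1 ≤ A) (hr : 0 ≤ r) (hr1 : r ≤ 1) :
    (1 / A + r ^ 3) / 32 ≤ (1 - r) ^ 2 / (2 * A) + r ^ 3 / 2 := by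
  have hA0 : 0 < A := by linarith
  have hr3 : 0 ≤ r ^ 3 := pow_nonneg hr 3
  have hinv : 1 / A ≤ 1 := (div_le_one hA0).2 hA
  have hinv0 : 0 ≤ 1 / A := by positivity
  rw [show (1 - r) ^ 2 / (2 * A) = (1 - r) ^ 2 / 2 * (1 / A) by field_simp]
  rcases le_total r (1 / 2) with h | h
  · have : 1 / 8 * (1 / A) ≤ (1 - r) ^ 2 / 2 * (1 / A) :=
      mul_le_mul_of_nonneg_right (by nlinarith) hinv0
    linarith
  · have : (1 / 2 : ℝ) ^ 3 ≤ r ^ 3 := pow_le_pow_left₀ (by norm_num) h 3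
    have : 0 ≤ (1 - r) ^ 2 / 2 * (1 / A) := by positivity
    linarith

section Bounds

variable {Θ A τ : ℝ} {θ : Fin 2 → ℝ}

theorem coeff_bounds (hΘ : 1 ≤ Θ) (hA : 0 < A) (hτ : 0 ≤ τ) (hθ : ∀ a, 1 ≤ θ a ∧ θ a ≤ Θ)
    (a : Fin 2) :
    A / (A + τ) / Θ ≤ kap A τ θ a ∧ kap A τ θ a ≤ A / (A + τ) ∧
      1 / (Θ * (A + τ)) ≤ muc A τ θ a ∧ muc A τ θ a ≤ Θ / (A + τ) ∧
        muc A τ θ a ≤ Θ / A * kap A τ θ a ∧ 0 ≤ kap A τ θ a ∧ 0 ≤ muc A τ θ a := by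
  obtain ⟨h1, h2⟩ := hθ a
  have hΓ : 0 < A + τ := by linarith
  have hlo : A + τ ≤ A + τ * θ a := by nlinarith
  have hhi : A + τ * θ a ≤ Θ * (A + τ) := by nlinarith
  have hG : 0 < A + τ * θ a := by linarith
  refine ⟨?_, div_le_div_of_nonneg_left hA.le hΓ hlo, div_le_div₀ (by linarith) h1 hG hhi,
    div_le_div₀ (by linarith) h2 hΓ hlo, ?_, div_nonneg hA.le hG.le,
    div_nonneg (by linarith) hG.le⟩
  · rw [div_div, mul_comm (A + τ) Θ]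
    exact div_le_div_of_nonneg_left hA.le hG hhi
  · have : Θ / A * kap A τ θ a = Θ / (A + τ * θ a) := by
      simp only [kap]; field_simp
    rw [this]
    exact div_le_div_of_nonneg_right h2 hG.le

theorem wtr_mix (A τ : ℝ) (θ : Fin 2 → ℝ) (h : Fin 2 → Fin 2 → ℂ) :
    wtr (mix A τ θ) h =
      τ * wtr (muc A τ θ) h + (1 + τ) * wtr (fun a => muc A τ θ a * kap A τ θ a) h := by
  simp only [wtr, mix, mul_sum, ← sum_add_distrib]
  exact sum_congr rfl fun a _ => by ring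

/-- The trace of the mixed coefficient against the pluriclosed part. -/
theorem mix_trace (hΘ : 1 ≤ Θ) (hA : 0 < A) (hτ : 0 ≤ τ) (hθ : ∀ a, 1 ≤ θ a ∧ θ a ≤ Θ)
    {h : Fin 2 → Fin 2 → ℂ} (hh : Signature h) :
    wtr (mix A τ θ) h ^ 2 ≤ (τ ^ 2 + (1 + τ) ^ 2 * (A / (A + τ)) ^ 2) *
      (wtr (muc A τ θ) h ^ 2 + wsq (muc A τ θ) h) := by
  have hb := coeff_bounds hΘ hA hτ hθ
  set s : ℝ := A / (A + τ) with hs
  have hs0 : 0 < s := div_pos hA (by linarith)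
  set N : ℝ := wsq (muc A τ θ) h
  set Y : ℝ := wtr (muc A τ θ) h
  set Z : ℝ := wtr (fun a => muc A τ θ a * kap A τ θ a) h
  have hn : ∀ a, 0 ≤ muc A τ θ a * kap A τ θ a := fun a =>
    mul_nonneg (hb a).2.2.2.2.2.2 (hb a).2.2.2.2.2.1
  have hZ2 : Z ^ 2 ≤ s ^ 2 * N := by
    refine (wtr_sq_le hh hn).trans ?_
    refine le_trans (wsq_mono hn (v := fun a => s * muc A τ θ a) fun a => ?_)
      (le_of_eq (wsq_smul _ _ _))
    rw [mul_comm s]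
    exact mul_le_mul_of_nonneg_left (hb a).2.1 (hb a).2.2.2.2.2.2
  set z : ℝ := Z / s with hz
  have hz2 : z ^ 2 ≤ N := by
    rw [hz, div_pow, div_le_iff₀ (by positivity)]
    linarith
  have hM : wtr (mix A τ θ) h = τ * Y + (1 + τ) * s * z := by
    rw [wtr_mix, hz, mul_assoc, mul_div_cancel₀ _ hs0.ne']
  rw [hM]
  have h3 := sq_nonneg (τ * z - (1 + τ) * s * Y)
  have h4 := mul_le_mul_of_nonneg_left hz2 (by positivity : (0 : ℝ) ≤ τ ^ 2 + (1 + τ) ^ 2 * s ^ 2)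
  linarith

/-- The main part dominates `(1/A + r³)` times the base block. -/
theorem main_lower (hΘ : 1 ≤ Θ) (hA : 2 * Θ ^ 2 ≤ A) (hτ : 0 ≤ τ) (hθ : ∀ a, 1 ≤ θ a ∧ θ a ≤ Θ)
    {h : Fin 2 → Fin 2 → ℂ} (hh : Signature h) (k : Fin 2 → ℂ) (f : ℝ) :
    1 / (32 * Θ ^ 2) * (1 / A + (τ / (A + τ)) ^ 3) * hsz h
        + 2 * (f + wtr (mix A τ θ) h / 2) ^ 2 + 2 * ∑ a, mix A τ θ a * normSq (k a)
      ≤ mainForm A τ θ h k f := by
  have hΘ2 : 1 ≤ Θ ^ 2 := one_le_pow₀ hΘ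
  have hA1 : 1 ≤ A := by linarith
  have hA0 : 0 < A := by linarith
  have hb := coeff_bounds hΘ hA0 hτ hθ
  have hM2 := mix_trace hΘ hA0 hτ hθ hh
  have hΓ0 : 0 < A + τ := by linarith
  set r : ℝ := τ / (A + τ) with hr
  have hr0 : 0 ≤ r := by positivity
  have hr1 : r ≤ 1 := (div_le_one hΓ0).2 (by linarith)
  have h1r : A / (A + τ) = 1 - r := by rw [hr]; field_simp; ring
  rw [h1r] at hM2
  set N : ℝ := wsq (muc A τ θ) h with hN
  set K : ℝ := wsq (kap A τ θ) h with hK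
  set Y : ℝ := wtr (muc A τ θ) h with hY
  set M : ℝ := wtr (mix A τ θ) h with hM
  have hH0 : 0 ≤ hsz h := hsz_nonneg h
  have hN0 : 0 ≤ N :=
    sum_nonneg fun a _ => sum_nonneg fun c _ =>
      mul_nonneg (mul_nonneg (hb a).2.2.2.2.2.2 (hb c).2.2.2.2.2.2) (normSq_nonneg _)
  have hK0 : 0 ≤ K :=
    sum_nonneg fun a _ => sum_nonneg fun c _ =>
      mul_nonneg (mul_nonneg (hb a).2.2.2.2.2.1 (hb c).2.2.2.2.2.1) (normSq_nonneg _)
  have hY2 : Y ^ 2 ≤ N := wtr_sq_le hh fun a => (hb a).2.2.2.2.2.2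
  have hNK : N ≤ K / (2 * A) := by
    refine ((wsq_mono (fun a => (hb a).2.2.2.2.2.2) (fun a => (hb a).2.2.2.2.1)).trans
      (le_of_eq (wsq_smul (Θ / A) (kap A τ θ) h))).trans ?_
    rw [← hK, div_pow, div_mul_eq_mul_div, div_le_div_iff₀ (by positivity) (by positivity)]
    calc Θ ^ 2 * K * (2 * A) = (2 * Θ ^ 2) * (K * A) := by ring
      _ ≤ A * (K * A) := mul_le_mul_of_nonneg_right hA (by positivity)
      _ = K * A ^ 2 := by ring
  have hP : (1 + τ) ^ 2 * r * N / 2 - N ≤ τ * (1 + τ) * (Y ^ 2 + N) - M ^ 2 / 2 := by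
    have hr2 : r ≤ 1 - (1 - r) ^ 2 := by
      have := mul_le_mul_of_nonneg_left hr1 hr0
      linarith
    have h5 : (1 + τ) ^ 2 * r * N ≤ (1 + τ) ^ 2 * (1 - (1 - r) ^ 2) * (Y ^ 2 + N) :=
      mul_le_mul (mul_le_mul_of_nonneg_left hr2 (sq_nonneg _))
        (by linarith [sq_nonneg Y]) hN0 (mul_nonneg (sq_nonneg _) (hr0.trans hr2))
    linarith
  have hL : 1 / (32 * Θ ^ 2) * (1 / A + r ^ 3) * hsz h ≤
      K / (2 * A) + (1 + τ) ^ 2 * r * N / 2 := by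
    have hKlow : ((1 - r) / Θ) ^ 2 * hsz h ≤ K :=
      (wsq_const _ h).symm.le.trans (wsq_mono (fun _ => div_nonneg (by linarith) (by linarith))
        fun a => h1r ▸ (hb a).1)
    have hNlow : (1 / (Θ * (A + τ))) ^ 2 * hsz h ≤ N :=
      (wsq_const _ h).symm.le.trans (wsq_mono (fun _ => by positivity) fun a => (hb a).2.2.1)
    have hN' : r ^ 3 / Θ ^ 2 * hsz h ≤ (1 + τ) ^ 2 * r * N := by
      refine le_trans ?_ (mul_le_mul_of_nonneg_left hNlow (by positivity))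
      rw [← mul_assoc]
      refine mul_le_mul_of_nonneg_right ?_ hH0
      have hrr : r ≤ (1 + τ) / (A + τ) := div_le_div_of_nonneg_right (by linarith) hΓ0.le
      calc r ^ 3 / Θ ^ 2 = r * r ^ 2 / Θ ^ 2 := by ring
        _ ≤ r * ((1 + τ) / (A + τ)) ^ 2 / Θ ^ 2 := by
          refine div_le_div_of_nonneg_right ?_ (sq_nonneg Θ)
          exact mul_le_mul_of_nonneg_left (pow_le_pow_left₀ hr0 hrr 2) hr0
        _ = (1 + τ) ^ 2 * r * (1 / (Θ * (A + τ))) ^ 2 := by field_simp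
    have hb0 := mul_le_mul_of_nonneg_right (base_coeff hA1 hr0 hr1)
      (by positivity : (0 : ℝ) ≤ hsz h / Θ ^ 2)
    have e1 : 1 / (32 * Θ ^ 2) * (1 / A + r ^ 3) * hsz h =
        (1 / A + r ^ 3) / 32 * (hsz h / Θ ^ 2) := by ring
    have e2 : ((1 - r) ^ 2 / (2 * A) + r ^ 3 / 2) * (hsz h / Θ ^ 2) =
        ((1 - r) / Θ) ^ 2 * hsz h / (2 * A) + r ^ 3 / Θ ^ 2 * hsz h / 2 := by ring
    have e3 := div_le_div_of_nonneg_right hKlow (by positivity : (0 : ℝ) ≤ 2 * A)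
    linarith
  have hsplit : mainForm A τ θ h k f = wtr (kap A τ θ) h ^ 2 / A + (K / A - N) +
      (τ * (1 + τ) * (Y ^ 2 + N) - M ^ 2 / 2 + N) + 2 * (f + M / 2) ^ 2 +
        2 * ∑ a, mix A τ θ a * normSq (k a) := by
    simp only [mainForm, hK, hN, hY, hM]
    ring
  have hX2 : 0 ≤ wtr (kap A τ θ) h ^ 2 / A := by positivity
  have hKA : K / A = K / (2 * A) + K / (2 * A) := by ring
  linarith

/-- The lower bound of the mixed coefficient. -/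
noncomputable def mlow (Θ A τ : ℝ) : ℝ := (τ + A / (A + τ)) / (Θ ^ 2 * (A + τ))

theorem mlow_le_mix (hΘ : 1 ≤ Θ) (hA : 0 < A) (hτ : 0 ≤ τ) (hθ : ∀ a, 1 ≤ θ a ∧ θ a ≤ Θ)
    (a : Fin 2) : mlow Θ A τ ≤ mix A τ θ a := by
  obtain ⟨h1, -, h3, -, -, h6, h7⟩ := coeff_bounds hΘ hA hτ hθ a
  have hΓ : 0 < A + τ := by linarith
  have e : (τ + A / (A + τ)) / Θ ≤ τ + (1 + τ) * kap A τ θ a := by
    have h8 : τ / Θ ≤ τ := div_le_self hτ hΘ
    have h9 : 0 ≤ τ * kap A τ θ a := mul_nonneg hτ h6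
    rw [add_div]
    linarith
  refine le_trans (le_of_eq ?_) (mul_le_mul h3 e (div_nonneg (by positivity) (by linarith)) h7)
  rw [mlow]
  field_simp

theorem mlow_lower (hΘ : 1 ≤ Θ) (hA : 1 ≤ A) (hτ : 0 ≤ τ) :
    1 / (4 * A * Θ ^ 2) ≤ mlow Θ A τ := by
  have hΓ : 0 < A + τ := by linarith
  rw [mlow, div_le_div_iff₀ (by positivity) (by positivity)]
  have h10 : (A + τ) * (A + τ) ≤ 4 * A * (τ * (A + τ) + A) := by
    have := mul_nonneg (mul_nonneg hτ hτ) (by linarith : (0 : ℝ) ≤ A - 1)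
    have := mul_nonneg (mul_nonneg hτ (by linarith : (0 : ℝ) ≤ A)) (by linarith : (0 : ℝ) ≤ A - 1)
    linarith [mul_nonneg hτ hτ, mul_nonneg hτ (by linarith : (0 : ℝ) ≤ A), mul_self_nonneg A]
  refine le_of_mul_le_mul_right ?_ hΓ
  calc 1 * (Θ ^ 2 * (A + τ)) * (A + τ) = Θ ^ 2 * ((A + τ) * (A + τ)) := by ring
    _ ≤ Θ ^ 2 * (4 * A * (τ * (A + τ) + A)) := mul_le_mul_of_nonneg_left h10 (sq_nonneg Θ)
    _ = (τ + A / (A + τ)) * (4 * A * Θ ^ 2) * (A + τ) := by field_simp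

theorem cross_coeff (hA : 1 ≤ A) (hτ : 0 ≤ τ) (hΘ : 1 ≤ Θ) {b : ℝ}
    (hb : b ^ 2 ≤ τ * (1 + τ) * A ^ 2 / (A + τ) ^ 5) :
    b ^ 2 / mlow Θ A τ ≤ Θ ^ 2 * (1 / A ^ 2 + τ / (A + τ) / A) := by
  set Γ : ℝ := A + τ with hΓ
  have hA0 : 0 < A := by linarith
  have hΓ0 : 0 < Γ := by linarith
  have hAΓ : A ≤ Γ := by linarith
  have hnum : 0 < τ + A / Γ := by
    have : 0 < A / Γ := by positivity
    linarith
  rw [mlow, ← hΓ, div_le_iff₀ (div_pos hnum (by positivity))]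
  refine hb.trans ?_
  have h11 : τ * (1 + τ) * A ^ 2 / Γ ^ 5 ≤ (τ + A / Γ) * ((1 + τ) / Γ ^ 2) / Γ := by
    calc τ * (1 + τ) * A ^ 2 / Γ ^ 5 ≤ (τ + A / Γ) * (1 + τ) * Γ ^ 2 / Γ ^ 5 := by
          refine div_le_div_of_nonneg_right ?_ (by positivity)
          refine mul_le_mul (mul_le_mul_of_nonneg_right ?_ (by linarith))
            (pow_le_pow_left₀ hA0.le hAΓ 2) (sq_nonneg A) (by positivity)
          linarith [div_nonneg hA0.le hΓ0.le]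
      _ = (τ + A / Γ) * ((1 + τ) / Γ ^ 2) / Γ := by field_simp
  have h12 : (1 + τ) / Γ ^ 2 ≤ 1 / A ^ 2 + τ / Γ / A := by
    rw [add_div]
    refine add_le_add (div_le_div_of_nonneg_left zero_le_one (by positivity)
      (pow_le_pow_left₀ hA0.le hAΓ 2)) ?_
    rw [div_div, sq]
    exact div_le_div_of_nonneg_left hτ (by positivity) (mul_le_mul_of_nonneg_left hAΓ hΓ0.le)
  refine h11.trans ?_
  calc (τ + A / Γ) * ((1 + τ) / Γ ^ 2) / Γ
      ≤ (τ + A / Γ) * (1 / A ^ 2 + τ / Γ / A) / Γ :=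
        div_le_div_of_nonneg_right (mul_le_mul_of_nonneg_left h12 hnum.le) hΓ0.le
    _ = Θ ^ 2 * (1 / A ^ 2 + τ / Γ / A) * ((τ + A / Γ) / (Θ ^ 2 * Γ)) := by field_simp

theorem cross_le (hA : 1 ≤ A) (hτ : 0 ≤ τ) (hΘ : 1 ≤ Θ) {b C : ℝ}
    (hb : b ^ 2 ≤ τ * (1 + τ) * A ^ 2 / (A + τ) ^ 5)
    (h : Fin 2 → Fin 2 → ℂ) (k : Fin 2 → ℂ) :
    C * b * ((∑ a, ∑ c, ‖h a c‖) * ∑ a, ‖k a‖) ≤ mlow Θ A τ * ∑ a, normSq (k a)
      + 2 * C ^ 2 * Θ ^ 2 * (1 / A ^ 2 + τ / (A + τ) / A) * hsz h := by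
  set S : ℝ := ∑ a, ∑ c, ‖h a c‖ with hS
  set T : ℝ := ∑ a, ‖k a‖ with hT
  have hml : 0 < mlow Θ A τ := lt_of_lt_of_le (by positivity) (mlow_lower hΘ hA hτ)
  set ml : ℝ := mlow Θ A τ
  have hS2 : S ^ 2 ≤ 4 * hsz h := by
    simp only [hS, hsz, Fin.sum_univ_two, normSq_eq_norm_sq]
    linarith [sq_nonneg (‖h 0 0‖ - ‖h 0 1‖), sq_nonneg (‖h 0 0‖ - ‖h 1 0‖),
      sq_nonneg (‖h 0 0‖ - ‖h 1 1‖), sq_nonneg (‖h 0 1‖ - ‖h 1 0‖),
      sq_nonneg (‖h 0 1‖ - ‖h 1 1‖), sq_nonneg (‖h 1 0‖ - ‖h 1 1‖)]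
  have hT2 : T ^ 2 ≤ 2 * ∑ a, normSq (k a) := by
    simp only [hT, Fin.sum_univ_two, normSq_eq_norm_sq]
    linarith [sq_nonneg (‖k 0‖ - ‖k 1‖)]
  have hamgm : C * b * (S * T) ≤ ml * (T ^ 2 / 2) + C ^ 2 * (b ^ 2 / ml) * (S ^ 2 / 2) := by
    have h13 : 0 ≤ (ml * T - C * b * S) ^ 2 / (2 * ml) := by positivity
    have h14 : (ml * T - C * b * S) ^ 2 / (2 * ml) =
        ml * (T ^ 2 / 2) + C ^ 2 * (b ^ 2 / ml) * (S ^ 2 / 2) - C * b * (S * T) := by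
      field_simp; ring
    linarith
  refine hamgm.trans ?_
  have h15 : ml * (T ^ 2 / 2) ≤ ml * ∑ a, normSq (k a) :=
    mul_le_mul_of_nonneg_left (by linarith) hml.le
  have h16 : C ^ 2 * (b ^ 2 / ml) * (S ^ 2 / 2) ≤
      C ^ 2 * (Θ ^ 2 * (1 / A ^ 2 + τ / (A + τ) / A)) * (2 * hsz h) :=
    mul_le_mul (mul_le_mul_of_nonneg_left (cross_coeff hA hτ hΘ hb) (sq_nonneg C)) (by linarith)
      (by positivity) (by positivity)
  linarith

theorem mix_trace_le (hΘ : 1 ≤ Θ) (hA : 1 ≤ A) (hτ : 0 ≤ τ) (hθ : ∀ a, 1 ≤ θ a ∧ θ a ≤ Θ)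
    {h : Fin 2 → Fin 2 → ℂ} (hh : Signature h) : wtr (mix A τ θ) h ^ 2 ≤ 4 * Θ ^ 2 * hsz h := by
  have hA0 : 0 < A := by linarith
  have hb := coeff_bounds hΘ hA0 hτ hθ
  have hΓ : 0 < A + τ := by linarith
  have hY2 := wtr_sq_le hh fun a => (hb a).2.2.2.2.2.2
  have hNH : wsq (muc A τ θ) h ≤ (Θ / (A + τ)) ^ 2 * hsz h :=
    (wsq_mono (fun a => (hb a).2.2.2.2.2.2) fun a => (hb a).2.2.2.1).trans
      (le_of_eq (wsq_const _ h))
  have h17 : τ ^ 2 + (1 + τ) ^ 2 * (A / (A + τ)) ^ 2 ≤ 2 * (1 + τ) ^ 2 := by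
    have h18 : (A / (A + τ)) ^ 2 ≤ 1 :=
      pow_le_one₀ (by positivity) ((div_le_one hΓ).2 (by linarith))
    have h19 := mul_le_mul_of_nonneg_left h18 (sq_nonneg (1 + τ))
    linarith
  calc wtr (mix A τ θ) h ^ 2
      ≤ 2 * (1 + τ) ^ 2 * (2 * ((Θ / (A + τ)) ^ 2 * hsz h)) :=
        (mix_trace hΘ hA0 hτ hθ hh).trans (mul_le_mul h17 (by linarith)
          (add_nonneg (sq_nonneg _) ((sq_nonneg _).trans hY2)) (by positivity))
    _ = 4 * Θ ^ 2 * ((1 + τ) / (A + τ)) ^ 2 * hsz h := by field_simp; ring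
    _ ≤ 4 * Θ ^ 2 * hsz h := by
        refine mul_le_mul_of_nonneg_right (mul_le_of_le_one_right (by positivity) ?_) (hsz_nonneg h)
        exact pow_le_one₀ (by positivity) ((div_le_one hΓ).2 (by linarith))

end Bounds

/-- Uniform positivity of the curvature form for large `A`. -/
theorem form_lower (Θ C : ℝ) (hΘ : 1 ≤ Θ) (hC : 0 ≤ C) :
    ∃ A₀ : ℝ, 1 ≤ A₀ ∧ ∀ A, A₀ ≤ A → ∃ c : ℝ, 0 < c ∧
      ∀ (τ : ℝ) (θ : Fin 2 → ℝ), 0 ≤ τ → (∀ a, 1 ≤ θ a ∧ θ a ≤ Θ) →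
      ∀ (h : Fin 2 → Fin 2 → ℂ) (k : Fin 2 → ℂ) (f E X b : ℝ), Signature h →
        b ^ 2 ≤ τ * (1 + τ) * A ^ 2 / (A + τ) ^ 5 →
        |E| ≤ C * (1 / A ^ 2 + τ / (A + τ) / A) * hsz h →
        |X| ≤ C * b * ((∑ a, ∑ c, ‖h a c‖) * ∑ a, ‖k a‖) →
        c * (hsz h + f ^ 2 + ∑ a, normSq (k a)) ≤ mainForm A τ θ h k f + E + X := by
  set c0 : ℝ := 1 / (32 * Θ ^ 2) with hc0
  set C' : ℝ := C + 2 * C ^ 2 * Θ ^ 2 with hC'
  have hc00 : 0 < c0 := by positivity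
  have hC'0 : 0 ≤ C' := by positivity
  set d : ℝ := min 1 (c0 / (4 * C' + 1)) with hd
  have hd0 : 0 < d := lt_min one_pos (by positivity)
  have hd1 : d ≤ 1 := min_le_left _ _
  have hdC : 4 * C' * d ≤ c0 := by
    have : d * (4 * C' + 1) ≤ c0 := (le_div_iff₀ (by positivity)).1 (min_le_right _ _)
    linarith
  have hΘ2 : 1 ≤ Θ ^ 2 := one_le_pow₀ hΘ
  refine ⟨max (2 * Θ ^ 2) (1 / d ^ 3), le_max_of_le_left (by linarith), fun A hA => ?_⟩
  have hA2 : 2 * Θ ^ 2 ≤ A := (le_max_left _ _).trans hA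
  have hA1 : 1 ≤ A := by linarith
  have hA0 : 0 < A := by linarith
  set c : ℝ := min (min 1 (1 / (4 * A * Θ ^ 2))) (c0 / (2 * A * (1 + 2 * Θ ^ 2))) with hc
  have hcpos : 0 < c := lt_min (lt_min one_pos (by positivity)) (by positivity)
  refine ⟨c, hcpos, ?_⟩
  intro τ θ hτ hθ h k f E X b hh hb2 hE hX
  have hmain := main_lower hΘ hA2 hτ hθ hh k f
  set r : ℝ := τ / (A + τ) with hr
  have hr0 : 0 ≤ r := by positivity
  set H : ℝ := hsz h with hH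
  have hH0 : 0 ≤ H := hsz_nonneg h
  set J : ℝ := ∑ a, normSq (k a) with hJ
  have hJ0 : 0 ≤ J := sum_nonneg fun _ _ => normSq_nonneg _
  have hmk : mlow Θ A τ * J ≤ ∑ a, mix A τ θ a * normSq (k a) := by
    rw [hJ, mul_sum]
    exact sum_le_sum fun a _ =>
      mul_le_mul_of_nonneg_right (mlow_le_mix hΘ hA0 hτ hθ a) (normSq_nonneg _)
  have hX' := hX.trans (cross_le hA1 hτ hΘ hb2 h k)
  have herr : C' * (1 / A ^ 2 + r / A) * H ≤ c0 / 2 * (1 / A + r ^ 3) * H := by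
    refine mul_le_mul_of_nonneg_right ?_ hH0
    refine (mul_le_mul_of_nonneg_left (small_error hd0 hd1 ((le_max_right _ _).trans hA) hr0)
      hC'0).trans ?_
    have := mul_le_mul_of_nonneg_right hdC (by positivity : (0 : ℝ) ≤ 1 / A + r ^ 3)
    linarith
  have hcA : c0 / (2 * A) * H ≤ c0 / 2 * (1 / A + r ^ 3) * H := by
    refine mul_le_mul_of_nonneg_right ?_ hH0
    have : 0 ≤ c0 / 2 * r ^ 3 := by positivity
    calc c0 / (2 * A) = c0 / 2 * (1 / A) := by ring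
      _ ≤ _ := by linarith
  set M : ℝ := wtr (mix A τ θ) h with hM
  have hlow : c0 / (2 * A) * H + 2 * (f + M / 2) ^ 2 + mlow Θ A τ * J
      ≤ mainForm A τ θ h k f + E + X := by
    have := neg_abs_le E
    have := neg_abs_le X
    linarith
  refine le_trans ?_ hlow
  have hf : f ^ 2 ≤ 2 * (f + M / 2) ^ 2 + 2 * Θ ^ 2 * H := by
    linarith [sq_nonneg (f + M), mix_trace_le hΘ hA1 hτ hθ hh]
  have h20 : c * ((1 + 2 * Θ ^ 2) * H) ≤ c0 / (2 * A) * H := by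
    rw [← mul_assoc]
    refine mul_le_mul_of_nonneg_right ?_ hH0
    calc c * (1 + 2 * Θ ^ 2) ≤ c0 / (2 * A * (1 + 2 * Θ ^ 2)) * (1 + 2 * Θ ^ 2) :=
          mul_le_mul_of_nonneg_right (min_le_right _ _) (by positivity)
      _ = c0 / (2 * A) := by field_simp
  have h21 : c * J ≤ mlow Θ A τ * J :=
    mul_le_mul_of_nonneg_right
      (((min_le_left _ _).trans (min_le_right _ _)).trans (mlow_lower hΘ hA1 hτ)) hJ0
  have h22 : c * (2 * (f + M / 2) ^ 2) ≤ 2 * (f + M / 2) ^ 2 :=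
    mul_le_of_le_one_left (by positivity) ((min_le_left _ _).trans (min_le_left _ _))
  have h23 := mul_le_mul_of_nonneg_left hf hcpos.le
  linarith

end Vale.Agent.P250.Full.Pinch
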