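import Vale.Agent.P250.Full.Pinch.Reduction
import Vale.Agent.P250.Full.CurvGeneral
import Vale.Agent.P250.Full.CurvPull

/-!
Negative pinching of the example.
-/

namespace Vale.Agent.P250.Full

/-- The example is negatively pinched for large `A`. -/
theorem pinch : PinchStmt := Pinch.pinch_of kahlerCurv pullCurv

end Vale.Agent.P250.Full
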