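import Vale.Agent.P250.Full.Defs

/-!
Interfaces between the modules of the P250 disproof.
-/

namespace Vale.Agent.P250.Full

open Complex MeasureTheory Set
open scoped ComplexConjugate ContDiff Real

/-- The open shell `R'² < |z|² < R²`. -/
def shell (R' R : ℝ) : Set (Fin 2 → ℂ) := {z | R' ^ 2 < nsq z ∧ nsq z < R ^ 2}

/-- The part of a shell whose slice coordinate along `e` lies in `E`. -/
def sliceSet (R' R : ℝ) (e : Fin 2 → ℂ) (E : Set ℂ) : Set (Fin 2 → ℂ) :=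
  {z | z ∈ shell R' R ∧ ip z e ∈ E}

/-- Closed ball of radius `R` in `ℂ²`. -/
def cball2 (R : ℝ) : Set (Fin 2 → ℂ) := {z | nsq z ≤ R ^ 2}

/-- The depth of the shell between layers `n` and `n + 1`. -/
noncomputable def depth (D : ℝ) (n : ℕ) : ℝ := Real.exp (-(((n : ℝ) + 1 / 2) * D))

/-- The shell between layers `n` and `n + 1`. -/
def layerShell (D : ℝ) (n : ℕ) : Set (Fin 2 → ℂ) :=
  {z | depth D n / 2 < 1 - nsq z ∧ 1 - nsq z < depth D n}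

/-- The Levi form of a real function. -/
noncomputable def levQ (f : (Fin 2 → ℂ) → ℝ) (z v : Fin 2 → ℂ) : ℝ :=
  (∑ a, ∑ b, lev f a b z * v a * conj (v b)).re

/-! ### Geometry and integration -/

/-- The triangle inequality in the closed ball. -/
def TriangleStmt : Prop :=
  ∀ z w v : Fin 2 → ℂ, nsq z ≤ 1 → nsq w ≤ 1 → nsq v ≤ 1 →
    Real.sqrt ‖1 - ip z v‖ ≤ Real.sqrt ‖1 - ip z w‖ + Real.sqrt ‖1 - ip w v‖

/-- Slice volumes in a shell. -/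
def ShellVolumeStmt : Prop :=
  ∀ (R' R : ℝ), 0 < R' → R' < R → ∀ e ∈ sph, ∀ E : Set ℂ, MeasurableSet E →
    volume (sliceSet R' R e E) ≤ ENNReal.ofReal (π * (R ^ 2 - R' ^ 2)) * volume E ∧
    (E ⊆ Metric.ball 0 R' →
      volume (sliceSet R' R e E) = ENNReal.ofReal (π * (R ^ 2 - R' ^ 2)) * volume E)

/-- The uniform measure on the part of a shell over a slice disc represents the centre. -/
def ShellMeanStmt : Prop :=
  ∀ (R' R r : ℝ) (c : ℂ), 0 < R' → R' < R → 0 < r → ‖c‖ + r ≤ R' → ∀ e ∈ sph,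
    ∀ (V : Set (Fin 2 → ℂ)) (h : (Fin 2 → ℂ) → ℝ), IsOpen V → cball2 R ⊆ V →
      ContDiffOn ℝ 2 h V → (∀ z ∈ V, ∀ v, levQ h z v = 0) →
        ∫ z in sliceSet R' R e (Metric.ball c r), h z
          = π * (R ^ 2 - R' ^ 2) * (π * r ^ 2) * h (c • e)

/-- Existence of nets. -/
def NetStmt : Prop := ∀ t : ℝ, 0 < t → IsNet t (net t)

/-- A layer of cells sums. -/
def LayerSumStmt : Prop :=
  ∃ C : ℝ, 0 < C ∧ ∀ t : ℝ, 0 < t → t ≤ 1 / 1000 → ∀ z ∈ ball2,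
    ∑ e ∈ net t, ‖vc t (ip z e)‖ ^ 5 ≤ C ∧
    ∑ e ∈ net t, ‖vc t (ip z e)‖ ^ 5 ≤ C * (t / (1 - nsq z)) ^ 3

/-- Nets have full density near the slice point `r`. -/
def CountStmt : Prop :=
  ∃ c K : ℝ, 0 < c ∧ 0 < K ∧ ∀ (t r : ℝ), 0 < t → r < 1 → K * t ≤ 1 - r → 1 - r ≤ 1 / 4 →
    ∀ x ∈ sph, c * (1 - r) ^ 2
      ≤ t ^ 2 * ((net t).filter fun e => ‖ip e x - (r : ℂ)‖ ≤ (1 - r) / 4).card

/-! ### One variable -/

/-- The profile. -/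
def ProfStmt : Prop :=
  ∀ ρ : ℝ, 0 < ρ → ρ ≤ 1 / 10 → ContDiff ℝ ∞ (prof ρ) ∧
    (∀ x, 3 * ρ ^ 2 / 4 ≤ x → prof ρ x = Real.log x) ∧
    (∀ x, 0 ≤ x → x ≤ 1 → prof ρ x ≤ 0) ∧
    (∀ x, 0 ≤ x → x ≤ ρ ^ 2 / 4 → prof ρ x ≤ Real.log (3 * ρ ^ 2 / 4))

/-- Bounds on one cell; the constant of the first three does not depend on `ρ`. -/
def CellStmt : Prop :=
  (∃ C : ℝ, 0 < C ∧ ∀ ρ t : ℝ, 0 < ρ → ρ ≤ 1 / 10 → 0 < t → t ≤ 1 / 1000 → ∀ s : ℂ, ‖s‖ < 1 →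
    cell1 ρ t s ≤ C * ‖vc t s‖ ^ 5 ∧
    (‖vc t s‖ ≤ 1 / 8 → |cell1 ρ t s| ≤ C * ‖vc t s‖ ^ 5) ∧
    (‖s - (av t : ℂ)‖ ≤ ρ * t / 4 → cell1 ρ t s ≤ 2 * Real.log ρ + C)) ∧
  ∀ ρ : ℝ, 0 < ρ → ρ ≤ 1 / 10 → ∃ C : ℝ, 0 < C ∧ ∀ t : ℝ, 0 < t → t ≤ 1 / 1000 →
    ∀ s s' : ℂ, ‖s‖ < 1 → ‖s'‖ < 1 → ‖s - s'‖ ≤ ‖1 - (av t : ℂ) * s‖ / 2 →
      |cell1 ρ t s' - cell1 ρ t s|
        ≤ C * ‖vc t s‖ ^ 5 * ‖s - s'‖ / ‖1 - (av t : ℂ) * s‖

/-! ### The weight -/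

/-- Smoothness of the weight; near any point all but finitely many layers are pluriharmonic. -/
def PhiStmt : Prop :=
  ∀ ρ D : ℝ, 0 < ρ → ρ ≤ 1 / 10 → 7 ≤ D →
    ContDiffOn ℝ ∞ (phi ρ D) ball2 ∧
    ∀ z ∈ ball2, ∀ M : ℕ, 50 * tl D (M + 1) ≤ 1 - nsq z → ∀ a b,
      lev (phi ρ D) a b z
        = ∑ n ∈ Finset.range M, ∑ e ∈ net (tl D (n + 1)), lev (gam ρ (tl D (n + 1)) e) a b z

/-- A layer has a small Levi form away from its depth. -/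
def LayerStmt : Prop :=
  ∀ ρ : ℝ, 0 < ρ → ρ ≤ 1 / 10 → ∃ C : ℝ, 0 < C ∧ ∀ t : ℝ, 0 < t → t ≤ 1 / 1000 →
    ∀ z ∈ ball2, ∀ v : Fin 2 → ℂ,
      (∀ e ∈ sph, 0 ≤ levQ (gam ρ t e) z v) ∧
      (8 * t < 1 - nsq z → ∑ e ∈ net t, levQ (gam ρ t e) z v = 0) ∧
      ∑ e ∈ net t, levQ (gam ρ t e) z v
        ≤ C * (normSq (ip v z) / t ^ 2 + nsq v / t)

/-- The weight is the sum of its layers, uniformly absolutely away from the sphere. -/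
def PhiSumStmt : Prop :=
  ∀ ρ D : ℝ, 0 < ρ → ρ ≤ 1 / 10 → 7 ≤ D → ∀ z ∈ ball2,
    Summable fun n : ℕ => ∑ e ∈ net (tl D (n + 1)), cell ρ D (n + 1) e z

/-- The basic step: from any point of a shell the weight drops along some point of the next
shell, relative to any pluriharmonic function. -/
def StepStmt : Prop :=
  ∃ ρ D q : ℝ, 0 < ρ ∧ ρ ≤ 1 / 10 ∧ 7 ≤ D ∧ 0 < q ∧
    ∀ n : ℕ, 1 ≤ n → ∀ x ∈ layerShell D n, ∀ h : (Fin 2 → ℂ) → ℝ,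
      ContDiffOn ℝ 2 h ball2 → (∀ z ∈ ball2, ∀ v, levQ h z v = 0) → ∀ N : ℝ, 0 < N →
        ∃ y ∈ layerShell D (n + 1), N * phi ρ D y - h y ≤ N * phi ρ D x - h x - N * q

/-- A bounded model gives a zero-free holomorphic function below the weight. -/
def JacobianStmt : Prop :=
  ∀ W : (Fin 2 → ℂ) → ℝ, ContinuousOn W ball2 → IsBiholomorphicToBoundedDomain (dom W) →
    ∃ (G : (Fin 2 → ℂ) → ℂ) (C : ℝ), 0 < C ∧ DifferentiableOn ℂ G ball2 ∧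
      ∀ z ∈ ball2, G z ≠ 0 ∧ normSq (G z) ≤ C * Real.exp (W z) / (1 - nsq z) ^ 4

/-- No bounded model for some coupling constant. -/
def ObstructionStmt : Prop :=
  ∃ ρ D N : ℝ, 0 < ρ ∧ ρ ≤ 1 / 10 ∧ 7 ≤ D ∧ 0 ≤ N ∧
    ¬ IsBiholomorphicToBoundedDomain (dom (Phi ρ D N))

/-! ### The metric -/

/-- The ball automorphism exchanging `0` and `a`. -/
noncomputable def aut (a z : Fin 2 → ℂ) : Fin 2 → ℂ :=
  (1 - ip z a)⁻¹ • (a - (ip z a / ip a a) • a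
    - (Real.sqrt (1 - nsq a) : ℂ) • (z - (ip z a / ip a a) • a))

/-- Weights of bounded geometry with Levi form at least the ball metric. -/
def BoundedGeometry (W : (Fin 2 → ℂ) → ℝ) : Prop :=
  ContDiffOn ℝ ∞ W ball2 ∧ ∃ C : ℝ, ∀ a ∈ ball2,
    (∀ v, nsq v ≤ levQ (fun z => W (aut a z)) 0 v) ∧
    ∀ i j, ∀ k ≤ 2, ‖iteratedFDeriv ℝ k (fun z => lev (fun z' => W (aut a z')) i j z) 0‖ ≤ C

/-- The weight has bounded geometry. -/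
def GeometryStmt : Prop :=
  ∀ ρ D N : ℝ, 0 < ρ → ρ ≤ 1 / 10 → 7 ≤ D → 0 ≤ N → BoundedGeometry (Phi ρ D N)

/-- Kähler's identity for the Levi-Civita curvature. -/
def KahlerCurvStmt : Prop :=
  ∀ {n : ℕ} (U : Set (Fin n → ℂ)) (g : (Fin n → ℂ) → Matrix (Fin n) (Fin n) ℂ),
    IsOpen U → IsKahlerMetric U g → ∀ p ∈ U, ∀ X Y : Fin n → ℂ,
      curv g p X Y Y X = (∑ i, ∑ j, ∑ k, ∑ l,
        (wd k (fun q => wdb l (fun q' => g q' i j) q) p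
          - ∑ r, ∑ s, wd k (fun q => g q i r) p * (g p)⁻¹ r s * wdb l (fun q => g q s j) p)
        * (X i * conj (Y j) - Y i * conj (X j)) * (X k * conj (Y l) - Y k * conj (X l))).re / 2

/-- The pullback of a metric by a holomorphic map. -/
noncomputable def pull {n : ℕ} (H : (Fin n → ℂ) → Fin n → ℂ)
    (g : (Fin n → ℂ) → Matrix (Fin n) (Fin n) ℂ) (p : Fin n → ℂ) : Matrix (Fin n) (Fin n) ℂ :=
  fun i j => ∑ a, ∑ b, fderiv ℂ H p (Pi.single i 1) a * g (H p) a b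
    * conj (fderiv ℂ H p (Pi.single j 1) b)

/-- Curvature is natural under holomorphic local diffeomorphisms. -/
def PullStmt : Prop :=
  ∀ {n : ℕ} (U V : Set (Fin n → ℂ)) (g : (Fin n → ℂ) → Matrix (Fin n) (Fin n) ℂ)
    (H : (Fin n → ℂ) → Fin n → ℂ), IsOpen U → IsOpen V → IsKahlerMetric U g →
      DifferentiableOn ℂ H V → ContDiffOn ℝ ∞ H V → MapsTo H V U →
      (∀ p ∈ V, Function.Injective (fderiv ℂ H p)) → ∀ p ∈ V, ∀ X Y : Fin n → ℂ,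
        curv (pull H g) p X Y Y X
          = curv g (H p) (fderiv ℂ H p X) (fderiv ℂ H p Y) (fderiv ℂ H p Y) (fderiv ℂ H p X)

/-- The metric is the complex Hessian of its potential. -/
def MetPotStmt : Prop :=
  ∀ (A : ℝ) (W : (Fin 2 → ℂ) → ℝ), ContDiffOn ℝ ∞ W ball2 → ∀ p ∈ dom W, ∀ i j,
    met A W p i j = wd i (fun q => wdb j
      (fun q' => ((A * lb (zc q') - Real.log (1 - xc W q') : ℝ) : ℂ)) q) p

/-- The example is a Kähler metric on a contractible domain. -/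
def KahlerStmt : Prop :=
  ∀ (A : ℝ) (W : (Fin 2 → ℂ) → ℝ), 0 < A → ContDiffOn ℝ ∞ W ball2 →
    (∀ z ∈ ball2, ∀ v, 0 ≤ levQ W z v) →
      IsOpen (dom W) ∧ IsConnected (dom W) ∧ SimplyConnectedSpace (dom W) ∧
        IsKahlerMetric (dom W) (met A W)

/-- The example is complete. -/
def CompleteStmt : Prop :=
  ∀ (A : ℝ) (W : (Fin 2 → ℂ) → ℝ), 1 ≤ A → ContDiffOn ℝ ∞ W ball2 →
    (∀ z ∈ ball2, ∀ v, 0 ≤ levQ W z v) → IsGeodesicallyComplete (dom W) (met A W)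

/-- Pinching for large `A`. -/
def PinchStmt : Prop :=
  ∀ W : (Fin 2 → ℂ) → ℝ, BoundedGeometry W →
    ∃ A₀ : ℝ, 1 ≤ A₀ ∧ ∀ A : ℝ, A₀ ≤ A → IsNegativelyPinched (dom W) (met A W)

end Vale.Agent.P250.Full
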