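import Mathlib

/-!
Vocabulary for the negative answer to P250 on open subsets of complex coordinate space.
Everything is the textbook coordinate definition; nothing here mentions the example.
-/

namespace Vale.Agent.P250.Full

open Complex Matrix
open scoped ContDiff ComplexConjugate ComplexOrder

variable {n : ℕ}

/-- The Wirtinger derivative `∂ f / ∂ z_i`. -/
noncomputable def wd (i : Fin n) (f : (Fin n → ℂ) → ℂ) (p : Fin n → ℂ) : ℂ :=
  (fderiv ℝ f p (Pi.single i 1) - I * fderiv ℝ f p (Pi.single i I)) / 2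

/-- The Wirtinger derivative `∂ f / ∂ conj z_i`. -/
noncomputable def wdb (i : Fin n) (f : (Fin n → ℂ) → ℂ) (p : Fin n → ℂ) : ℂ :=
  (fderiv ℝ f p (Pi.single i 1) + I * fderiv ℝ f p (Pi.single i I)) / 2

/-- The Riemannian metric `Re ∑ g i j X_i conj Y_j` of a Hermitian matrix field `g`. -/
noncomputable def rMet (g : (Fin n → ℂ) → Matrix (Fin n) (Fin n) ℂ) (p X Y : Fin n → ℂ) : ℝ :=
  (∑ i, ∑ j, g p i j * X i * conj (Y j)).re

/-- Christoffel symbols of the first kind of the real metric `rMet g`. -/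
noncomputable def chr (g : (Fin n → ℂ) → Matrix (Fin n) (Fin n) ℂ)
    (p X Y W : Fin n → ℂ) : ℝ :=
  (fderiv ℝ (fun q => rMet g q Y W) p X + fderiv ℝ (fun q => rMet g q X W) p Y
    - fderiv ℝ (fun q => rMet g q X Y) p W) / 2

/-- The vector `V` with `rMet g p V W = l W`, for a real linear functional `l`. -/
noncomputable def sharp (g : (Fin n → ℂ) → Matrix (Fin n) (Fin n) ℂ) (p : Fin n → ℂ)
    (l : (Fin n → ℂ) → ℝ) : Fin n → ℂ :=
  ((g p).transpose)⁻¹ *ᵥ fun j => (l (Pi.single j 1) : ℂ) + I * (l (Pi.single j I) : ℂ)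

/-- The Riemann curvature `⟨∇_X ∇_Y Z - ∇_Y ∇_X Z, W⟩` of the Levi-Civita connection, for
constant coordinate fields. -/
noncomputable def curv (g : (Fin n → ℂ) → Matrix (Fin n) (Fin n) ℂ)
    (p X Y Z W : Fin n → ℂ) : ℝ :=
  fderiv ℝ (fun q => chr g q Y Z W) p X - fderiv ℝ (fun q => chr g q X Z W) p Y
    - rMet g p (sharp g p (chr g p Y Z)) (sharp g p (chr g p X W))
    + rMet g p (sharp g p (chr g p X Z)) (sharp g p (chr g p Y W))

/-- The squared area of the parallelogram spanned by `X` and `Y`. -/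
noncomputable def area (g : (Fin n → ℂ) → Matrix (Fin n) (Fin n) ℂ) (p X Y : Fin n → ℂ) : ℝ :=
  rMet g p X X * rMet g p Y Y - rMet g p X Y ^ 2

/-- A smooth Kähler metric on `U`: smooth, positive definite Hermitian, closed Kähler form. -/
def IsKahlerMetric (U : Set (Fin n → ℂ)) (g : (Fin n → ℂ) → Matrix (Fin n) (Fin n) ℂ) : Prop :=
  (∀ i j, ContDiffOn ℝ ∞ (fun q => g q i j) U) ∧
    ∀ p ∈ U, (g p).PosDef ∧
      ∀ i j k, wd i (fun q => g q j k) p = wd j (fun q => g q i k) p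

/-- Every geodesic of `rMet g` is defined for all real times and stays in `U`. -/
def IsGeodesicallyComplete (U : Set (Fin n → ℂ))
    (g : (Fin n → ℂ) → Matrix (Fin n) (Fin n) ℂ) : Prop :=
  ∀ p ∈ U, ∀ v : Fin n → ℂ, ∃ c c' : ℝ → Fin n → ℂ, c 0 = p ∧ c' 0 = v ∧
    ∀ t, c t ∈ U ∧ HasDerivAt c (c' t) t ∧
      HasDerivAt c' (-sharp g (c t) (chr g (c t) (c' t) (c' t))) t

/-- All sectional curvatures lie in `[-b, -a]` for some constants `0 < a ≤ b`. -/
def IsNegativelyPinched (U : Set (Fin n → ℂ))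
    (g : (Fin n → ℂ) → Matrix (Fin n) (Fin n) ℂ) : Prop :=
  ∃ a b : ℝ, 0 < a ∧ a ≤ b ∧ ∀ p ∈ U, ∀ X Y : Fin n → ℂ,
    -b * area g p X Y ≤ curv g p X Y Y X ∧ curv g p X Y Y X ≤ -a * area g p X Y

/-- `U` is biholomorphic to a bounded domain of `ℂⁿ`. -/
def IsBiholomorphicToBoundedDomain (U : Set (Fin n → ℂ)) : Prop :=
  ∃ (V : Set (Fin n → ℂ)) (F G : (Fin n → ℂ) → Fin n → ℂ),
    IsOpen V ∧ IsConnected V ∧ Bornology.IsBounded V ∧
      Set.MapsTo F U V ∧ Set.MapsTo G V U ∧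
      (∀ p ∈ U, G (F p) = p) ∧ (∀ q ∈ V, F (G q) = q) ∧
      DifferentiableOn ℂ F U ∧ DifferentiableOn ℂ G V

/-- The negation of Q1 of P250, witnessed in dimension three. -/
def Disproof : Prop :=
  ∃ (U : Set (Fin 3 → ℂ)) (g : (Fin 3 → ℂ) → Matrix (Fin 3) (Fin 3) ℂ),
    IsOpen U ∧ IsConnected U ∧ SimplyConnectedSpace U ∧ IsKahlerMetric U g ∧
      IsGeodesicallyComplete U g ∧ IsNegativelyPinched U g ∧
      ¬ IsBiholomorphicToBoundedDomain U

end Vale.Agent.P250.Full
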