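import Vale.Agent.P250.Full.Step.Prep

/-!
The basic step: from a point of one shell the weight drops, relative to any pluriharmonic
function, somewhere in the next shell.
-/

namespace Vale.Agent.P250.Full

open Complex MeasureTheory Set Step
open scoped ComplexConjugate ContDiff Real

namespace Step

variable {ρ D : ℝ} {n : ℕ}

theorem scales (hD : 7 ≤ D) (hg : layGap D ≤ 1 / 200) (hn : 1 ≤ n) :
    depth D n ≤ 1 / 4 ∧ tl D (n + 1) ≤ depth D n / 40000 ∧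
      depth D (n + 1) ≤ tl D (n + 1) / 40000 := by
  have h0 := layGap_pos D
  have hg2 : layGap D ^ 2 ≤ 1 / 40000 :=
    (pow_le_pow_left₀ h0.le hg 2).trans (le_of_eq (by norm_num))
  have hdn : 0 < depth D n := Real.exp_pos _
  refine ⟨?_, ?_, ?_⟩
  · rw [depth_eq]
    have h1 := Weight.tl_le_tl (D := D) (by linarith) hn
    have h2 : tl D 1 ≤ 1 / 1000 := Weight.tl_le hD 0
    refine (mul_le_mul (h1.trans h2) hg2 (by positivity) (by norm_num)).trans ?_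
    norm_num
  · rw [tl_succ_eq]
    exact (mul_le_mul_of_nonneg_left hg2 hdn.le).trans (le_of_eq (by ring))
  · rw [depth_eq D (n + 1)]
    exact (mul_le_mul_of_nonneg_left hg2 (Weight.tl_pos D _).le).trans (le_of_eq (by ring))

/-- The weight gains at most the own layer and a small error. -/
theorem phi_gain (hD : 7 ≤ D) (hg : layGap D ≤ 1 / 200) (hρ : 0 < ρ) (hρ' : ρ ≤ 1 / 10)
    {C Cρ CL : ℝ} (hC : 0 < C) (hCρ : 0 < Cρ) (hCL : 0 < CL)
    (hcell : ∀ t : ℝ, 0 < t → t ≤ 1 / 1000 → ∀ s : ℂ, ‖s‖ < 1 → ‖vc t s‖ ≤ 1 / 8 →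
      |cell1 ρ t s| ≤ C * ‖vc t s‖ ^ 5)
    (hosc : ∀ t : ℝ, 0 < t → t ≤ 1 / 1000 → ∀ s s' : ℂ, ‖s‖ < 1 → ‖s'‖ < 1 →
      ‖s - s'‖ ≤ ‖1 - (av t : ℂ) * s‖ / 2 →
        |cell1 ρ t s' - cell1 ρ t s| ≤ Cρ * ‖vc t s‖ ^ 5 * ‖s - s'‖ / ‖1 - (av t : ℂ) * s‖)
    (hsum : ∀ t : ℝ, 0 < t → t ≤ 1 / 1000 → ∀ z ∈ ball2,
      ∑ e ∈ net t, ‖vc t (ip z e)‖ ^ 5 ≤ CL ∧
      ∑ e ∈ net t, ‖vc t (ip z e)‖ ^ 5 ≤ CL * (t / (1 - nsq z)) ^ 3)
    {x y ζ : Fin 2 → ℂ} {r : ℝ} (hx : x ∈ layerShell D n) (hxζ : x = (r : ℂ) • ζ) (hζ : ζ ∈ sph)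
    (hr0 : 0 ≤ r) (hr1 : r < 1) (hδ1 : 1 - r ≤ depth D n)
    (hy : y ∈ ball2) (hyd : depth D (n + 1) / 2 < 1 - nsq y)
    (hyr : ‖1 - ip y ζ‖ ≤ 3 / 2 * (1 - r)) :
    phi ρ D y - phi ρ D x
      ≤ lay ρ D n y + (18 * (Cρ * CL) + 10 * (C * CL)) * layGap D := by
  set η := layGap D with hηdef
  have hη : 0 < η := layGap_pos D
  have hCC : 0 < C * CL := mul_pos hC hCL
  have hCρL : 0 < Cρ * CL := mul_pos hCρ hCL
  have hη2 : η ^ 2 ≤ η / 200 := by
    rw [sq]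
    exact (mul_le_mul_of_nonneg_left hg hη.le).trans (le_of_eq (by ring))
  have hη4 : η ^ 4 ≤ η := by
    calc η ^ 4 ≤ η ^ 1 := pow_le_pow_of_le_one hη.le (by linarith) (by norm_num)
      _ = η := pow_one η
  have hgeo : ∀ k : ℕ, (η ^ 4) ^ k ≤ (1 / 2) ^ k := fun k =>
    pow_le_pow_left₀ (by positivity) (by linarith) k
  have hhalf : ∀ k : ℕ, ((1 : ℝ) / 2) ^ k ≤ 1 := fun k =>
    pow_le_one₀ (by norm_num) (by norm_num)
  have hdn : 0 < depth D n := Real.exp_pos _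
  have hd : 0 < depth D (n + 1) := Real.exp_pos _
  have hx1 : depth D n / 2 < 1 - nsq x := hx.1
  have hxb : x ∈ ball2 := show nsq x < 1 by linarith
  have hd' : depth D (n + 1) ≤ depth D n * η ^ 4 := by
    rw [depth_eq D (n + 1), tl_succ_eq, ← hηdef]
    exact le_of_eq (by ring)
  have hsm : ∀ {i : ℕ} {z : Fin 2 → ℂ} {u : ℝ}, z ∈ ball2 → u ≤ 1 / 64 →
      tl D (i + 1) ≤ u * (1 - nsq z) → |lay ρ D i z| ≤ C * CL * u := fun {i z u} hz hu hu' =>
    lay_small (Weight.tl_le hD i) hC.le hz hu hu' (hcell _ (Weight.tl_pos D _) (Weight.tl_le hD i))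
      (hsum _ (Weight.tl_pos D _) (Weight.tl_le hD i) z hz).2 hCL.le
  have hfine : ∀ z ∈ ball2, depth D (n + 1) / 2 < 1 - nsq z → ∀ k : ℕ,
      |lay ρ D (k + (n + 1)) z| ≤ C * CL * (2 * η ^ 2) * (1 / 2) ^ k := by
    intro z hz hdz k
    rw [mul_assoc (C * CL)]
    refine hsm hz ?_ ?_
    · refine (mul_le_of_le_one_right (by positivity) (hhalf k)).trans ?_
      linarith
    · rw [show k + (n + 1) + 1 = (n + 1) + (1 + k) by ring, tl_add, ← hηdef, pow_add, pow_one]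
      have h1 : tl D (n + 1) * η ^ 4 = η ^ 2 * depth D (n + 1) := by
        rw [depth_eq D (n + 1), ← hηdef]; ring
      calc tl D (n + 1) * (η ^ 4 * (η ^ 4) ^ k) = η ^ 2 * depth D (n + 1) * (η ^ 4) ^ k := by
            rw [← mul_assoc, h1]
        _ ≤ η ^ 2 * (2 * (1 - nsq z)) * (1 / 2) ^ k :=
          mul_le_mul (mul_le_mul_of_nonneg_left (by linarith) (sq_nonneg η)) (hgeo k)
            (by positivity) (mul_nonneg (sq_nonneg η) (by linarith))
        _ = _ := by ring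
  have hownx : |lay ρ D n x| ≤ C * CL * (2 * η ^ 2) := by
    refine hsm hxb (by linarith) ?_
    rw [tl_succ_eq, ← hηdef]
    calc depth D n * η ^ 2 ≤ 2 * (1 - nsq x) * η ^ 2 :=
          mul_le_mul_of_nonneg_right (by linarith) (sq_nonneg η)
      _ = _ := by ring
  have hcoarse : ∀ i ∈ Finset.range n,
      lay ρ D i y - lay ρ D i x ≤ 9 * (Cρ * CL) * η * (1 / 2) ^ (n - 1 - i) := by
    intro i hi
    have hi' : i < n := Finset.mem_range.1 hi
    set k := n - 1 - i with hk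
    set κ := η * (η ^ 2) ^ k with hκ
    have hκ1 : κ ≤ η * (1 / 2) ^ k :=
      mul_le_mul_of_nonneg_left (pow_le_pow_left₀ (sq_nonneg η) (by linarith) k) hη.le
    have hκ2 : η * (1 / 2) ^ k ≤ η := mul_le_of_le_one_right hη.le (hhalf k)
    have hκ0 : 0 ≤ κ := by positivity
    have hδκ : 1 - r ≤ κ ^ 2 * tl D (i + 1) := by
      refine hδ1.trans (le_of_eq ?_)
      rw [depth_eq, show n = (i + 1) + k by omega, tl_add, ← hηdef, hκ]
      ring
    refine (lay_osc (C := Cρ) (CL := CL) (w := 9 * κ) hCρ.le (by positivity) (by linarith) hxb hy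
      (fun e he => ?_) (hosc _ (Weight.tl_pos D _) (Weight.tl_le hD i))
      (hsum _ (Weight.tl_pos D _) (Weight.tl_le hD i) x hxb).1).trans ?_
    · rw [hxζ]
      exact osc hζ he (show nsq y < 1 from hy).le hr0 hr1 (Weight.tl_pos D _) (Weight.tl_le hD i) hκ0
        (by linarith) hδκ hyr
    · calc Cρ * CL * (9 * κ) = 9 * (Cρ * CL) * κ := by ring
        _ ≤ 9 * (Cρ * CL) * (η * (1 / 2) ^ k) := mul_le_mul_of_nonneg_left hκ1 (by positivity)
        _ = _ := by ring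
  have sy : Summable fun i => lay ρ D i y :=
    Weight.phiSum (layerSum shellVolume) ρ D hρ hρ' hD y hy
  have sx : Summable fun i => lay ρ D i x :=
    Weight.phiSum (layerSum shellVolume) ρ D hρ hρ' hD x hxb
  have s := sy.sub sx
  rw [phi_eq_tsum, phi_eq_tsum, ← sy.tsum_sub sx, ← s.sum_add_tsum_nat_add (n + 1),
    Finset.sum_range_succ]
  have h1 : ∑ i ∈ Finset.range n, (lay ρ D i y - lay ρ D i x) ≤ 18 * (Cρ * CL) * η := by
    refine (Finset.sum_le_sum hcoarse).trans ?_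
    rw [← Finset.mul_sum, Finset.sum_range_reflect (fun k => ((1 : ℝ) / 2) ^ k) n]
    refine (mul_le_mul_of_nonneg_left (sum_geometric_two_le n) (by positivity)).trans ?_
    linarith
  have hxd : depth D (n + 1) / 2 < 1 - nsq x := by
    have : depth D n * η ^ 4 ≤ depth D n := mul_le_of_le_one_right hdn.le (by linarith)
    linarith
  have h2 : ∑' k, (lay ρ D (k + (n + 1)) y - lay ρ D (k + (n + 1)) x)
      ≤ 8 * (C * CL) * η ^ 2 := by
    refine (Summable.tsum_le_tsum (g := fun k => C * CL * (4 * η ^ 2) * (1 / 2) ^ k)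
      (fun k => ?_) ((summable_nat_add_iff (n + 1)).2 s)
      (summable_geometric_two.mul_left _)).trans ?_
    · have := abs_le.1 (hfine y hy hyd k)
      have := abs_le.1 (hfine x hxb hxd k)
      linarith
    · rw [tsum_mul_left, tsum_geometric_two]; linarith
  have h3 := abs_le.1 hownx
  have h4 : 10 * (C * CL) * η ^ 2 ≤ 10 * (C * CL) * η :=
    mul_le_mul_of_nonneg_left (by linarith) (by positivity)
  linarith

/-- The slice of a cap lies in the region of the step. -/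
theorem cap_subset {R' R t r : ℝ} {e ζ : Fin 2 → ℂ} (hR : R ^ 2 ≤ 1) (ht : 0 < t)
    (ht' : t ≤ 1 / 1000) (htr : t ≤ (1 - r) / 10000) (hr : r < 1) (he : e ∈ sph) (hζ : ζ ∈ sph)
    (hnear : ‖ip e ζ - (r : ℂ)‖ ≤ (1 - r) / 4) :
    sliceSet R' R e (Metric.ball (av t : ℂ) (t / 2))
      ⊆ sliceSet R' R ζ (Metric.ball (r : ℂ) ((1 - r) / 2)) := by
  intro y hy
  refine ⟨hy.1, ?_⟩
  have hy1 : nsq y ≤ 1 := (le_of_lt hy.1.2).trans hR
  obtain ⟨-, -, ha1⟩ := OneVar.av_bounds ht ht'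
  have hm := ip_move hy1 he (le_of_eq hζ : nsq ζ ≤ 1)
  have h1 : ‖1 - ip y e‖ ≤ 3 * t :=
    (one_sub_le_of_mem_ball ha1.le hy.2).trans (by linarith [Weight.one_sub_av_le ht])
  have h2 : ‖1 - ip e ζ‖ ≤ 5 / 4 * (1 - r) := by
    have := norm_sub_le_norm_sub_add_norm_sub (1 : ℂ) (r : ℂ) (ip e ζ)
    rw [norm_sub_rev (r : ℂ), show (1 : ℂ) - (r : ℂ) = ((1 - r : ℝ) : ℂ) by push_cast; ring,
      Complex.norm_of_nonneg (by linarith : 0 ≤ 1 - r)] at this
    linarith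
  have h3 : Real.sqrt (‖1 - ip y e‖ * ‖1 - ip e ζ‖) ≤ (1 - r) / 25 := by
    rw [Real.sqrt_le_left (by linarith)]
    refine (mul_le_mul h1 h2 (norm_nonneg _) (by linarith)).trans ?_
    calc 3 * t * (5 / 4 * (1 - r)) ≤ 3 * ((1 - r) / 10000) * (5 / 4 * (1 - r)) :=
          mul_le_mul_of_nonneg_right (by linarith) (by linarith)
      _ ≤ _ := by nlinarith [sq_nonneg (1 - r)]
  rw [Metric.mem_ball, dist_eq_norm]
  have := norm_sub_le_norm_sub_add_norm_sub (ip y ζ) (ip e ζ) (r : ℂ)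
  linarith

/-- The caps of a net are disjoint. -/
theorem cap_disjoint {R' R t : ℝ} (hR : R ^ 2 ≤ 1) (ht : 0 < t) (ht' : t ≤ 1 / 1000)
    (T : Finset (Fin 2 → ℂ)) (hT : T ⊆ net t) :
    (↑T : Set (Fin 2 → ℂ)).PairwiseDisjoint
      fun e => sliceSet R' R e (Metric.ball (av t : ℂ) (t / 2)) := by
  intro e he e' he' hne
  rw [Function.onFun, Set.disjoint_left]
  intro y hy hy'
  obtain ⟨hmem, hsep, -⟩ := isNet_net t ht
  obtain ⟨-, -, ha1⟩ := OneVar.av_bounds ht ht'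
  have ha2 := Weight.one_sub_av_le ht
  have h1 : ‖1 - ip e y‖ ≤ 3 * t := by
    rw [norm_one_sub_ip_comm]
    exact (one_sub_le_of_mem_ball ha1.le hy.2).trans (by linarith)
  have h2 : ‖1 - ip y e'‖ ≤ 3 * t :=
    (one_sub_le_of_mem_ball ha1.le hy'.2).trans (by linarith)
  have := quasi (le_of_eq (hmem e (hT he))) ((le_of_lt hy.1.2).trans hR)
    (le_of_eq (hmem e' (hT he'))) h1 h2
  have := hsep e (hT he) e' (hT he') hne
  linarith

/-- Radial normalisation. -/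
theorem exists_polar {x : Fin 2 → ℂ} {δ : ℝ} (h0 : 0 < δ) (h1 : δ ≤ 1 / 4)
    (hx1 : δ / 2 < 1 - nsq x) (hx2 : 1 - nsq x < δ) :
    ∃ (r : ℝ) (ζ : Fin 2 → ℂ), 0 < r ∧ r < 1 ∧ ζ ∈ sph ∧ x = (r : ℂ) • ζ ∧
      1 - r ≤ δ ∧ δ / 4 ≤ 1 - r := by
  set r := Real.sqrt (nsq x) with hrdef
  have hr2 : r ^ 2 = nsq x := Real.sq_sqrt (by linarith)
  have hr0 : 0 < r := Real.sqrt_pos.2 (by linarith)
  have hr1 : r < 1 := by nlinarith
  refine ⟨r, ((r⁻¹ : ℝ) : ℂ) • x, hr0, hr1, ?_, ?_, by nlinarith, by nlinarith⟩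
  · show nsq (((r⁻¹ : ℝ) : ℂ) • x) = 1
    simp only [nsq, Pi.smul_apply, smul_eq_mul, map_mul, Complex.normSq_ofReal]
    rw [← mul_add]
    change r⁻¹ * r⁻¹ * nsq x = 1
    rw [← hr2]; field_simp
  · rw [smul_smul, ← ofReal_mul, mul_inv_cancel₀ hr0.ne', ofReal_one, one_smul]

/-- Radii of the shell at depth `d`. -/
theorem exists_radii {d : ℝ} (h0 : 0 < d) (h1 : d < 1) :
    ∃ R' R : ℝ, 0 < R' ∧ R' < R ∧ R < 1 ∧ R' ^ 2 = 1 - d ∧ R ^ 2 = 1 - d / 2 ∧ 1 - d ≤ R' := by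
  have h2 : Real.sqrt (1 - d) ^ 2 = 1 - d := Real.sq_sqrt (by linarith)
  have h3 : Real.sqrt (1 - d / 2) ^ 2 = 1 - d / 2 := Real.sq_sqrt (by linarith)
  have h4 : 0 < Real.sqrt (1 - d) := Real.sqrt_pos.2 (by linarith)
  have h5 := Real.sqrt_nonneg (1 - d / 2)
  exact ⟨_, _, h4, by nlinarith, by nlinarith, h2, h3, by nlinarith⟩

/-- A small radius beats the upper bound. -/
theorem negative {N M L cc δ t c : ℝ} (hN : 0 < N) (hL : L ≤ 0) (hM : 0 ≤ M)
    (hδ : 0 < δ) (hc : cc * δ ^ 2 ≤ t ^ 2 * c) (hl : cc * L ≤ -(M + 2)) :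
    N * (M + 1) * (δ / 2) ^ 2 + c * (t / 2) ^ 2 * (N * (2 * L + M + 1) - N * (M + 1)) < 0 := by
  have h2 : c * (t / 2) ^ 2 * (2 * L) ≤ cc * (δ / 2) ^ 2 * (2 * L) :=
    mul_le_mul_of_nonpos_right (by linarith) (by linarith)
  have h3 : cc * L * (2 * (δ / 2) ^ 2) ≤ -(M + 2) * (2 * (δ / 2) ^ 2) :=
    mul_le_mul_of_nonneg_right hl (by positivity)
  have h4 : (M + 1) * (δ / 2) ^ 2 + c * (t / 2) ^ 2 * (2 * L) < 0 := by
    have : 0 < (δ / 2) ^ 2 * (M + 3) := by positivity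
    linarith
  calc N * (M + 1) * (δ / 2) ^ 2 + c * (t / 2) ^ 2 * (N * (2 * L + M + 1) - N * (M + 1))
      = N * ((M + 1) * (δ / 2) ^ 2 + c * (t / 2) ^ 2 * (2 * L)) := by ring
    _ < 0 := mul_neg_of_pos_of_neg hN h4

/-- The constants of the step. -/
theorem exists_params {M cc K : ℝ} (hM : 0 < M) (hcc : 0 < cc) :
    ∃ ρ : ℝ, 0 < ρ ∧ ρ ≤ 1 / 10 ∧ cc * Real.log ρ ≤ -(M + 2) ∧ ∀ K' : ℝ, 0 ≤ K' → 0 ≤ K →
      ∃ D : ℝ, 7 ≤ D ∧ layGap D ≤ 1 / 200 ∧ layGap D * (4 * K + 1) ≤ 1 ∧ layGap D * (K' + 1) ≤ 1 := by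
  set ρ := min (1 / 10) (Real.exp (-((M + 2) / cc))) with hρdef
  have hρ : 0 < ρ := lt_min (by norm_num) (Real.exp_pos _)
  refine ⟨ρ, hρ, min_le_left _ _, ?_, fun K' hK' hK => ?_⟩
  · have := Real.log_le_log hρ (min_le_right (1 / 10) (Real.exp (-((M + 2) / cc))))
    rw [Real.log_exp, ← neg_div, le_div_iff₀ hcc] at this
    linarith
  set η0 := min (min (1 / 200) (1 / (4 * K + 1))) (1 / (K' + 1)) with hη0
  have hη00 : 0 < η0 := by rw [hη0]; positivity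
  have hle : layGap (max 7 (-4 * Real.log η0)) ≤ η0 := by
    rw [layGap, ← Real.exp_log hη00]
    refine Real.exp_le_exp.2 ?_
    rw [Real.exp_log hη00]
    linarith [le_max_right 7 (-4 * Real.log η0)]
  refine ⟨_, le_max_left _ _, hle.trans ((min_le_left _ _).trans (min_le_left _ _)), ?_, ?_⟩
  · have := hle.trans ((min_le_left _ _).trans (min_le_right _ _))
    rwa [le_div_iff₀ (by linarith)] at this
  · have := hle.trans (min_le_right _ _)
    rwa [le_div_iff₀ (by linarith)] at this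

end Step

/-- The basic step. -/
theorem step : StepStmt := by
  obtain ⟨CL, hCL, hsum⟩ := layerSum shellVolume
  obtain ⟨cc, K, hcc, hK, hcount⟩ := count shellVolume
  obtain ⟨⟨C, hC, hcell⟩, hosc⟩ := cell_spec
  have hCC : 0 < C * CL := mul_pos hC hCL
  set M := C + C * CL + 1 with hM
  obtain ⟨ρ, hρ, hρ', hlog, hD0⟩ := exists_params (K := K) (show 0 < M by linarith) hcc
  obtain ⟨Cρ, hCρ, hoscρ⟩ := hosc ρ hρ hρ'
  obtain ⟨D, hD, hg, hgK, hgK'⟩ :=
    hD0 (18 * (Cρ * CL) + 10 * (C * CL)) (by positivity) hK.le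
  refine ⟨ρ, D, 1, hρ, hρ', hD, one_pos, fun n hn x hx h hh hp N hN => ?_⟩
  obtain ⟨hdn4, htdn, hdt⟩ := scales (n := n) hD hg hn
  have hg0 := layGap_pos D
  have hdn : 0 < depth D n := Real.exp_pos _
  have hd : 0 < depth D (n + 1) := Real.exp_pos _
  obtain ⟨r, ζ, hr0, hr1, hζ, hxζ, hδ1, hδ2⟩ := exists_polar hdn hdn4 hx.1 hx.2
  obtain ⟨R', R, hR'0, hR'R, hR1, hR'2, hR2, hR'1⟩ := exists_radii hd (by linarith)
  set t := tl D (n + 1) with htdef
  have ht : 0 < t := Real.exp_pos _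
  have ht' : t ≤ 1 / 1000 := Weight.tl_le hD n
  obtain ⟨ha, hat, ha1⟩ := OneVar.av_bounds ht ht'
  have hshell : ∀ y ∈ shell R' R,
      y ∈ layerShell D (n + 1) ∧ y ∈ ball2 ∧ depth D (n + 1) / 2 < 1 - nsq y := fun y hy => by
    have h1 : R' ^ 2 < nsq y := hy.1
    have h2 : nsq y < R ^ 2 := hy.2
    exact ⟨⟨by linarith, by linarith⟩, show nsq y < 1 by linarith, by linarith⟩
  set T := (net t).filter fun e => ‖ip e ζ - (r : ℂ)‖ ≤ (1 - r) / 4 with hTdef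
  have hmem := (isNet_net t ht).1
  have hT : ∀ e ∈ T, e ∈ net t ∧ ‖ip e ζ - (r : ℂ)‖ ≤ (1 - r) / 4 := fun e he =>
    Finset.mem_filter.1 he
  have hin : ∀ e ∈ T, sliceSet R' R e (Metric.ball (av t : ℂ) (t / 2))
      ⊆ sliceSet R' R ζ (Metric.ball (r : ℂ) ((1 - r) / 2)) := fun e he =>
    cap_subset (by linarith) ht ht' (by linarith) hr1 (hmem e (hT e he).1) hζ (hT e he).2
  have hnet : ∀ y ∈ ball2, ∀ e ∈ net t, cell ρ D (n + 1) e y ≤ C * ‖vc t (ip y e)‖ ^ 5 :=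
    fun y hy e he => (hcell ρ t hρ hρ' ht ht' _ (norm_ip_lt_one hy (hmem e he))).1
  have hphi : ∀ y ∈ sliceSet R' R ζ (Metric.ball (r : ℂ) ((1 - r) / 2)),
      phi ρ D y - phi ρ D x ≤ lay ρ D n y + 1 := fun y hy => by
    obtain ⟨-, hyb, hyd⟩ := hshell y hy.1
    have h := phi_gain hD hg hρ hρ' hC hCρ hCL
      (fun t' h1 h2 s hs => (hcell ρ t' hρ hρ' h1 h2 s hs).2.1) hoscρ hsum hx hxζ hζ hr0.le hr1 hδ1
      hyb hyd ((one_sub_le_of_mem_ball hr1.le hy.2).trans (by linarith))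
    linarith
  have hKU : ∀ y ∈ sliceSet R' R ζ (Metric.ball (r : ℂ) ((1 - r) / 2)),
      phi ρ D y - phi ρ D x ≤ M := fun y hy => by
    obtain ⟨-, hyb, -⟩ := hshell y hy.1
    have h1 : lay ρ D n y ≤ C * CL := by
      refine (Finset.sum_le_sum (hnet y hyb)).trans ?_
      rw [← Finset.mul_sum]
      exact mul_le_mul_of_nonneg_left (hsum t ht ht' y hyb).1 hC.le
    linarith [hphi y hy]
  have hρt : ρ * t / 4 ≤ t / 2 := by
    linarith [mul_le_mul_of_nonneg_right hρ' ht.le]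
  have hLB : ∀ e ∈ T, ∀ y ∈ sliceSet R' R e (Metric.ball (av t : ℂ) (ρ * t / 4)),
      phi ρ D y - phi ρ D x ≤ 2 * Real.log ρ + M := fun e he y hy => by
    classical
    have hyU := hin e he ⟨hy.1, Metric.ball_subset_ball hρt hy.2⟩
    obtain ⟨-, hyb, -⟩ := hshell y hy.1
    have he' := (hT e he).1
    have h1 : cell ρ D (n + 1) e y ≤ 2 * Real.log ρ + C :=
      (hcell ρ t hρ hρ' ht ht' _ (norm_ip_lt_one hyb (hmem e he'))).2.2
        (by have := hy.2; rw [Metric.mem_ball, dist_eq_norm] at this; exact this.le)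
    have h2 : ∑ e' ∈ (net t).erase e, cell ρ D (n + 1) e' y ≤ C * CL := by
      refine (Finset.sum_le_sum fun e' he'' =>
        hnet y hyb e' (Finset.mem_of_mem_erase he'')).trans ?_
      rw [← Finset.mul_sum]
      refine mul_le_mul_of_nonneg_left (le_trans ?_ (hsum t ht ht' y hyb).1) hC.le
      exact Finset.sum_le_sum_of_subset_of_nonneg (Finset.erase_subset _ _)
        fun _ _ _ => by positivity
    have h3 : lay ρ D n y
        = cell ρ D (n + 1) e y + ∑ e' ∈ (net t).erase e, cell ρ D (n + 1) e' y :=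
      (Finset.add_sum_erase _ _ he').symm
    linarith [hphi y hyU]
  have hKt : K * t ≤ 1 - r := by
    have h1 : t = depth D n * layGap D ^ 2 := tl_succ_eq D n
    have h2 : layGap D ^ 2 ≤ layGap D := by
      rw [sq]; exact mul_le_of_le_one_left hg0.le (by linarith)
    have h3 : 4 * K * layGap D ^ 2 ≤ 1 := by
      linarith [mul_le_mul_of_nonneg_left h2 (show 0 ≤ 4 * K by linarith)]
    have h4 := mul_le_mul_of_nonneg_left h3 hdn.le
    rw [h1]
    linarith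
  have hcont : ContinuousOn (fun y => N * (phi ρ D y - phi ρ D x + 1)) ball2 :=
    continuousOn_const.mul ((((Weight.phi_spec (layerSum shellVolume)) ρ D hρ hρ' hD).1.continuousOn.sub
      continuousOn_const).add continuousOn_const)
  obtain ⟨y, hy, hle⟩ := exists_le_of_slices hR'0 hR'R hR1 hζ (r₀ := (1 - r) / 2) (r₁ := t / 2)
    (r₂ := ρ * t / 4) (by linarith) (by linarith) (by positivity) hr0.le (by linarith)
    (by linarith) (by linarith) hρt T (fun e he => hmem e (hT e he).1)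
    (cap_disjoint (by linarith) ht ht' T (Finset.filter_subset _ _)) hin hcont
    hh hp (K := N * (M + 1)) (L := N * (2 * Real.log ρ + M + 1))
    (fun y hy => mul_le_mul_of_nonneg_left (by linarith [hKU y hy]) hN.le)
    (fun e he y hy => mul_le_mul_of_nonneg_left (by linarith [hLB e he y hy]) hN.le)
    (negative hN (Real.log_nonpos hρ.le (by linarith)) (by linarith) (by linarith)
      (hcount t r ht hr1 hKt (by linarith) ζ hζ) hlog)
  refine ⟨y, (hshell y hy.1).1, ?_⟩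
  rw [← hxζ] at hle
  linarith

end Vale.Agent.P250.Full
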